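import Vale.Agent.P366.Alg0

/-! Linear algebra of the ansatz. -/

noncomputable section

open Matrix MeasureTheory Set Filter Topology

namespace Vale.Agent.P366

variable {n : ℕ}

theorem alg_nn {ι : Type} [Fintype ι] (v : ι → ℝ) : 0 ≤ v ⬝ᵥ v :=
  Finset.sum_nonneg fun i _ => mul_self_nonneg (v i)

theorem alg_bil {ι κ : Type} [Fintype ι] [Fintype κ] (B : Mn n) (A : Matrix (Fin n) ι ℝ)
    (C : Matrix (Fin n) κ ℝ) (u : ι → ℝ) (v : κ → ℝ) :
    bil B (A *ᵥ u) (C *ᵥ v) = u ⬝ᵥ (Aᵀ * B * C) *ᵥ v := by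
  rw [bil, ← mulVec_mulVec, ← mulVec_mulVec, dotProduct_mulVec u, vecMul_transpose]

theorem alg_ent {ι κ : Type} [Fintype ι] [Fintype κ] [DecidableEq ι] [DecidableEq κ]
    (A : Matrix ι κ ℝ) (a : ι) (c : κ) : Pi.single a 1 ⬝ᵥ A *ᵥ Pi.single c 1 = A a c := by
  simp

theorem alg_sum (A : Mn n) :
    ∑ a, vecMulVec (A *ᵥ Pi.single a 1) (A *ᵥ Pi.single a 1) = A * Aᵀ := by
  ext i j
  simp [Matrix.sum_apply, vecMulVec_apply, mul_apply]

section
variable {J : Fin 4 → Mn n} (hJ : QT J) {x : Fin n → ℝ}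
include hJ

theorem alg_P_ans (hx : x ⬝ᵥ x ≠ 0) (F : ℝ) (G : M4) : PP J x * ans J x F G = F • PP J x := by
  rw [ans, Matrix.mul_add, Matrix.mul_smul, Matrix.mul_smul, PP_PP hJ hx, ← Matrix.mul_assoc,
    ← Matrix.mul_assoc, PP_Xi hJ hx, Matrix.zero_mul, Matrix.zero_mul, smul_zero, add_zero]

theorem alg_ans_P (hx : x ⬝ᵥ x ≠ 0) (F : ℝ) (G : M4) : ans J x F G * PP J x = F • PP J x := by
  rw [ans, Matrix.add_mul, Matrix.smul_mul, Matrix.smul_mul, PP_PP hJ hx, Matrix.mul_assoc,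
    Xt_PP hJ hx, Matrix.mul_zero, smul_zero, add_zero]

theorem alg_Xt_ans (hx : x ⬝ᵥ x ≠ 0) (F : ℝ) (G : M4) :
    (Xi J x)ᵀ * ans J x F G = G * (Xi J x)ᵀ := by
  rw [ans, Matrix.mul_add, Matrix.mul_smul, Matrix.mul_smul, Xt_PP hJ hx, smul_zero, zero_add,
    ← Matrix.mul_assoc, ← Matrix.mul_assoc, XtX hJ, Matrix.smul_mul, Matrix.smul_mul,
    Matrix.one_mul, smul_smul, inv_mul_cancel₀ hx, one_smul]

omit hJ in
theorem ans_symm (F : ℝ) {G : M4} (hG : G.IsSymm) : (ans J x F G).IsSymm := by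
  unfold Matrix.IsSymm ans
  rw [transpose_add, transpose_smul, transpose_smul, PP_symm, transpose_mul, transpose_mul,
    transpose_transpose, hG.eq, Matrix.mul_assoc]

omit hJ in
theorem ans_eq (F : ℝ) (G : M4) :
    ans J x F G = F • (1 : Mn n) + (x ⬝ᵥ x)⁻¹ • (Xi J x * (G - F • (1 : M4)) * (Xi J x)ᵀ) := by
  unfold ans PP
  simp only [Matrix.mul_sub, Matrix.sub_mul, Matrix.mul_smul, Matrix.smul_mul, Matrix.mul_one,
    smul_sub, smul_smul, mul_comm F]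
  abel

omit hJ in
theorem ans_one : ans J x 1 1 = 1 := by
  rw [ans_eq]
  simp

omit hJ in
theorem ans_sub_smul (F F' t : ℝ) (G G' : M4) :
    ans J x F G - t • ans J x F' G' = ans J x (F - t * F') (G - t • G') := by
  unfold ans
  simp only [Matrix.mul_sub, Matrix.sub_mul, Matrix.mul_smul, Matrix.smul_mul, smul_sub, smul_add,
    smul_smul, sub_smul, mul_comm t]
  abel

omit hJ in
theorem ans_smul {c : ℝ} (hc : c ≠ 0) (F : ℝ) (G : M4) : ans J (c • x) F G = ans J x F G := by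
  rw [ans_eq, ans_eq, Xi_smul, transpose_smul]
  simp only [Matrix.mul_smul, Matrix.smul_mul, smul_smul, smul_dotProduct, dotProduct_smul,
    smul_eq_mul]
  congr 2
  rw [mul_inv, mul_inv]
  field_simp

theorem ans_mul (hx : x ⬝ᵥ x ≠ 0) (F F' : ℝ) (G G' : M4) :
    ans J x F G * ans J x F' G' = ans J x (F * F') (G * G') := by
  rw [ans, Matrix.add_mul, Matrix.smul_mul, Matrix.smul_mul, alg_P_ans hJ hx, Matrix.mul_assoc,
    alg_Xt_ans hJ hx, ans, smul_smul, Matrix.mul_assoc, Matrix.mul_assoc, Matrix.mul_assoc]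

theorem ans_inv (hx : x ⬝ᵥ x ≠ 0) {F : ℝ} (hF : F ≠ 0) {G : M4} (hG : G.det ≠ 0) :
    (ans J x F G)⁻¹ = ans J x F⁻¹ G⁻¹ := by
  refine Matrix.inv_eq_right_inv ?_
  rw [ans_mul hJ hx, mul_inv_cancel₀ hF, Matrix.mul_nonsing_inv _ (Ne.isUnit hG), ans_one]

/-- `ans_eq` and `Matrix.det_one_add_mul_comm`. -/
theorem ans_det (hn : 4 ≤ n) (hx : x ⬝ᵥ x ≠ 0) {F : ℝ} (hF : F ≠ 0) (G : M4) :
    (ans J x F G).det = F ^ (n - 4) * G.det := by
  have e : ans J x F G = F • (1 + (((x ⬝ᵥ x)⁻¹ * F⁻¹) • (Xi J x * (G - F • (1 : M4)))) *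
      (Xi J x)ᵀ) := by
    rw [ans_eq, smul_add, Matrix.smul_mul, smul_smul]
    congr 2
    field_simp
  have e2 : 1 + (Xi J x)ᵀ * (((x ⬝ᵥ x)⁻¹ * F⁻¹) • (Xi J x * (G - F • (1 : M4)))) = F⁻¹ • G := by
    rw [Matrix.mul_smul, ← Matrix.mul_assoc, XtX hJ, Matrix.smul_mul, Matrix.one_mul, smul_smul,
      mul_right_comm, inv_mul_cancel₀ hx, one_mul, smul_sub, smul_smul, inv_mul_cancel₀ hF,
      one_smul]
    abel
  rw [e, det_smul, det_one_add_mul_comm, e2, det_smul, Fintype.card_fin, Fintype.card_fin]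
  obtain ⟨m, rfl⟩ := Nat.exists_eq_add_of_le' hn
  rw [Nat.add_sub_cancel]
  field_simp
  ring

theorem ans_trace (hx : x ⬝ᵥ x ≠ 0) (F : ℝ) (G : M4) :
    trace (ans J x F G) = ((n : ℝ) - 4) * F + trace G := by
  rw [ans, trace_add, trace_smul, trace_smul, trace_PP hJ hx, trace_mul_comm, ← Matrix.mul_assoc,
    XtX hJ, Matrix.smul_mul, Matrix.one_mul, trace_smul, smul_eq_mul, smul_eq_mul, smul_eq_mul,
    inv_mul_cancel_left₀ hx, mul_comm]

theorem ans_Xi (hx : x ⬝ᵥ x ≠ 0) (F : ℝ) (G : M4) : ans J x F G * Xi J x = Xi J x * G := by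
  rw [ans, Matrix.add_mul, Matrix.smul_mul, Matrix.smul_mul, PP_Xi hJ hx, smul_zero, zero_add,
    Matrix.mul_assoc, XtX hJ, Matrix.mul_smul, Matrix.mul_one, smul_smul, inv_mul_cancel₀ hx,
    one_smul]

theorem Xt_ans_Xi (hx : x ⬝ᵥ x ≠ 0) (F : ℝ) (G : M4) :
    (Xi J x)ᵀ * ans J x F G * Xi J x = (x ⬝ᵥ x) • G := by
  rw [Matrix.mul_assoc, ans_Xi hJ hx, ← Matrix.mul_assoc, XtX hJ, Matrix.smul_mul, Matrix.one_mul]

theorem bil_hh (hx : x ⬝ᵥ x ≠ 0) (F : ℝ) (G : M4) (a b : Fin n → ℝ) :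
    bil (ans J x F G) (PP J x *ᵥ a) (PP J x *ᵥ b) = F * ((PP J x *ᵥ a) ⬝ᵥ (PP J x *ᵥ b)) := by
  rw [bil, mulVec_mulVec, alg_ans_P hJ hx, smul_mulVec, dotProduct_smul, smul_eq_mul]

theorem bil_hv (hx : x ⬝ᵥ x ≠ 0) (F : ℝ) (G : M4) (a : Fin n → ℝ) (z : Fin 4 → ℝ) :
    bil (ans J x F G) (PP J x *ᵥ a) (Xi J x *ᵥ z) = 0 := by
  rw [alg_bil, PP_symm, Matrix.mul_assoc, ans_Xi hJ hx, ← Matrix.mul_assoc, PP_Xi hJ hx,
    Matrix.zero_mul, zero_mulVec, dotProduct_zero]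

theorem bil_vh (hx : x ⬝ᵥ x ≠ 0) (F : ℝ) (G : M4) (a : Fin n → ℝ) (z : Fin 4 → ℝ) :
    bil (ans J x F G) (Xi J x *ᵥ z) (PP J x *ᵥ a) = 0 := by
  rw [alg_bil, Matrix.mul_assoc, alg_ans_P hJ hx, Matrix.mul_smul, Xt_PP hJ hx, smul_zero,
    zero_mulVec, dotProduct_zero]

theorem bil_vv (hx : x ⬝ᵥ x ≠ 0) (F : ℝ) (G : M4) (p q : Fin 4 → ℝ) :
    bil (ans J x F G) (Xi J x *ᵥ p) (Xi J x *ᵥ q) = (x ⬝ᵥ x) * bil G p q := by
  rw [alg_bil, Xt_ans_Xi hJ hx, smul_mulVec, dotProduct_smul, smul_eq_mul, bil]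

/-- `trace PP = n - 4 > 0` gives a nonzero horizontal vector. -/
theorem ans_posDef (hn : 4 < n) (hx : x ⬝ᵥ x ≠ 0) {F : ℝ} {G : M4}
    (h : (ans J x F G).PosDef) : 0 < F ∧ G.PosDef := by
  have hρ : 0 < x ⬝ᵥ x := lt_of_le_of_ne (alg_nn x) hx.symm
  constructor
  · have hP : ∃ a, PP J x *ᵥ a ≠ 0 := by
      by_contra hc
      push Not at hc
      have h0 : PP J x = 0 := Matrix.ext fun i j => by
        simpa using congrFun (hc (Pi.single j 1)) i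
      have h1 := trace_PP hJ hx
      rw [h0, trace_zero] at h1
      have h2 : (4 : ℝ) < n := by exact_mod_cast hn
      linarith
    obtain ⟨a, ha⟩ := hP
    have h1 := h.dotProduct_mulVec_pos ha
    rw [star_trivial] at h1
    have h2 := bil_hh hJ hx F G a a
    rw [bil] at h2
    rw [h2] at h1
    exact pos_of_mul_pos_left h1 (alg_nn _)
  · refine PosDef.of_dotProduct_mulVec_pos ?_ fun z hz => ?_
    · have h1 := isHermitian_conjTranspose_mul_mul (Xi J x) h.isHermitian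
      rw [conjTranspose_eq_transpose_of_trivial, Xt_ans_Xi hJ hx, IsHermitian,
        conjTranspose_eq_transpose_of_trivial, transpose_smul] at h1
      rw [IsHermitian, conjTranspose_eq_transpose_of_trivial]
      exact smul_right_injective _ hx h1
    · have h0 : Xi J x *ᵥ z ≠ 0 := fun h0 => by
        have h1 : ((Xi J x)ᵀ * Xi J x) *ᵥ z = 0 := by rw [← mulVec_mulVec, h0, mulVec_zero]
        rw [XtX hJ, smul_mulVec, one_mulVec] at h1
        exact hz ((smul_eq_zero.1 h1).resolve_left hx)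
      have h1 := h.dotProduct_mulVec_pos h0
      rw [star_trivial] at h1 ⊢
      have h2 := bil_vv hJ hx F G z z
      rw [bil, bil] at h2
      rw [h2] at h1
      exact pos_of_mul_pos_right h1 hρ.le

/-- `PP = ∑ a, (PP e_a)(PP e_a)ᵀ` since `PP` is a symmetric idempotent. -/
theorem frame_ans (hx : x ⬝ᵥ x ≠ 0) (F : ℝ) {Gi : M4} {d : Fin 4 → ℝ} {z : Fin 4 → Fin 4 → ℝ}
    (hGi : Gi = ∑ c, d c • vecMulVec (z c) (z c)) :
    ans J x F⁻¹ Gi = ∑ A, frD n F (x ⬝ᵥ x) d A • vecMulVec (fr J x z A) (fr J x z A) := by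
  rw [Fintype.sum_sum_type, ans, hGi]
  simp only [frD, fr, Sum.elim_inl, Sum.elim_inr]
  congr 1
  · rw [← Finset.smul_sum, alg_sum, PP_symm, PP_PP hJ hx]
  · rw [Matrix.mul_sum, Matrix.sum_mul, Finset.smul_sum]
    refine Finset.sum_congr rfl fun c _ => ?_
    rw [Matrix.mul_smul, Matrix.smul_mul, smul_smul, mul_vecMulVec, vecMulVec_mul,
      vecMul_transpose, div_eq_inv_mul]

/-- Contraction with an ansatz matrix. -/
theorem contr_ans (hx : x ⬝ᵥ x ≠ 0) (F : ℝ) (G : M4) (B : Mn n) :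
    ∑ i, ∑ j, ans J x F G i j * B i j
      = F * ∑ a, bil B (PP J x *ᵥ Pi.single a 1) (PP J x *ᵥ Pi.single a 1)
        + (x ⬝ᵥ x)⁻¹ * ∑ a, ∑ c, G a c *
            bil B (Xi J x *ᵥ Pi.single a 1) (Xi J x *ᵥ Pi.single c 1) := by
  have e : ∀ A : Mn n, ∑ i, ∑ j, A i j * B i j = trace (Aᵀ * B) := fun A => by
    rw [Finset.sum_comm]
    simp only [trace, diag_apply, mul_apply, transpose_apply]
  have e1 : ∑ a, bil B (PP J x *ᵥ Pi.single a 1) (PP J x *ᵥ Pi.single a 1) =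
      trace (PP J x * B) := by
    simp only [alg_bil, alg_ent]
    rw [← PP_PP hJ hx, Matrix.mul_assoc (PP J x), trace_mul_comm (PP J x), PP_PP hJ hx, PP_symm]
    rfl
  have e2 : ∑ a, ∑ c, G a c * bil B (Xi J x *ᵥ Pi.single a 1) (Xi J x *ᵥ Pi.single c 1) =
      trace ((Xi J x * G * (Xi J x)ᵀ)ᵀ * B) := by
    simp only [alg_bil, alg_ent]
    rw [transpose_mul, transpose_mul, transpose_transpose, Matrix.mul_assoc (Xi J x),
      trace_mul_comm, Matrix.mul_assoc Gᵀ, Matrix.mul_assoc Gᵀ, Finset.sum_comm]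
    simp only [trace, diag_apply, transpose_apply, mul_apply (M := Gᵀ)]
  rw [e, e1, e2, ans, transpose_add, transpose_smul, transpose_smul, PP_symm, Matrix.add_mul,
    Matrix.smul_mul, Matrix.smul_mul, trace_add, trace_smul, trace_smul, smul_eq_mul, smul_eq_mul]

end

end Vale.Agent.P366
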