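import Vale.Agent.P366.Base

/-! Linear algebra of the ansatz. -/

noncomputable section

open Matrix MeasureTheory Set Filter Topology

namespace Vale.Agent.P366

variable {n : ℕ}

theorem qt_of {I J : Mn n} (hI : Iᵀ = -I) (hJ : Jᵀ = -J) (hII : I * I = -1) (hJJ : J * J = -1)
    (hIJ : I * J = -(J * I)) : QT ![1, I, J, I * J] := by
  have h1 : J * I = -(I * J) := by rw [hIJ, neg_neg]
  have h2 : I * (I * J) = -J := by rw [← mul_assoc, hII, neg_one_mul]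
  have h3 : I * J * J = -I := by rw [mul_assoc, hJJ, mul_neg_one]
  have h4 : J * (I * J) = I := by rw [← mul_assoc, h1, neg_mul, h3, neg_neg]
  have h5 : I * J * I = J := by rw [mul_assoc, h1, mul_neg, h2, neg_neg]
  have h6 : I * J * (I * J) = -1 := by rw [← mul_assoc, h5, hJJ]
  refine ⟨rfl, fun p z => ?_, fun a => ?_⟩
  · simp only [Jv, Fin.sum_univ_four, qm, cons_val_zero, cons_val_one, cons_val_two,
      cons_val_three, Nat.succ_eq_add_one, Nat.reduceAdd, tail_cons, head_cons, add_mul, mul_add,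
      smul_mul_assoc, mul_smul_comm, one_mul, mul_one, hII, hJJ, h1, h2, h3, h4, h5, h6]
    module
  · fin_cases a
    · simp [sg]
    · simp [sg, hI]
    · simp [sg, hJ]
    · simp [sg, transpose_mul, hI, hJ, h1]

theorem Jv_single (J : Fin 4 → Mn n) (a : Fin 4) : Jv J (Pi.single a 1) = J a := by
  simp [Jv, Pi.single_apply, ite_smul]

theorem Xi_mulVec (J : Fin 4 → Mn n) (x : Fin n → ℝ) (z : Fin 4 → ℝ) :
    Xi J x *ᵥ z = Jv J z *ᵥ x := by
  ext i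
  simp only [Jv, sum_mulVec, smul_mulVec, Finset.sum_apply, Pi.smul_apply, smul_eq_mul]
  simp only [mulVec, dotProduct, Xi, of_apply]
  exact Finset.sum_congr rfl fun a _ => mul_comm _ _

theorem Xi_smul (J : Fin 4 → Mn n) (c : ℝ) (x : Fin n → ℝ) : Xi J (c • x) = c • Xi J x := by
  ext i a
  simp [Xi, mulVec_smul]

/-- Left multiplication by a basis quaternion. -/
def alg0_Lm (a : Fin 4) : M4 := Matrix.of fun i b => qm (Pi.single a 1) (Pi.single b 1) i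

theorem alg0_Lt (a : Fin 4) : (alg0_Lm a)ᵀ = sg a • alg0_Lm a := by
  ext i b
  fin_cases a <;> fin_cases i <;> fin_cases b <;> simp [alg0_Lm, qm, sg]

section
variable {J : Fin 4 → Mn n} (hJ : QT J) {x : Fin n → ℝ}
include hJ

theorem Jv_transpose (p : Fin 4 → ℝ) : (Jv J p)ᵀ = Jv J (fun a => sg a * p a) := by
  simp only [Jv, transpose_sum, transpose_smul, hJ.tr, smul_smul]
  exact Finset.sum_congr rfl fun a _ => by rw [mul_comm]

theorem alg0_skew {a : Fin 4} (ha : sg a = -1) : x ⬝ᵥ (J a *ᵥ x) = 0 := by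
  have h : x ⬝ᵥ (J a *ᵥ x) = x ⬝ᵥ ((J a)ᵀ *ᵥ x) := by
    rw [dotProduct_mulVec, mulVec_transpose, dotProduct_comm]
  rw [hJ.tr, ha, smul_mulVec, dotProduct_smul, smul_eq_mul] at h
  linarith

theorem alg0_dot (p : Fin 4 → ℝ) : x ⬝ᵥ (Jv J p *ᵥ x) = p 0 * (x ⬝ᵥ x) := by
  simp only [Jv, Fin.sum_univ_four, add_mulVec, smul_mulVec, dotProduct_add, dotProduct_smul,
    hJ.one, one_mulVec, alg0_skew hJ (a := 1) rfl, alg0_skew hJ (a := 2) rfl,
    alg0_skew hJ (a := 3) rfl, smul_eq_mul]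
  ring

/-- `⟨p x, q x⟩ = |x|^2 ⟨p, q⟩`: the skew matrices `J 1, J 2, J 3` have `x ⬝ᵥ J a x = 0`. -/
theorem Jv_dot (p q : Fin 4 → ℝ) : (Jv J p *ᵥ x) ⬝ᵥ (Jv J q *ᵥ x) = (x ⬝ᵥ x) * (p ⬝ᵥ q) := by
  rw [← vecMul_transpose, ← dotProduct_mulVec, mulVec_mulVec, Jv_transpose hJ, hJ.mul,
    alg0_dot hJ]
  simp [qm, sg, dotProduct, Fin.sum_univ_four]
  ring

theorem XtX : (Xi J x)ᵀ * Xi J x = (x ⬝ᵥ x) • (1 : M4) := by
  ext a b
  have h := Jv_dot hJ (x := x) (Pi.single a 1) (Pi.single b 1)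
  rw [Jv_single, Jv_single] at h
  have e : ((Xi J x)ᵀ * Xi J x) a b = (J a *ᵥ x) ⬝ᵥ (J b *ᵥ x) := rfl
  rw [e, h]
  simp [one_apply, Pi.single_apply, eq_comm]

theorem Xi_e0 : Xi J x *ᵥ Pi.single 0 1 = x := by
  rw [Xi_mulVec, Jv_single, hJ.one, one_mulVec]

theorem Xt_x : (Xi J x)ᵀ *ᵥ x = (x ⬝ᵥ x) • Pi.single 0 1 := by
  have h : (Xi J x)ᵀ *ᵥ (Xi J x *ᵥ Pi.single 0 1) = (x ⬝ᵥ x) • Pi.single 0 1 := by
    rw [mulVec_mulVec, XtX hJ, smul_mulVec, one_mulVec]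
  rwa [Xi_e0 hJ] at h

theorem J_mul_Xi (a : Fin 4) (z : Fin 4 → ℝ) :
    J a *ᵥ (Xi J x *ᵥ z) = Xi J x *ᵥ qm (Pi.single a 1) z := by
  rw [Xi_mulVec, Xi_mulVec, mulVec_mulVec, ← hJ.mul, Jv_single]

omit hJ in
theorem PP_symm : (PP J x)ᵀ = PP J x := by
  simp [PP, transpose_sub, transpose_smul, transpose_mul]

theorem PP_Xi (hx : x ⬝ᵥ x ≠ 0) : PP J x * Xi J x = 0 := by
  rw [PP, Matrix.sub_mul, Matrix.one_mul, Matrix.smul_mul, Matrix.mul_assoc, XtX hJ,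
    Matrix.mul_smul, Matrix.mul_one, smul_smul, inv_mul_cancel₀ hx, one_smul, sub_self]

theorem Xt_PP (hx : x ⬝ᵥ x ≠ 0) : (Xi J x)ᵀ * PP J x = 0 := by
  have h := congrArg transpose (PP_Xi hJ hx)
  rwa [transpose_mul, PP_symm, transpose_zero] at h

theorem PP_PP (hx : x ⬝ᵥ x ≠ 0) : PP J x * PP J x = PP J x := by
  have h : PP J x * PP J x =
      PP J x * (1 - (x ⬝ᵥ x)⁻¹ • (Xi J x * (Xi J x)ᵀ)) := rfl
  rw [h, Matrix.mul_sub, Matrix.mul_one, Matrix.mul_smul, ← Matrix.mul_assoc, PP_Xi hJ hx,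
    Matrix.zero_mul, smul_zero, sub_zero]

theorem trace_PP (hx : x ⬝ᵥ x ≠ 0) : trace (PP J x) = (n : ℝ) - 4 := by
  rw [PP, trace_sub, trace_smul, trace_mul_comm, XtX hJ, trace_smul, trace_one, trace_one]
  simp only [Fintype.card_fin, smul_eq_mul]
  field_simp
  norm_num

theorem alg0_L (a : Fin 4) : J a * Xi J x = Xi J x * alg0_Lm a := by
  ext i b
  have h := congrFun (J_mul_Xi hJ (x := x) a (Pi.single b 1)) i
  rw [mulVec_mulVec, mulVec_single_one] at h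
  exact h

theorem J_PP (hx : x ⬝ᵥ x ≠ 0) (a : Fin 4) : J a * PP J x = PP J x * J a := by
  have _ := hx
  have h1 := alg0_L hJ (x := x) a
  have h2 : (Xi J x)ᵀ * J a = alg0_Lm a * (Xi J x)ᵀ := by
    have h3 := congrArg transpose h1
    rw [transpose_mul, transpose_mul, hJ.tr, alg0_Lt, Matrix.mul_smul, Matrix.smul_mul] at h3
    have h4 : sg a ≠ 0 := by fin_cases a <;> simp [sg]
    exact smul_right_injective _ h4 h3
  rw [PP, Matrix.mul_sub, Matrix.sub_mul, Matrix.mul_one, Matrix.one_mul, Matrix.mul_smul,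
    Matrix.smul_mul, ← Matrix.mul_assoc, h1, Matrix.mul_assoc, Matrix.mul_assoc, h2]

end

theorem dot_self_eq (x : Euc n) : x.ofLp ⬝ᵥ x.ofLp = ‖x‖ ^ 2 := by
  rw [EuclideanSpace.real_norm_sq_eq]
  simp [dotProduct, sq]

end Vale.Agent.P366
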