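import Vale.Agent.P366.JetD

/-! Decay of the radial coefficients. -/

noncomputable section

open Matrix MeasureTheory Set Filter Topology Asymptotics

namespace Vale.Agent.P366

variable {n : ℕ}

/-- Decay of the radial data. -/
structure Dec (ε F : ℝ → ℝ) (G : ℝ → M4) (FK : ℝ → ℝ) (L : ℝ → M4) : Prop where
  dF : (fun r => F r - 1) =O[atTop] ε
  dFd : dot F =O[atTop] ε
  dG : ∀ a b, (fun r => G r a b - (1 : M4) a b) =O[atTop] ε
  dGd : ∀ a b, (fun r => dotM G r a b) =O[atTop] ε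
  dFK : (fun r => r * FK r) =O[atTop] ε
  dL : ∀ a b, (fun r => r * L r a b) =O[atTop] ε

theorem asy1_exp (l : Mn n →ₗ[ℝ] ℝ) (B : Mn n) :
    l B = ∑ i, ∑ j, B i j * l (Matrix.single i j 1) := by
  conv_lhs => rw [Matrix.matrix_eq_sum_single B]
  simp only [map_sum]
  refine Finset.sum_congr rfl fun i _ => Finset.sum_congr rfl fun j _ => ?_
  rw [← smul_eq_mul, ← map_smul, Matrix.smul_single, smul_eq_mul, mul_one]

theorem asy1_O (l : Mn n →ₗ[ℝ] ℝ) {B : ℝ → Mn n} {ε : ℝ → ℝ}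
    (h : ∀ i j, (fun r => B r i j) =O[atTop] ε) : (fun r => l (B r)) =O[atTop] ε := by
  simp only [asy1_exp l (B _)]
  exact IsBigO.fun_sum fun i _ => IsBigO.fun_sum fun j _ => by
    simpa only [mul_comm] using (h i j).const_mul_left (l (Matrix.single i j 1))

theorem asy1_D (l : Mn n →ₗ[ℝ] ℝ) {B : ℝ → Mn n} {B' : Mn n} {r : ℝ}
    (h : ∀ i j, HasDerivAt (fun s => B s i j) (B' i j) r) :
    HasDerivAt (fun s => l (B s)) (l B') r := by
  simp only [asy1_exp l (B _), asy1_exp l B']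
  exact HasDerivAt.fun_sum fun i _ => HasDerivAt.fun_sum fun j _ => (h i j).mul_const _

theorem asy1_mul {r y C q : ℝ} (hr : 0 < r) (h : |y| ≤ C * r ^ (-q - 1)) :
    ‖r * y‖ ≤ C * ‖r ^ (-q)‖ := by
  rw [Real.norm_of_nonneg (Real.rpow_nonneg hr.le _), Real.norm_eq_abs, abs_mul, abs_of_pos hr]
  rw [Real.rpow_sub_one hr.ne', ← mul_div_assoc, le_div_iff₀' hr] at h
  exact h

theorem asy1_rep {J : Fin 4 → Mn n} (hJ : QT J) (hn : 4 < n) {v : Fin n → ℝ} (hv : v ⬝ᵥ v = 1) :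
    ∃ (φ : Fin 4 → Fin 4 → Mn n →ₗ[ℝ] ℝ) (ψ : Mn n →ₗ[ℝ] ℝ), ∀ F G,
      (∀ a b, φ a b (ans J v F G) = G a b) ∧ ψ (ans J v F G) = F := by
  have h0 : v ⬝ᵥ v ≠ 0 := by rw [hv]; exact one_ne_zero
  let φ : Fin 4 → Fin 4 → Mn n →ₗ[ℝ] ℝ := fun a b =>
    { toFun := fun B => ((Xi J v)ᵀ * B * Xi J v) a b
      map_add' := fun B B' => by simp [Matrix.mul_add, Matrix.add_mul]
      map_smul' := fun c B => by simp }
  have h1 : ∀ F G a b, φ a b (ans J v F G) = G a b := fun F G a b => by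
    change ((Xi J v)ᵀ * ans J v F G * Xi J v) a b = _
    rw [Xt_ans_Xi hJ h0, hv, one_smul]
  refine ⟨φ, ((n : ℝ) - 4)⁻¹ • (Matrix.traceLinearMap (Fin n) ℝ ℝ - ∑ a, φ a a),
    fun F G => ⟨h1 F G, ?_⟩⟩
  have h2 : (n : ℝ) - 4 ≠ 0 := sub_ne_zero.2 (by exact_mod_cast hn.ne')
  simp only [LinearMap.smul_apply, LinearMap.sub_apply, LinearMap.sum_apply, h1,
    Matrix.traceLinearMap_apply, ans_trace hJ h0, smul_eq_mul]
  change _ * (_ + trace G - trace G) = F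
  rw [add_sub_cancel_right, inv_mul_cancel_left₀ h2]

/-- Along the ray `r e` with `e = single 0 1`: `G r = (Xi e)ᵀ g(r e) (Xi e)` (`Xt_ans_Xi`,
`ans_smul`), `(n-4) F r = tr g(r e) - tr G r` (`ans_trace`); the derivative of
`r ↦ g (r e) i j` is `pd (g · i j) 0 (r e)`. -/
theorem dec_of {J : Fin 4 → Mn n} (hJ : QT J) (hn : 4 < n) {r₁ : ℝ} (hr : 0 < r₁) {g K : Fld n}
    {F FK : ℝ → ℝ} {G L : ℝ → M4} (hg : Rad J r₁ 2 g F G) (hK : Rad J r₁ 1 K FK L)
    {q C R₀ : ℝ}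
    (hdec : ∀ x : Euc n, R₀ < ‖x‖ → ∀ i j k, |g x i j - (1 : Mn n) i j| ≤ C * ‖x‖ ^ (-q) ∧
      |pd (fun y => g y i j) k x| ≤ C * ‖x‖ ^ (-q - 1) ∧ |K x i j| ≤ C * ‖x‖ ^ (-q - 1)) :
    Dec (fun r => r ^ (-q)) F G FK L := by

  set i0 : Fin n := ⟨0, by omega⟩
  set e : Euc n := EuclideanSpace.single i0 1 with he
  have ne : ∀ r : ℝ, 0 < r → ‖r • e‖ = r := fun r h => by
    rw [norm_smul, he, PiLp.norm_single, norm_one, mul_one, Real.norm_of_nonneg h.le]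
  have hv : e.ofLp ⬝ᵥ e.ofLp = 1 := by
    have h := ne 1 one_pos
    rw [one_smul] at h
    rw [dot_self_eq, h, one_pow]
  obtain ⟨φ, ψ, hφ⟩ := asy1_rep hJ hn hv
  have ray : ∀ {k : ℕ} {g : Fld n} {F : ℝ → ℝ} {G : ℝ → M4}, Rad J r₁ k g F G → ∀ r, r₁ < r →
      g (r • e) = ans J e.ofLp (F r) (G r) := fun h r h1 => by
    have h2 := hr.trans h1
    rw [h.eq _ (by rwa [ne r h2]), ne r h2, WithLp.ofLp_smul, ans_smul h2.ne']
  have hd : ∀ᶠ r : ℝ in atTop, 0 < r ∧ ∀ i j k,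
      |g (r • e) i j - (1 : Mn n) i j| ≤ C * r ^ (-q) ∧
      |pd (fun y => g y i j) k (r • e)| ≤ C * r ^ (-q - 1) ∧
      |K (r • e) i j| ≤ C * r ^ (-q - 1) := by
    filter_upwards [eventually_gt_atTop 0, eventually_gt_atTop R₀] with r h1 h2
    have h := hdec (r • e) (by rwa [ne r h1])
    rw [ne r h1] at h
    exact ⟨h1, h⟩
  have o1 : ∀ i j, (fun r : ℝ => (g (r • e) - 1) i j) =O[atTop] fun r : ℝ => r ^ (-q) :=
    fun i j => IsBigO.of_bound C (hd.mono fun r h => by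
      rw [Real.norm_of_nonneg (Real.rpow_nonneg h.1.le _)]
      exact (h.2 i j i).1)
  have o2 : ∀ i j, (fun r : ℝ => (r • dg g (r • e) i0) i j) =O[atTop] fun r : ℝ => r ^ (-q) :=
    fun i j => IsBigO.of_bound C (hd.mono fun r h => asy1_mul h.1 (h.2 i j i0).2.1)
  have o3 : ∀ i j, (fun r : ℝ => (r • K (r • e)) i j) =O[atTop] fun r : ℝ => r ^ (-q) :=
    fun i j => IsBigO.of_bound C (hd.mono fun r h => asy1_mul h.1 (h.2 i j i).2.2)
  have der : ∀ r, r₁ < r → ∀ i j, HasDerivAt (fun s : ℝ => g (s • e) i j)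
      (dg g (r • e) i0 i j) r := fun r h1 i j => by
    have h2 := ((rad_contDiffAt hr hg (x := r • e) (by rwa [ne r (hr.trans h1)]) i j
      ).differentiableAt (by norm_num)).hasFDerivAt.comp_hasDerivAt r
      ((hasDerivAt_id' r).smul_const e)
    rw [one_smul] at h2
    exact h2
  have k1 : ∀ (l : Mn n →ₗ[ℝ] ℝ) (f : ℝ → ℝ) (c : ℝ), (∀ r, r₁ < r → l (g (r • e)) = f r) →
      l 1 = c → (fun r => f r - c) =O[atTop] fun r : ℝ => r ^ (-q) := fun l f c h hc =>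
    (asy1_O l o1).congr' ((eventually_gt_atTop r₁).mono fun r h1 => by
      simp only [map_sub, h r h1, hc]) EventuallyEq.rfl
  have k2 : ∀ (l : Mn n →ₗ[ℝ] ℝ) (f : ℝ → ℝ), (∀ r, r₁ < r → l (g (r • e)) = f r) →
      dot f =O[atTop] fun r : ℝ => r ^ (-q) := fun l f h =>
    (asy1_O l o2).congr' ((eventually_gt_atTop r₁).mono fun r h1 => by
      have h2 : HasDerivAt f (l (dg g (r • e) i0)) r :=
        (asy1_D l (der r h1)).congr_of_eventuallyEq
          ((lt_mem_nhds h1).mono fun s hs => (h s hs).symm)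
      simp only [map_smul, smul_eq_mul, dot, h2.deriv]) EventuallyEq.rfl
  have k3 : ∀ (l : Mn n →ₗ[ℝ] ℝ) (f : ℝ → ℝ), (∀ r, r₁ < r → l (K (r • e)) = f r) →
      (fun r => r * f r) =O[atTop] fun r : ℝ => r ^ (-q) := fun l f h =>
    (asy1_O l o3).congr' ((eventually_gt_atTop r₁).mono fun r h1 => by
      simp only [map_smul, smul_eq_mul, h r h1]) EventuallyEq.rfl
  have one := hφ 1 1
  rw [ans_one] at one
  exact ⟨k1 ψ F 1 (fun r h => by rw [ray hg r h, (hφ _ _).2]) one.2,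
    k2 ψ F fun r h => by rw [ray hg r h, (hφ _ _).2],
    fun a b => k1 (φ a b) (fun r => G r a b) _ (fun r h => by rw [ray hg r h, (hφ _ _).1])
      (one.1 a b),
    fun a b => k2 (φ a b) (fun r => G r a b) fun r h => by rw [ray hg r h, (hφ _ _).1],
    k3 ψ FK fun r h => by rw [ray hK r h, (hφ _ _).2],
    fun a b => k3 (φ a b) (fun r => L r a b) fun r h => by rw [ray hK r h, (hφ _ _).1]⟩

end Vale.Agent.P366
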