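import Vale.Agent.P366.Ex0

/-! First order expansions with quadratic remainder at infinity. -/

noncomputable section

open Matrix MeasureTheory Set Filter Topology Asymptotics

namespace Vale.Agent.P366

variable {n : ℕ}

theorem ex_taylor {φ : ℝ → ℝ} {a : ℝ} (hφ : ContDiffAt ℝ 2 φ a) :
    (fun t => φ t - φ a - deriv φ a * (t - a)) =O[𝓝 a] fun t => (t - a) ^ 2 := by
  have h1 : DifferentiableAt ℝ (deriv φ) a :=
    ((hφ.fderiv_right (m := 1) (by norm_num)).differentiableAt one_ne_zero).clm_apply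
      (differentiableAt_const (1 : ℝ))
  have h2 : ∀ᶠ t in 𝓝 a, DifferentiableAt ℝ φ t :=
    (hφ.eventually (by simp)).mono fun _ ht => ht.differentiableAt two_ne_zero
  obtain ⟨C, hC, h3⟩ := h1.isBigO_sub.exists_pos
  obtain ⟨r, hr, h4⟩ := Metric.eventually_nhds_iff_ball.1 (h2.and h3.bound)
  refine IsBigO.of_bound C ?_
  filter_upwards [Metric.ball_mem_nhds a hr] with t ht
  have hs : Metric.closedBall a ‖t - a‖ ⊆ Metric.ball a r :=
    Metric.closedBall_subset_ball (mem_ball_iff_norm.1 ht)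
  have h5 := (convex_closedBall a ‖t - a‖).norm_image_sub_le_of_norm_hasDerivWithin_le
    (f := fun s => φ s - deriv φ a * s) (f' := fun s => deriv φ s - deriv φ a)
    (C := C * ‖t - a‖) (fun s h => (((h4 s (hs h)).1.hasDerivAt.sub
      ((hasDerivAt_id s).const_mul (deriv φ a))).congr_deriv (by simp)).hasDerivWithinAt)
    (fun s h => (h4 s (hs h)).2.trans
      (mul_le_mul_of_nonneg_left (mem_closedBall_iff_norm.1 h) hC.le))
    (Metric.mem_closedBall_self (norm_nonneg _)) (mem_closedBall_iff_norm.2 le_rfl)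
  have e : φ t - φ a - deriv φ a * (t - a) = φ t - deriv φ a * t - (φ a - deriv φ a * a) := by
    ring
  rw [e, norm_pow, sq, ← mul_assoc]
  exact h5

section
variable {ε f g l k : ℝ → ℝ} {a b : ℝ} (hε : Tendsto ε atTop (𝓝 0))
include hε

/-- Taylor: `φ t - φ a - φ' (t - a) = O((t-a)^2)` near `a`. -/
theorem Ex.comp {φ : ℝ → ℝ} (hφ : ContDiffAt ℝ 2 φ a) (h : Ex ε f a l) :
    Ex ε (fun r => φ (f r)) (φ a) (fun r => deriv φ a * l r) := by
  refine ⟨h.lin.const_mul_left _, ?_⟩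
  have h1 := ((ex_taylor hφ).comp_tendsto (h.tendsto hε)).trans ((h.isBigO hε).pow 2)
  refine (h1.add (h.rem.const_mul_left (deriv φ a))).congr_left fun r => ?_
  simp only [Function.comp_apply]
  ring

theorem Ex.inv (ha : a ≠ 0) (h : Ex ε f a l) :
    Ex ε (fun r => (f r)⁻¹) a⁻¹ (fun r => -(l r) / a ^ 2) := by
  refine (h.comp hε (contDiffAt_inv ℝ ha)).congr (Eventually.of_forall fun _ => rfl) rfl
    fun r => ?_
  rw [(hasDerivAt_inv ha).deriv]
  ring

theorem Ex.div (hb : b ≠ 0) (h₁ : Ex ε f a l) (h₂ : Ex ε g b k) :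
    Ex ε (fun r => f r / g r) (a / b) (fun r => l r / b - a * k r / b ^ 2) := by
  exact (h₁.mul hε (h₂.inv hε hb)).congr (Eventually.of_forall fun _ => (div_eq_mul_inv _ _).symm)
    (div_eq_mul_inv _ _).symm fun r => by ring

theorem Ex.sqrt (h : Ex ε f 1 l) : Ex ε (fun r => √(f r)) 1 (fun r => l r / 2) := by
  refine (h.comp hε (Real.contDiffAt_sqrt one_ne_zero)).congr (Eventually.of_forall fun _ => rfl)
    Real.sqrt_one fun r => ?_
  rw [(Real.hasDerivAt_sqrt one_ne_zero).deriv, Real.sqrt_one]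
  ring

theorem Ex.rpow (p : ℝ) (h : Ex ε f 1 l) : Ex ε (fun r => f r ^ p) 1 (fun r => p * l r) := by
  refine (h.comp hε (Real.contDiffAt_rpow_const_of_ne (p := p) one_ne_zero)).congr
    (Eventually.of_forall fun _ => rfl) (Real.one_rpow p) fun r => ?_
  rw [(Real.hasDerivAt_rpow_const (Or.inl one_ne_zero)).deriv, Real.one_rpow, mul_one]

theorem Ex.pow (N : ℕ) (h : Ex ε f 1 l) : Ex ε (fun r => f r ^ N) 1 (fun r => N * l r) := by
  refine (h.comp hε (φ := fun t => t ^ N) (contDiffAt_id.pow N)).congr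
    (Eventually.of_forall fun _ => rfl) (one_pow N) fun r => ?_
  rw [(hasDerivAt_pow N 1).deriv, one_pow, mul_one]

/-- Expand the determinant. -/
theorem Ex.det4 {G : ℝ → M4} (h : ∀ a b, (fun r => G r a b - (1 : M4) a b) =O[atTop] ε) :
    Ex ε (fun r => (G r).det) 1 (fun r => trace (G r) - 4) := by
  have e := fun a b => Ex.of_isBigO (h a b)
  have e3 := fun i j k : Fin 4 =>
    (((((((e 1 i).mul hε (e 2 j)).mul hε (e 3 k)).sub
      (((e 1 i).mul hε (e 2 k)).mul hε (e 3 j))).sub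
      (((e 1 j).mul hε (e 2 i)).mul hε (e 3 k))).add
      (((e 1 j).mul hε (e 2 k)).mul hε (e 3 i))).add
      (((e 1 k).mul hε (e 2 i)).mul hε (e 3 j))).sub
      (((e 1 k).mul hε (e 2 j)).mul hε (e 3 i))
  have e4 := ((((e 0 0).mul hε (e3 1 2 3)).sub ((e 0 1).mul hε (e3 0 2 3))).add
    ((e 0 2).mul hε (e3 0 1 3))).sub ((e 0 3).mul hε (e3 0 1 2))
  refine e4.congr (Eventually.of_forall fun r => ?_) (by simp) fun r => ?_
  · simp [det_succ_row_zero, Fin.sum_univ_succ, Fin.succAbove]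
    ring
  · simp [trace, Fin.sum_univ_four]
    ring

/-- `G⁻¹ - 1 + δ = G⁻¹ δ δ` for `δ = G - 1`, eventually, and `G⁻¹ → 1`. -/
theorem Ex.inv4 {G : ℝ → M4} (h : ∀ a b, (fun r => G r a b - (1 : M4) a b) =O[atTop] ε)
    (a b : Fin 4) :
    Ex ε (fun r => (G r)⁻¹ a b) ((1 : M4) a b) (fun r => -(G r a b - (1 : M4) a b)) := by
  refine ⟨(h a b).neg_left, ?_⟩
  have h1 : Tendsto G atTop (𝓝 1) := tendsto_pi_nhds.2 fun c => tendsto_pi_nhds.2 fun d =>
    (Ex.of_isBigO (h c d)).tendsto hε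
  have h2 : Tendsto (fun r => (G r)⁻¹) atTop (𝓝 (1 : M4)⁻¹) := by
    refine (continuousAt_matrix_inv (1 : M4) ?_).tendsto.comp h1
    rw [det_one, Ring.inverse_eq_inv']
    exact continuousAt_inv₀ one_ne_zero
  have h3 : ∀ c d, (fun r => (G r)⁻¹ c d) =O[atTop] fun _ => (1 : ℝ) := fun c d =>
    (tendsto_pi_nhds.1 (tendsto_pi_nhds.1 h2 c) d).isBigO_one ℝ
  have h4 : (fun r => ∑ d, (∑ c, (G r)⁻¹ a c * (G r c d - (1 : M4) c d)) *
      (G r d b - (1 : M4) d b)) =O[atTop] fun r => ε r ^ 2 :=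
    IsBigO.fun_sum fun d _ => ((IsBigO.fun_sum fun c _ => (h3 a c).mul (h c d)).mul
      (h d b)).congr_right fun r => by ring
  refine h4.congr' ?_ EventuallyEq.rfl
  filter_upwards [((Ex.det4 hε h).tendsto hε).eventually_ne one_ne_zero] with r hr
  have h5 : (G r)⁻¹ * (G r - 1) * (G r - 1) = (G r)⁻¹ - 1 + (G r - 1) := by
    have h7 : (G r)⁻¹ * (G r - 1) = 1 - (G r)⁻¹ := by
      rw [Matrix.mul_sub, nonsing_inv_mul _ hr.isUnit, Matrix.mul_one]
    rw [h7, Matrix.sub_mul, Matrix.one_mul, h7]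
    abel
  have h6 := congrFun (congrFun h5 a) b
  simp only [mul_apply, Matrix.add_apply, Matrix.sub_apply] at h6
  rw [h6]
  ring

end

end Vale.Agent.P366
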