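import Vale.Agent.P366.Asy1
import Vale.Agent.P366.Ex

/-! The mass function tends to twice the energy. -/

noncomputable section

open Matrix MeasureTheory Set Filter Topology Asymptotics

namespace Vale.Agent.P366

variable {n : ℕ}

section
variable {ε F FK : ℝ → ℝ} {G L : ℝ → M4} (hε : Tendsto ε atTop (𝓝 0)) (h : Dec ε F G FK L)
  (m : ℝ)
include hε h

omit hε h in
theorem asy2_zero {f : ℝ → ℝ} (hf : f =O[atTop] ε) : Ex ε f 0 f :=
  (Ex.of_isBigO (a := 0) (by simpa using hf)).congr (Eventually.of_forall fun _ => rfl) rfl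
    fun _ => sub_zero _

omit h in
theorem asy2_big {f l : ℝ → ℝ} (hf : Ex ε f 0 l) : f =O[atTop] ε := by
  simpa using hf.isBigO hε

theorem asy2_L {A : ℝ → M4} (hA : ∀ a b, (fun r => A r a b) =O[atTop] ε) (a b : Fin 4) :
    Ex ε (fun r => ((G r)⁻¹ * A r) a b) 0 (fun r => A r a b) :=
  (Ex.sum Finset.univ fun c _ => Ex.mul hε (Ex.inv4 hε h.dG a c) (asy2_zero (hA c b))).congr
    (Eventually.of_forall fun _ => (mul_apply ..).symm) (by simp)
    fun r => by simp [one_apply]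

theorem asy2_R {A : ℝ → M4} {l : Fin 4 → Fin 4 → ℝ → ℝ}
    (hA : ∀ a b, Ex ε (fun r => A r a b) 0 (l a b)) (a b : Fin 4) :
    Ex ε (fun r => (A r * (G r)⁻¹) a b) 0 (l a b) :=
  (Ex.sum Finset.univ fun c _ => Ex.mul hε (hA a c) (Ex.inv4 hε h.dG c b)).congr
    (Eventually.of_forall fun _ => (mul_apply ..).symm) (by simp)
    fun r => by simp [one_apply]

theorem asy2_tr {A : ℝ → M4} (hA : ∀ a b, (fun r => A r a b) =O[atTop] ε) :
    Ex ε (fun r => trace ((G r)⁻¹ * A r)) 0 (fun r => trace (A r)) :=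
  (Ex.sum Finset.univ fun c _ => asy2_L hε h hA c c).congr
    (Eventually.of_forall fun _ => rfl) (by simp) fun _ => rfl

omit hε in
theorem asy2_trY : Ex ε (fun r => trY (G r)) 3 (fun r => trY (G r) - 3) := by
  refine Ex.of_isBigO ((((h.dG 1 1).add (h.dG 2 2)).add (h.dG 3 3)).congr_left fun r => ?_)
  simp only [trY, trace, diag_apply, Fin.sum_univ_four, one_apply_eq]
  ring


theorem ex_uf : Ex ε (uf G) 1 (fun r => -(G r 0 0 - 1)) :=
  (Ex.inv4 hε h.dG 0 0).congr (Eventually.of_forall fun _ => rfl) (one_apply_eq _)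
    fun r => by rw [one_apply_eq]

theorem ex_hf : Ex ε (hf m F G) (m + 3) (fun r => (m * dot F r + trY (dotM G r)) / 2) := by
  have h1 := Ex.div hε one_ne_zero ((asy2_zero h.dFd).cmul m) (Ex.of_isBigO h.dF)
  have h2 := asy2_tr hε h h.dGd
  have h3 := Ex.div hε one_ne_zero ((asy2_R hε h (asy2_L hε h h.dGd) 0 0).cmul (-1)) (ex_uf hε h)
  refine ((((h1.add h2).add h3).cmul (1 / 2)).add (Ex.const ε (m + 3))).congr
    (Eventually.of_forall fun r => ?_) (by ring) fun r => ?_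
  · simp only [hf, hh, ud, uf, neg_one_mul]
  · simp only [trY]
    ring

theorem ex_kf : kf m F G FK L =O[atTop] ε := by
  have hL : ∀ a b, (fun r => (r • L r) a b) =O[atTop] ε := h.dL
  have h1 := Ex.div hε one_ne_zero ((asy2_zero h.dFK).cmul m) (Ex.of_isBigO h.dF)
  have h2 := asy2_tr hε h hL
  have h3 := Ex.div hε one_ne_zero (asy2_R hε h (asy2_L hε h hL) 0 0) (ex_uf hε h)
  refine asy2_big hε (((h1.add h2).sub h3).congr (Eventually.of_forall fun r => ?_) (by ring)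
    fun r => rfl)
  simp only [kf, kk, tt, nn, uf, Matrix.mul_smul, Matrix.smul_mul, trace_smul, Matrix.smul_apply,
    smul_eq_mul]
  ring

theorem ex_detY : Ex ε (fun r => detY (G r)) 1 (fun r => trY (G r) - 3) :=
  (Ex.mul hε (Ex.det4 hε h.dG) (ex_uf hε h)).congr (Eventually.of_forall fun _ => rfl) (by ring)
    fun r => by
      simp only [trY]
      ring

theorem ex_Hf : Ex ε (Hf m F G) (m + 3)
    (fun r => -(trY (G r) - 3) / 2 - m * (F r - 1) / 2) := by
  have h1 := Ex.div hε one_ne_zero (asy2_trY h) (Ex.sqrt hε (ex_detY hε h))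
  have h2 : Ex ε (fun r => trY (G r) / 3) 1 (fun r => (trY (G r) - 3) / 3) :=
    ((asy2_trY h).cmul (1 / 3)).congr (Eventually.of_forall fun r => by ring) (by ring)
      fun r => by ring
  have h3 := Ex.sqrt hε h2
  have h4 := Ex.div hε one_ne_zero (Ex.const ε 1) h3
  have h5 := Ex.div hε one_ne_zero h3 (Ex.of_isBigO h.dF)
  exact (h1.add ((h4.add h5).cmul (m / 2))).congr (Eventually.of_forall fun r => rfl) (by ring)
    fun r => by ring

theorem ex_one_sub (hm : 0 < m) : Ex ε (fun r => 1 - Wf m F G FK L r / Hf m F G r ^ 2) 0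
    (fun r => fl m (F r) (dot F r) (G r) (dotM G r) / (m + 3)) := by
  have hm' : m + 3 ≠ 0 := by positivity
  have h1 := Ex.mul hε (ex_uf hε h) (Ex.mul hε (ex_hf hε h m) (ex_hf hε h m))
  have h2 := Ex.mul hε (asy2_zero (ex_kf hε h m)) (asy2_zero (ex_kf hε h m))
  have h3 := Ex.mul hε (ex_Hf hε h m) (ex_Hf hε h m)
  refine ((Ex.const ε 1).sub (Ex.div hε (mul_ne_zero hm' hm') (h1.sub h2) h3)).congr
    (Eventually.of_forall fun r => ?_) ?_ fun r => ?_
  · simp only [Wf, sq]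
  · field_simp
    ring
  · simp only [fl]
    field_simp
    ring

theorem ev_untrapped (hm : 0 < m) :
    ∀ᶠ r in atTop, 0 < Tp m F G FK L r ∧ 0 < Tm m F G FK L r := by
  have h1 := (Ex.mul hε (Ex.sqrt hε (ex_uf hε h)) (ex_hf hε h m)).tendsto hε
  have h2 := (ex_kf hε h m).trans_tendsto hε
  exact ((h1.add h2).eventually (lt_mem_nhds (by linarith))).and
    ((h1.sub h2).eventually (lt_mem_nhds (by linarith)))

end

/-- For `r > 0`, `af^p = r^(n-2) (√(F^(n-4) detY))^p`; the second factor is `1 + O(ε)`, so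
`Mf - r^(n-2) fl/(n-1) = O(r^(n-2) ε^2)` with `ε = r^(-q)`. -/
theorem Mf_asym (hn : 4 < n) {q : ℝ} (hq : ((n : ℝ) - 2) / 2 < q) {F FK : ℝ → ℝ}
    {G L : ℝ → M4} (h : Dec (fun r => r ^ (-q)) F G FK L) :
    Tendsto (fun r => Mf n F G FK L r
      - r ^ (n - 2) * fl ((n : ℝ) - 4) (F r) (dot F r) (G r) (dotM G r) / ((n : ℝ) - 1))
      atTop (𝓝 0) := by
  have hn' : (4 : ℝ) < n := by exact_mod_cast hn
  have hε : Tendsto (fun r : ℝ => r ^ (-q)) atTop (𝓝 0) := tendsto_rpow_neg_atTop (by linarith)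
  have h1 := Ex.mul hε (Ex.pow hε (n - 4) (Ex.of_isBigO h.dF)) (ex_detY hε h)
  rw [mul_one] at h1
  have h2 := Ex.mul hε (Ex.rpow hε (((n : ℝ) - 2) / ((n : ℝ) - 1)) (Ex.sqrt hε h1))
    (ex_one_sub hε h ((n : ℝ) - 4) (by linarith))
  have h3 := (isBigO_refl (fun r : ℝ => r ^ (n - 2)) atTop).mul h2.rem
  have c1 : ((n - 1 : ℕ) : ℝ) = n - 1 := by rw [Nat.cast_sub (by omega), Nat.cast_one]
  have c2 : ((n - 2 : ℕ) : ℝ) = n - 2 := by rw [Nat.cast_sub (by omega), Nat.cast_ofNat]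
  have h4 : Tendsto (fun r : ℝ => r ^ (n - 2) * (r ^ (-q)) ^ 2) atTop (𝓝 0) := by
    refine (tendsto_rpow_neg_atTop (y := 2 * q - (n - 2)) (by linarith)).congr' ?_
    filter_upwards [eventually_gt_atTop 0] with r hr
    rw [← Real.rpow_natCast r, ← Real.rpow_natCast, ← Real.rpow_mul hr.le, ← Real.rpow_add hr, c2]
    congr 1
    push_cast
    ring
  refine (h3.trans_tendsto h4).congr' ?_
  filter_upwards [eventually_gt_atTop 0] with r hr
  have e : (r ^ (n - 1)) ^ (((n : ℝ) - 2) / ((n : ℝ) - 1)) = r ^ (n - 2) := by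
    rw [← Real.rpow_natCast r, ← Real.rpow_mul hr.le, ← Real.rpow_natCast r, c1, c2,
      mul_div_cancel₀ _ (by linarith)]
  have e2 : (n : ℝ) - 4 + 3 = n - 1 := by ring
  simp only [Mf, af, al]
  rw [Real.mul_rpow (by positivity) (Real.sqrt_nonneg _), e, e2]
  ring

end Vale.Agent.P366
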