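import Vale.Agent.P366.Defs

/-! Proof-side definitions: quaternionic triples, the invariant ansatz, its first jet,
frames and the radial scalar quantities. -/

noncomputable section

open Matrix MeasureTheory Set

namespace Vale.Agent.P366

variable {n : ℕ}

abbrev M4 := Matrix (Fin 4) (Fin 4) ℝ
abbrev Mn (n : ℕ) := Matrix (Fin n) (Fin n) ℝ

/-- Quaternion product in coordinates. -/
def qm (p z : Fin 4 → ℝ) : Fin 4 → ℝ :=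
  ![p 0 * z 0 - p 1 * z 1 - p 2 * z 2 - p 3 * z 3,
    p 0 * z 1 + p 1 * z 0 + p 2 * z 3 - p 3 * z 2,
    p 0 * z 2 - p 1 * z 3 + p 2 * z 0 + p 3 * z 1,
    p 0 * z 3 + p 1 * z 2 - p 2 * z 1 + p 3 * z 0]

def sg : Fin 4 → ℝ := ![1, -1, -1, -1]

def Jv (J : Fin 4 → Mn n) (p : Fin 4 → ℝ) : Mn n := ∑ a, p a • J a

/-- A quaternionic structure `1, J 1, J 2, J 3` by orthogonal matrices. -/
structure QT (J : Fin 4 → Mn n) : Prop where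
  one : J 0 = 1
  mul : ∀ p z, Jv J p * Jv J z = Jv J (qm p z)
  tr : ∀ a, (J a)ᵀ = sg a • J a

/-- The matrix with columns `J a x`. -/
def Xi (J : Fin 4 → Mn n) (x : Fin n → ℝ) : Matrix (Fin n) (Fin 4) ℝ :=
  Matrix.of fun i a => (J a *ᵥ x) i

/-- Projection onto the horizontal space at `x`. -/
def PP (J : Fin 4 → Mn n) (x : Fin n → ℝ) : Mn n :=
  1 - (x ⬝ᵥ x)⁻¹ • (Xi J x * (Xi J x)ᵀ)

/-- The invariant ansatz. -/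
def ans (J : Fin 4 → Mn n) (x : Fin n → ℝ) (F : ℝ) (G : M4) : Mn n :=
  F • PP J x + (x ⬝ᵥ x)⁻¹ • (Xi J x * G * (Xi J x)ᵀ)

/-- Derivative of the ansatz in direction `w`; `Fd`, `Gd` are the derivatives in `log r`. -/
def jet (J : Fin 4 → Mn n) (x : Fin n → ℝ) (F Fd : ℝ) (G Gd : M4) (w : Fin n → ℝ) : Mn n :=
  ((x ⬝ᵥ w) / (x ⬝ᵥ x)) • (Fd • (1 : Mn n) + (x ⬝ᵥ x)⁻¹ •
      (Xi J x * (Gd - Fd • (1 : M4) - (2 : ℝ) • (G - F • (1 : M4))) * (Xi J x)ᵀ))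
    + (x ⬝ᵥ x)⁻¹ • (Xi J w * (G - F • (1 : M4)) * (Xi J x)ᵀ
      + Xi J x * (G - F • (1 : M4)) * (Xi J w)ᵀ)

def jetT (J : Fin 4 → Mn n) (x : Fin n → ℝ) (F Fd : ℝ) (G Gd : M4) (k : Fin n) : Mn n :=
  jet J x F Fd G Gd (Pi.single k 1)

def bil {ι : Type} [Fintype ι] (B : Matrix ι ι ℝ) (u v : ι → ℝ) : ℝ := u ⬝ᵥ (B *ᵥ v)

/-- The trilinear form of a first jet: derivative in direction `w`, evaluated on `u, v`. -/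
def tri (T : Fin n → Mn n) (w u v : Fin n → ℝ) : ℝ := ∑ k, w k * bil (T k) u v

/-- Vertical part of the jet. -/
def tv (F : ℝ) (G Gd : M4) (z p q : Fin 4 → ℝ) : ℝ :=
  z 0 * bil (Gd - (2 : ℝ) • (G - F • (1 : M4))) p q
    + p ⬝ᵥ qm ((G - F • (1 : M4)) *ᵥ q) z + q ⬝ᵥ qm ((G - F • (1 : M4)) *ᵥ p) z

/-- First derivatives of a tensor field. -/
def dg (g : Fld n) (x : Euc n) (k : Fin n) : Mn n :=
  Matrix.of fun i j => pd (fun y => g y i j) k x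

def chA (gi : Mn n) (T : Fin n → Mn n) (k i j : Fin n) : ℝ :=
  (1 / 2) * ∑ l, gi k l * (T i j l + T j i l - T l i j)

def VA (gi : Mn n) (T : Fin n → Mn n) (k : Fin n) : ℝ :=
  ∑ i, ∑ j, gi i j * chA gi T k i j - ∑ j, gi k j * ∑ i, chA gi T i i j

def QA (gi : Mn n) (T : Fin n → Mn n) : ℝ :=
  ∑ i, ∑ j, gi i j * ∑ k, ∑ l, chA gi T k j l * chA gi T l i k
    - ∑ i, ∑ l, gi i l * (∑ j, chA gi T j j l) * (∑ k, chA gi T k k i)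

def curA (gi : Mn n) (T : Fin n → Mn n) (B : Mn n) (S : Fin n → Mn n) (j : Fin n) : ℝ :=
  ∑ i, ∑ k, gi i k * (S k i j - ∑ l, (chA gi T l k i * B l j + chA gi T l k j * B i l))

theorem chr_eq (g : Fld n) (k i j : Fin n) (x : Euc n) :
    chr g k i j x = chA (g x)⁻¹ (dg g x) k i j := rfl

theorem cur_eq (g K : Fld n) (j : Fin n) (x : Euc n) :
    cur g K j x = curA (g x)⁻¹ (dg g x) (mom g K x) (dg (mom g K) x) j := rfl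

/-- Frame adapted to the point `x`: projected basis vectors and four vertical vectors. -/
def fr (J : Fin 4 → Mn n) (x : Fin n → ℝ) (z : Fin 4 → Fin 4 → ℝ) :
    Fin n ⊕ Fin 4 → Fin n → ℝ :=
  Sum.elim (fun a => PP J x *ᵥ Pi.single a 1) (fun c => Xi J x *ᵥ z c)

def frD (n : ℕ) (F ρ : ℝ) (d : Fin 4 → ℝ) : Fin n ⊕ Fin 4 → ℝ :=
  Sum.elim (fun _ => F⁻¹) (fun c => d c / ρ)

/-- Derivative in `log r`. -/
def dot (F : ℝ → ℝ) (r : ℝ) : ℝ := r * deriv F r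

def dotM (G : ℝ → M4) (r : ℝ) : M4 := Matrix.of fun a b => dot (fun s => G s a b) r

/-- The field `g` has the invariant form with `C^k` radial coefficients. -/
structure Rad (J : Fin 4 → Mn n) (r₁ : ℝ) (k : ℕ) (g : Fld n) (F : ℝ → ℝ) (G : ℝ → M4) :
    Prop where
  eq : ∀ x : Euc n, r₁ < ‖x‖ → g x = ans J x.ofLp (F ‖x‖) (G ‖x‖)
  cF : ContDiffOn ℝ k F (Ioi r₁)
  cG : ∀ a b, ContDiffOn ℝ k (fun r => G r a b) (Ioi r₁)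
  sym : ∀ r, r₁ < r → (G r).IsSymm

/-! Radial scalars, as functions of the values at one radius; `m = n - 4`. -/

def uu (G : M4) : ℝ := G⁻¹ 0 0
def ud (G Gd : M4) : ℝ := -((G⁻¹ * Gd * G⁻¹) 0 0)
def hh (m F Fd : ℝ) (G Gd : M4) : ℝ :=
  (1 / 2) * (m * Fd / F + trace (G⁻¹ * Gd) + ud G Gd / uu G) + (m + 3)
def tt (m F : ℝ) (G : M4) (FK : ℝ) (L : M4) : ℝ := m * FK / F + trace (G⁻¹ * L)
def nn (G L : M4) : ℝ := (G⁻¹ * L * G⁻¹) 0 0 / uu G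
def nd (G Gd L Ld : M4) : ℝ :=
  (-(G⁻¹ * Gd * G⁻¹ * L * G⁻¹) 0 0 + (G⁻¹ * Ld * G⁻¹) 0 0 - (G⁻¹ * L * G⁻¹ * Gd * G⁻¹) 0 0) / uu G
    - (G⁻¹ * L * G⁻¹) 0 0 * ud G Gd / uu G ^ 2
def kk (m F : ℝ) (G : M4) (FK : ℝ) (L : M4) : ℝ := tt m F G FK L - nn G L
def trY (G : M4) : ℝ := trace G - G 0 0
def detY (G : M4) : ℝ := G.det * uu G
def H0 (m F : ℝ) (G : M4) : ℝ :=
  trY G / √(detY G) + (m / 2) * (1 / √(trY G / 3) + √(trY G / 3) / F)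
def al (n : ℕ) (r F : ℝ) (G : M4) : ℝ := r ^ (n - 1) * √(F ^ (n - 4) * detY G)
def vv (m F Fd : ℝ) (G Gd : M4) : ℝ :=
  m / F + trace G⁻¹ + (2 + m) * uu G - 2 * uu G * hh m F Fd G Gd
def fl (m F Fd : ℝ) (G Gd : M4) : ℝ :=
  m * (G 0 0 - F - Fd) + 3 * G 0 0 - trY G - trY Gd

/-- The quadratic part of the scalar curvature in a vertical frame. -/
def QV (m F Fd : ℝ) (G Gd : M4) (d : Fin 4 → ℝ) (z : Fin 4 → Fin 4 → ℝ) : ℝ :=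
  -(1 / 4) * (∑ a, ∑ b, ∑ c, d a * d b * d c * tv F G Gd (z a) (z b) (z c) ^ 2
      + 2 * (m / F ^ 2) * ∑ c, d c * ∑ e, ((G - F • (1 : M4)) *ᵥ z c) e ^ 2
      + (m / F ^ 2) * ∑ c, d c * (z c 0 * Fd) ^ 2)
    + (1 / 2) * (∑ a, ∑ b, ∑ c, d a * d b * d c *
          (tv F G Gd (z a) (z b) (z c) * tv F G Gd (z c) (z b) (z a))
      + 2 * (m / F ^ 2) * ∑ c, d c * (((G - F • (1 : M4)) *ᵥ z c) 0 * (z c 0 * Fd))
      + (m / F ^ 2) * ∑ c, d c * ∑ e, sg e * ((G - F • (1 : M4)) *ᵥ z c) e ^ 2)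
    - (1 / 4) * ∑ c, d c * (m / F * (z c 0 * Fd) + ∑ b, d b * tv F G Gd (z c) (z b) (z b)) ^ 2

/-- The divergence of an invariant tensor `(FB, B)` on a vertical vector `w`. -/
def CV (m F Fd : ℝ) (G Gd : M4) (FB : ℝ) (B Bd : M4) (d : Fin 4 → ℝ) (z : Fin 4 → Fin 4 → ℝ)
    (w : Fin 4 → ℝ) : ℝ :=
  (m / F * ((B - FB • (1 : M4)) *ᵥ w) 0 + ∑ c, d c * tv FB B Bd (z c) (z c) w)
    - ∑ c, d c * (m / F * ((G - F • (1 : M4)) *ᵥ z c) 0 + ∑ a, d a * tv F G Gd (z a) (z a) (z c)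
        - (1 / 2) * (m / F * (z c 0 * Fd) + ∑ a, d a * tv F G Gd (z c) (z a) (z a)))
        * bil B (z c) w
    - (1 / 2) * (m * FB / F ^ 2 * (w 0 * Fd)
        + ∑ a, ∑ b, d a * d b * bil B (z a) (z b) * tv F G Gd w (z a) (z b))

/-! The diagonal parametrisation of a positive `4 × 4` matrix with diagonal lower block. -/

def Gdg (u : ℝ) (b y : Fin 3 → ℝ) : M4 :=
  !![1 / u + (y 0 * b 0 ^ 2 + y 1 * b 1 ^ 2 + y 2 * b 2 ^ 2), y 0 * b 0, y 1 * b 1, y 2 * b 2;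
     y 0 * b 0, y 0, 0, 0;
     y 1 * b 1, 0, y 1, 0;
     y 2 * b 2, 0, 0, y 2]

def Gdgi (u : ℝ) (b y : Fin 3 → ℝ) : M4 :=
  !![u, -(u * b 0), -(u * b 1), -(u * b 2);
     -(u * b 0), 1 / y 0 + u * b 0 * b 0, u * b 0 * b 1, u * b 0 * b 2;
     -(u * b 1), u * b 1 * b 0, 1 / y 1 + u * b 1 * b 1, u * b 1 * b 2;
     -(u * b 2), u * b 2 * b 0, u * b 2 * b 1, 1 / y 2 + u * b 2 * b 2]

def zdg (b : Fin 3 → ℝ) : Fin 4 → Fin 4 → ℝ :=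
  ![![1, -b 0, -b 1, -b 2], ![0, 1, 0, 0], ![0, 0, 1, 0], ![0, 0, 0, 1]]

def ddg (u : ℝ) (y : Fin 3 → ℝ) : Fin 4 → ℝ := ![u, 1 / y 0, 1 / y 1, 1 / y 2]

/-- Fibre part of the (rescaled) second fundamental form. -/
def Ah (b y : Fin 3 → ℝ) (Gd : M4) : Matrix (Fin 3) (Fin 3) ℝ :=
  !![Gd 1 1 / 2 + y 0, Gd 1 2 / 2 - b 2 * (y 1 - y 0), Gd 1 3 / 2 + b 1 * (y 2 - y 0);
     Gd 1 2 / 2 - b 2 * (y 1 - y 0), Gd 2 2 / 2 + y 1, Gd 2 3 / 2 - b 0 * (y 2 - y 1);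
     Gd 1 3 / 2 + b 1 * (y 2 - y 0), Gd 2 3 / 2 - b 0 * (y 2 - y 1), Gd 3 3 / 2 + y 2]

def aH (F Fd : ℝ) : ℝ := Fd / (2 * F) + 1

def A2 (m F Fd : ℝ) (b y : Fin 3 → ℝ) (Gd : M4) : ℝ :=
  ∑ i : Fin 3, ∑ j : Fin 3, Ah b y Gd i j ^ 2 / (y i * y j) + m * aH F Fd ^ 2

def AK (m F Fd : ℝ) (b y : Fin 3 → ℝ) (Gd : M4) (FK : ℝ) (L : M4) : ℝ :=
  ∑ i : Fin 3, ∑ j : Fin 3, Ah b y Gd i j * L i.succ j.succ / (y i * y j) + m * aH F Fd * (FK / F)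

def KT2 (m F : ℝ) (y : Fin 3 → ℝ) (FK : ℝ) (L : M4) : ℝ :=
  ∑ i : Fin 3, ∑ j : Fin 3, L i.succ j.succ ^ 2 / (y i * y j) + m * (FK / F) ^ 2

/-- Scalar curvature of the orbit (rescaled). -/
def RS (m F : ℝ) (y : Fin 3 → ℝ) : ℝ :=
  m * (m + 8) / F - m * (y 0 + y 1 + y 2) / F ^ 2
    + 2 * ((y 0 + y 1 + y 2) ^ 2 - 2 * (y 0 ^ 2 + y 1 ^ 2 + y 2 ^ 2)) / (y 0 * y 1 * y 2)

/-- Logarithmic gradient of `H0` in the fibre lengths. -/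
def grY (m F : ℝ) (y : Fin 3 → ℝ) (i : Fin 3) : ℝ :=
  2 * y i / √(y 0 * y 1 * y 2) - (y 0 + y 1 + y 2) / √(y 0 * y 1 * y 2)
    + (y i / (y 0 + y 1 + y 2)) *
      ((m / 2) * (√((y 0 + y 1 + y 2) / 3) / F) - (m / 2) * (1 / √((y 0 + y 1 + y 2) / 3)))

def grH (F : ℝ) (y : Fin 3 → ℝ) : ℝ := -(√((y 0 + y 1 + y 2) / 3) / F)

def H0d (m F : ℝ) (y : Fin 3 → ℝ) : ℝ :=
  (y 0 + y 1 + y 2) / √(y 0 * y 1 * y 2)
    + (m / 2) * (1 / √((y 0 + y 1 + y 2) / 3) + √((y 0 + y 1 + y 2) / 3) / F)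

/-! Radial functions. -/

def uf (G : ℝ → M4) (r : ℝ) : ℝ := uu (G r)
def hf (m : ℝ) (F : ℝ → ℝ) (G : ℝ → M4) (r : ℝ) : ℝ :=
  hh m (F r) (dot F r) (G r) (dotM G r)
def kf (m : ℝ) (F : ℝ → ℝ) (G : ℝ → M4) (FK : ℝ → ℝ) (L : ℝ → M4) (r : ℝ) : ℝ :=
  r * kk m (F r) (G r) (FK r) (L r)
def Wf (m : ℝ) (F : ℝ → ℝ) (G : ℝ → M4) (FK : ℝ → ℝ) (L : ℝ → M4) (r : ℝ) : ℝ :=
  uf G r * hf m F G r ^ 2 - kf m F G FK L r ^ 2
def Hf (m : ℝ) (F : ℝ → ℝ) (G : ℝ → M4) (r : ℝ) : ℝ := H0 m (F r) (G r)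
def af (n : ℕ) (F : ℝ → ℝ) (G : ℝ → M4) (r : ℝ) : ℝ := al n r (F r) (G r)
/-- The monotone mass function (twice the mass). -/
def Mf (n : ℕ) (F : ℝ → ℝ) (G : ℝ → M4) (FK : ℝ → ℝ) (L : ℝ → M4) (r : ℝ) : ℝ :=
  af n F G r ^ (((n : ℝ) - 2) / ((n : ℝ) - 1)) *
    (1 - Wf ((n : ℝ) - 4) F G FK L r / Hf ((n : ℝ) - 4) F G r ^ 2)
/-- `r` times the future expansion. -/
def Tp (m : ℝ) (F : ℝ → ℝ) (G : ℝ → M4) (FK : ℝ → ℝ) (L : ℝ → M4) (r : ℝ) : ℝ :=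
  √(uf G r) * hf m F G r + kf m F G FK L r
/-- `r` times the past expansion. -/
def Tm (m : ℝ) (F : ℝ → ℝ) (G : ℝ → M4) (FK : ℝ → ℝ) (L : ℝ → M4) (r : ℝ) : ℝ :=
  √(uf G r) * hf m F G r - kf m F G FK L r

/-- Rotated quaternionic structure. -/
def rotJ (J : Fin 4 → Mn n) (O : M4) : Fin 4 → Mn n := fun a => Jv J (O a)

/-- Orthogonal `4 × 4` matrices fixing the first basis vector. -/
structure Rot4 (O : M4) : Prop where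
  orth : Oᵀ * O = 1
  row : ∀ a, O 0 a = if a = 0 then 1 else 0
  col : ∀ a, O a 0 = if a = 0 then 1 else 0

end Vale.Agent.P366
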