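import Vale.Agent.P366.Frame0

/-! Contractions expressed in a frame that diagonalises the inverse metric. -/

noncomputable section

open Matrix MeasureTheory Set Filter Topology

namespace Vale.Agent.P366

variable {n : ℕ}

theorem frame_sw {α β γ : Type} [Fintype α] [Fintype β] [Fintype γ] (F : α → β → γ → ℝ) :
    ∑ i, ∑ j, ∑ c, F i j c = ∑ c, ∑ i, ∑ j, F i j c :=
  (Finset.sum_congr rfl fun _ _ => Finset.sum_comm).trans Finset.sum_comm

theorem frame_tri (T : Fin n → Mn n) (w u v : Fin n → ℝ) :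
    tri T w u v = ∑ k, ∑ i, ∑ j, w k * u i * v j * T k i j := by
  simp only [tri, bil, dotProduct, mulVec, Finset.mul_sum]
  exact Finset.sum_congr rfl fun k _ => Finset.sum_congr rfl fun i _ =>
    Finset.sum_congr rfl fun j _ => by ring

theorem frame_bsym {B : Mn n} (hB : B.IsSymm) (u v : Fin n → ℝ) : bil B u v = bil B v u := by
  rw [bil, bil, dotProduct_mulVec, ← mulVec_transpose, hB.eq, dotProduct_comm]

theorem frame_tsym {T : Fin n → Mn n} (hT : ∀ k, (T k).IsSymm) (w u v : Fin n → ℝ) :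
    tri T w u v = tri T w v u :=
  Finset.sum_congr rfl fun k _ => by rw [frame_bsym (hT k)]

/-- The lowered symbols contracted with `u`. -/
def frameG (T : Fin n → Mn n) (u : Fin n → ℝ) : Mn n :=
  Matrix.of fun i j => (1 / 2) * ∑ l, u l * (T i j l + T j i l - T l i j)

theorem frame_bil (T : Fin n → Mn n) (w u v : Fin n → ℝ) :
    u ⬝ᵥ frameG T w *ᵥ v = (1 / 2) * (tri T u v w + tri T v u w - tri T w u v) := by
  rw [frame_tri, frame_tri, frame_tri, ← frame_sw fun i j l => w l * u i * v j * T l i j,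
    Finset.sum_comm (f := fun j i => ∑ l, v j * u i * w l * T j i l)]
  simp only [frameG, dotProduct, mulVec, of_apply, Finset.mul_sum, Finset.sum_mul,
    ← Finset.sum_add_distrib, ← Finset.sum_sub_distrib]
  exact Finset.sum_congr rfl fun i _ => Finset.sum_congr rfl fun j _ =>
    Finset.sum_congr rfl fun l _ => by ring

section
variable {κ : Type} [Fintype κ] {D : κ → ℝ} {f : κ → Fin n → ℝ} {gi : Mn n}

theorem frame_gi (hgi : gi = ∑ A, D A • vecMulVec (f A) (f A)) (i j : Fin n) :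
    gi i j = ∑ A, D A * (f A i * f A j) := by
  simp only [hgi, Matrix.sum_apply, Matrix.smul_apply, vecMulVec_apply, smul_eq_mul]

theorem frame_ch (hgi : gi = ∑ A, D A • vecMulVec (f A) (f A)) (T : Fin n → Mn n)
    (k i j : Fin n) : chA gi T k i j = ∑ A, D A * (f A k * frameG T (f A) i j) := by
  simp only [chA, frameG, frame_gi hgi, of_apply, Finset.mul_sum, Finset.sum_mul]
  rw [Finset.sum_comm]
  exact Finset.sum_congr rfl fun A _ => Finset.sum_congr rfl fun l _ => by ring

theorem frame_two (hgi : gi = ∑ A, D A • vecMulVec (f A) (f A)) (x y : Fin n → ℝ) :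
    ∑ i, ∑ j, gi i j * (x i * y j) = ∑ A, D A * ((f A ⬝ᵥ x) * (f A ⬝ᵥ y)) := by
  simp only [frame_gi hgi, dotProduct, Finset.sum_mul_sum]
  simp only [Finset.mul_sum, Finset.sum_mul]
  rw [frame_sw]
  exact Finset.sum_congr rfl fun A _ => Finset.sum_congr rfl fun i _ =>
    Finset.sum_congr rfl fun j _ => by ring

theorem frame_lin (gi : Mn n) (c : κ → ℝ) (F : κ → Fin n → Fin n → ℝ) :
    ∑ i, ∑ j, gi i j * ∑ A, c A * F A i j = ∑ A, c A * ∑ i, ∑ j, gi i j * F A i j := by
  simp only [Finset.mul_sum]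
  rw [frame_sw]
  exact Finset.sum_congr rfl fun A _ => Finset.sum_congr rfl fun i _ =>
    Finset.sum_congr rfl fun j _ => by ring

/-- With `a = T(A;B,C)`, `b = T(B;A,C)`, `c = T(C;A,B)` the first part of `QA` is
`∑ D D D (a + b - c)(a + c - b)/4`; permute the indices. -/
theorem QA_frame (hgi : gi = ∑ A, D A • vecMulVec (f A) (f A)) {T : Fin n → Mn n}
    (hT : ∀ k, (T k).IsSymm) :
    QA gi T = -(1 / 4) * (∑ A, ∑ B, ∑ C, D A * D B * D C * tri T (f A) (f B) (f C) ^ 2)
      + (1 / 2) * (∑ A, ∑ B, ∑ C, D A * D B * D C *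
          (tri T (f A) (f B) (f C) * tri T (f C) (f B) (f A)))
      - (1 / 4) * ∑ C, D C * (∑ B, D B * tri T (f C) (f B) (f B)) ^ 2 := by
  have hs : gi.IsSymm := IsSymm.ext fun i j => by
    simp only [frame_gi hgi, mul_comm (f _ i)]
  have h1 : ∀ i j, ∑ k, ∑ l, chA gi T k j l * chA gi T l i k = ∑ B, D B * ∑ C, D C *
      ((frameG T (f C) *ᵥ f B) i * (frameG T (f B) *ᵥ f C) j) := fun i j => by
    simp only [frame_ch hgi, mulVec, dotProduct, Finset.sum_mul_sum]
    simp only [Finset.mul_sum]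
    rw [frame_sw]
    refine Finset.sum_congr rfl fun B _ => ?_
    rw [frame_sw]
    exact Finset.sum_congr rfl fun C _ => Finset.sum_congr rfl fun k _ =>
      Finset.sum_congr rfl fun l _ => by ring
  have h2 : ∀ C, (f C ⬝ᵥ fun l => ∑ j, chA gi T j j l) =
      (1 / 2) * ∑ B, D B * tri T (f C) (f B) (f B) := fun C => by
    simp only [tau_eq hs hT, sum_frame hgi, dotProduct, tri, Finset.mul_sum]
    rw [Finset.sum_comm]
    exact Finset.sum_congr rfl fun B _ => Finset.sum_congr rfl fun l _ => by ring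
  have h3 : ∑ i, ∑ l, gi i l * (∑ j, chA gi T j j l) * (∑ k, chA gi T k k i) =
      (1 / 4) * ∑ C, D C * (∑ B, D B * tri T (f C) (f B) (f B)) ^ 2 := by
    have h := frame_two hgi (fun l => ∑ j, chA gi T j j l) fun l => ∑ j, chA gi T j j l
    simp only [h2] at h
    rw [Finset.mul_sum]
    refine Eq.trans ?_ (h.trans (Finset.sum_congr rfl fun C _ => by ring))
    exact Finset.sum_congr rfl fun i _ => Finset.sum_congr rfl fun l _ => by ring
  obtain ⟨t, ht⟩ : ∃ t : κ → κ → κ → ℝ, ∀ A B C, t A B C = tri T (f A) (f B) (f C) :=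
    ⟨_, fun _ _ _ => rfl⟩
  have hts : ∀ A B C, t A B C = t A C B := fun A B C => by rw [ht, ht, frame_tsym hT]
  have h4 : ∑ i, ∑ j, gi i j * ∑ k, ∑ l, chA gi T k j l * chA gi T l i k =
      ∑ A, ∑ B, ∑ C, D A * D B * D C *
        ((t A B C ^ 2 - t B A C ^ 2 - t C A B ^ 2) / 4 + t B A C * t C A B / 2) := by
    simp only [h1, frame_lin, frame_two hgi, frame_bil, ← ht]
    simp only [Finset.mul_sum]
    rw [frame_sw]
    refine Finset.sum_congr rfl fun A _ => Finset.sum_congr rfl fun B _ =>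
      Finset.sum_congr rfl fun C _ => ?_
    rw [hts A C B]
    ring
  have h5 : ∑ A, ∑ B, ∑ C, D A * D B * D C * t B A C ^ 2 =
      ∑ A, ∑ B, ∑ C, D A * D B * D C * t A B C ^ 2 := by
    rw [Finset.sum_comm]
    simp only [mul_comm (D _) (D _)]
  have h6 : ∑ A, ∑ B, ∑ C, D A * D B * D C * t C A B ^ 2 =
      ∑ A, ∑ B, ∑ C, D A * D B * D C * t A B C ^ 2 := by
    rw [frame_sw]
    exact Finset.sum_congr rfl fun A _ => Finset.sum_congr rfl fun B _ =>
      Finset.sum_congr rfl fun C _ => by ring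
  have h7 : ∑ A, ∑ B, ∑ C, D A * D B * D C * (t B A C * t C A B) =
      ∑ A, ∑ B, ∑ C, D A * D B * D C * (t A B C * t C B A) := by
    rw [Finset.sum_comm]
    exact Finset.sum_congr rfl fun A _ => Finset.sum_congr rfl fun B _ =>
      Finset.sum_congr rfl fun C _ => by ring
  have h8 : ∑ A, ∑ B, ∑ C, D A * D B * D C *
      ((t A B C ^ 2 - t B A C ^ 2 - t C A B ^ 2) / 4 + t B A C * t C A B / 2) =
      ((∑ A, ∑ B, ∑ C, D A * D B * D C * t A B C ^ 2) -
        (∑ A, ∑ B, ∑ C, D A * D B * D C * t B A C ^ 2) -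
        ∑ A, ∑ B, ∑ C, D A * D B * D C * t C A B ^ 2) / 4 +
      (∑ A, ∑ B, ∑ C, D A * D B * D C * (t B A C * t C A B)) / 2 := by
    simp only [Finset.sum_div, ← Finset.sum_sub_distrib, ← Finset.sum_add_distrib]
    exact Finset.sum_congr rfl fun A _ => Finset.sum_congr rfl fun B _ =>
      Finset.sum_congr rfl fun C _ => by ring
  rw [QA, h3, h4, h8, h5, h6, h7]
  simp only [← ht]
  ring

theorem cur_frame (hgi : gi = ∑ A, D A • vecMulVec (f A) (f A)) {T : Fin n → Mn n}
    (hT : ∀ k, (T k).IsSymm) {B : Mn n} (hB : B.IsSymm) (S : Fin n → Mn n) (w : Fin n → ℝ) :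
    ∑ j, curA gi T B S j * w j = ∑ A, D A * tri S (f A) (f A) w
      - ∑ C, D C * (∑ A, D A * (tri T (f A) (f A) (f C) - (1 / 2) * tri T (f C) (f A) (f A)))
          * bil B (f C) w
      - (1 / 2) * ∑ A, ∑ C, D A * D C * bil B (f A) (f C) * tri T w (f A) (f C) := by
  have h1 : ∑ j, curA gi T B S j * w j = ∑ i, ∑ k, gi i k * (S k *ᵥ w) i
      - ∑ i, ∑ k, gi i k * ∑ C, (D C * bil B (f C) w) * (frameG T (f C))ᵀ i k
      - ∑ i, ∑ k, gi i k * ∑ C, D C * ((B *ᵥ f C) i * (frameG T (f C) *ᵥ w) k) := by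
    simp only [curA, Finset.sum_mul]
    rw [← frame_sw fun i k j => gi i k * (S k i j - ∑ l,
      (chA gi T l k i * B l j + chA gi T l k j * B i l)) * w j]
    simp only [← Finset.sum_sub_distrib]
    refine Finset.sum_congr rfl fun i _ => Finset.sum_congr rfl fun k _ => ?_
    have e1 : ∑ j, ∑ l, chA gi T l k i * B l j * w j =
        ∑ C, (D C * bil B (f C) w) * (frameG T (f C))ᵀ i k := by
      simp only [frame_ch hgi, bil, mulVec, dotProduct, transpose_apply, Finset.sum_mul,
        Finset.mul_sum]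
      rw [frame_sw]
      refine Finset.sum_congr rfl fun C _ => ?_
      rw [Finset.sum_comm]
      exact Finset.sum_congr rfl fun l _ => Finset.sum_congr rfl fun j _ => by ring
    have e2 : ∑ j, ∑ l, chA gi T l k j * B i l * w j =
        ∑ C, D C * ((B *ᵥ f C) i * (frameG T (f C) *ᵥ w) k) := by
      simp only [frame_ch hgi, mulVec, dotProduct, Finset.sum_mul, Finset.mul_sum]
      rw [frame_sw]
      exact Finset.sum_congr rfl fun C _ => Finset.sum_congr rfl fun j _ =>
        Finset.sum_congr rfl fun l _ => by ring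
    rw [← e1, ← e2]
    simp only [mulVec, dotProduct, mul_assoc (gi i k), ← Finset.mul_sum, ← mul_sub, sub_mul,
      add_mul, Finset.sum_mul, Finset.sum_sub_distrib, Finset.sum_add_distrib, sub_sub]
  have h2 : ∑ i, ∑ k, gi i k * (S k *ᵥ w) i = ∑ A, D A * tri S (f A) (f A) w := by
    refine (sum_frame hgi (Matrix.of fun i k => (S k *ᵥ w) i)).trans
      (Finset.sum_congr rfl fun A _ => ?_)
    congr 1
    simp only [tri, bil, dotProduct, mulVec, of_apply, Finset.mul_sum]
    rw [Finset.sum_comm]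
    simp only [Finset.sum_mul, Finset.mul_sum]
    exact Finset.sum_congr rfl fun k _ => Finset.sum_congr rfl fun i _ =>
      Finset.sum_congr rfl fun j _ => by ring
  have h3 : ∀ A C, bil (frameG T (f C))ᵀ (f A) (f A) =
      tri T (f A) (f A) (f C) - (1 / 2) * tri T (f C) (f A) (f A) := fun A C => by
    rw [bil, mulVec_transpose, dotProduct_comm, ← dotProduct_mulVec, frame_bil]
    ring
  have h4 : ∑ C, ∑ A, D A * D C * bil B (f A) (f C) * tri T (f C) (f A) w =
      ∑ C, ∑ A, D A * D C * bil B (f A) (f C) * tri T (f A) w (f C) := by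
    rw [Finset.sum_comm]
    refine Finset.sum_congr rfl fun A _ => Finset.sum_congr rfl fun C _ => ?_
    rw [frame_bsym hB, frame_tsym hT, mul_comm (D A)]
  have h5 : ∑ C, D C * ∑ A, D A * (f A ⬝ᵥ B *ᵥ f C * ((1 / 2) *
      (tri T (f A) w (f C) + tri T w (f A) (f C) - tri T (f C) (f A) w))) =
      (1 / 2) * ((∑ C, ∑ A, D A * D C * bil B (f A) (f C) * tri T (f A) w (f C)) +
        (∑ C, ∑ A, D A * D C * bil B (f A) (f C) * tri T w (f A) (f C)) -
        ∑ C, ∑ A, D A * D C * bil B (f A) (f C) * tri T (f C) (f A) w) := by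
    simp only [bil, Finset.mul_sum, ← Finset.sum_sub_distrib, ← Finset.sum_add_distrib]
    exact Finset.sum_congr rfl fun C _ => Finset.sum_congr rfl fun A _ => by ring
  rw [h1, h2, frame_lin,
    frame_lin gi (fun C => D C * bil B (f C) w) fun C i k => (frameG T (f C))ᵀ i k]
  simp only [sum_frame hgi, frame_two hgi, h3, frame_bil]
  rw [h5, h4, Finset.sum_comm (f := fun C A => D A * D C * bil B (f A) (f C) * tri T w (f A) (f C)),
    add_sub_cancel_left]
  congr 2
  exact Finset.sum_congr rfl fun C _ => by ring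

end

end Vale.Agent.P366
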