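import Vale.Agent.P366.JetV
import Vale.Agent.P366.Frame

/-! Single contractions of the jet for a general vertical Gram matrix. -/

noncomputable section

open Matrix MeasureTheory Set Filter Topology Asymptotics

namespace Vale.Agent.P366

variable {n : ℕ}

def gam (m F Fd : ℝ) (G Gd : M4) : Fin 4 → ℝ := fun β =>
  (m / F + trace G⁻¹) * G 0 β + (G⁻¹ * Gd) 0 β
    - (if β = 0 then 4 + m + m * Fd / F + trace (G⁻¹ * Gd) else 0)

theorem d1_sym {G : M4} (hG : G.PosDef) : G.IsSymm := by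
  have h := hG.isHermitian
  rwa [IsHermitian, conjTranspose_eq_transpose_of_trivial] at h

theorem d1_det {G : M4} (hG : G.PosDef) : G.det ≠ 0 := hG.det_pos.ne'

theorem d1_inv {G : M4} (hG : G.PosDef) : G⁻¹ * G = 1 :=
  nonsing_inv_mul G (isUnit_iff_ne_zero.2 (d1_det hG))

theorem d1_K (F : ℝ) {G : M4} (hG : G.PosDef) (a e : Fin 4) :
    ∑ c, G⁻¹ a c * (G - F • (1 : M4)) c e = (1 : M4) a e - F * G⁻¹ a e := by
  rw [← mul_apply, Matrix.mul_sub, d1_inv hG, Matrix.mul_smul, Matrix.mul_one]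
  rfl

theorem d1_H (F : ℝ) {G : M4} (hG : G.IsSymm) : (G - F • (1 : M4)).IsSymm :=
  hG.sub (isSymm_one.smul F)

theorem d1_tv (F : ℝ) (G Gd : M4) (z : Fin 4 → ℝ) (a c : Fin 4) :
    tv F G Gd z (Pi.single a 1) (Pi.single c 1) = z 0 * (Gd a c - 2 * (G - F • (1 : M4)) a c)
      + qm (fun e => (G - F • (1 : M4)) e c) z a + qm (fun e => (G - F • (1 : M4)) e a) z c := by
  rw [tv, bil]
  generalize G - F • (1 : M4) = H
  simp only [single_dotProduct, mulVec_single_one, one_mul]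
  rfl

theorem gam_zero (m F Fd : ℝ) {G Gd : M4} (hG : G.PosDef) (hGd : Gd.IsSymm) :
    (G⁻¹ *ᵥ gam m F Fd G Gd) 0 = vv m F Fd G Gd := by
  have hu : G⁻¹ 0 0 ≠ 0 := hG.inv.diag_pos.ne'
  have h1 : ∑ β, G⁻¹ 0 β * G 0 β = 1 := by
    have h := congrFun (congrFun (d1_inv hG) 0) 0
    rw [mul_apply, one_apply_eq] at h
    rw [← h]
    exact Finset.sum_congr rfl fun β _ => by rw [(d1_sym hG).apply 0 β]
  have h2 : ∑ β, G⁻¹ 0 β * (G⁻¹ * Gd) 0 β = (G⁻¹ * Gd * G⁻¹) 0 0 := by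
    rw [mul_apply (M := G⁻¹ * Gd)]
    exact Finset.sum_congr rfl fun β _ => by rw [(d1_sym hG.inv).apply 0 β, mul_comm]
  have h3 : G⁻¹ 0 0 * ((G⁻¹ * Gd * G⁻¹) 0 0 / G⁻¹ 0 0) = (G⁻¹ * Gd * G⁻¹) 0 0 :=
    mul_div_cancel₀ _ hu
  simp only [mulVec, dotProduct, gam, vv, hh, uu, ud, mul_sub, mul_add, Finset.sum_sub_distrib,
    Finset.sum_add_distrib, mul_ite, mul_zero, Finset.sum_ite_eq', Finset.mem_univ, if_true]
  have h4 : ∑ β, G⁻¹ 0 β * ((m / F + trace G⁻¹) * G 0 β) = m / F + trace G⁻¹ := by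
    simp only [mul_left_comm _ (m / F + trace G⁻¹)]
    rw [← Finset.mul_sum, h1, mul_one]
  rw [h4, h2]
  linear_combination -h3

/-- Vertical trace of the jet (use `G⁻¹ * G = 1` entrywise and the symmetry of `G⁻¹`). -/
theorem tv_trace (F : ℝ) {G : M4} (hG : G.PosDef) (Gd : M4) (z : Fin 4 → ℝ) :
    ∑ a, ∑ c, G⁻¹ a c * tv F G Gd z (Pi.single a 1) (Pi.single c 1)
      = z 0 * trace (G⁻¹ * Gd) := by
  have hK := d1_K F hG
  have hs := (d1_sym hG.inv).apply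
  have hH := (d1_H F (d1_sym hG)).apply
  simp only [d1_tv]
  generalize G - F • (1 : M4) = H at hK hH ⊢
  generalize G⁻¹ = A at hK hs ⊢
  have k00 := hK 0 0
  have k01 := hK 0 1
  have k02 := hK 0 2
  have k03 := hK 0 3
  have k10 := hK 1 0
  have k11 := hK 1 1
  have k12 := hK 1 2
  have k13 := hK 1 3
  have k20 := hK 2 0
  have k21 := hK 2 1
  have k22 := hK 2 2
  have k23 := hK 2 3
  have k30 := hK 3 0
  have k31 := hK 3 1
  have k32 := hK 3 2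
  have k33 := hK 3 3
  simp [Fin.sum_univ_four, qm, trace, mul_apply, hs 0 1, hs 0 2, hs 0 3, hs 1 2, hs 1 3, hs 2 3,
    hH 0 1, hH 0 2, hH 0 3, hH 1 2, hH 1 3, hH 2 3, -mul_eq_mul_left_iff, -add_left_inj,
    -add_right_inj]
    at k00 k01 k02 k03 k10 k11 k12 k13 k20 k21 k22 k23 k30 k31 k32 k33 ⊢
  linear_combination 2 * (-z 1) * k01 + 2 * (-z 2) * k02 + 2 * (-z 3) * k03 + 2 * (z 1) * k10
    + 2 * (z 3) * k12 + 2 * (-z 2) * k13 + 2 * (z 2) * k20 + 2 * (-z 3) * k21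
    + 2 * (z 1) * k23 + 2 * (z 3) * k30 + 2 * (z 2) * k31 + 2 * (-z 1) * k32

theorem tv_div (F : ℝ) {G Gd : M4} (hG : G.PosDef) (hGd : Gd.IsSymm) (β : Fin 4) :
    ∑ a, ∑ c, G⁻¹ a c * tv F G Gd (Pi.single a 1) (Pi.single c 1) (Pi.single β 1)
      = trace G⁻¹ * G 0 β + (G⁻¹ * Gd) 0 β - (if β = 0 then 4 else 0) := by
  have hK := d1_K F hG
  have hs := (d1_sym hG.inv).apply
  have hH := (d1_H F (d1_sym hG)).apply
  have h0 : G 0 β = (G - F • (1 : M4)) 0 β + F * (if 0 = β then 1 else 0) := by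
    rw [Matrix.sub_apply, Matrix.smul_apply, smul_eq_mul, one_apply, sub_add_cancel]
  simp only [d1_tv]
  rw [h0]
  generalize G - F • (1 : M4) = H at hK hH ⊢
  generalize G⁻¹ = A at hK hs ⊢
  have k00 := hK 0 0
  have k01 := hK 0 1
  have k02 := hK 0 2
  have k03 := hK 0 3
  have k10 := hK 1 0
  have k11 := hK 1 1
  have k12 := hK 1 2
  have k13 := hK 1 3
  have k20 := hK 2 0
  have k21 := hK 2 1
  have k22 := hK 2 2
  have k23 := hK 2 3
  have k30 := hK 3 0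
  have k31 := hK 3 1
  have k32 := hK 3 2
  have k33 := hK 3 3
  fin_cases β <;>
  simp [Fin.sum_univ_four, qm, trace, mul_apply, hs 0 1, hs 0 2, hs 0 3, hs 1 2, hs 1 3, hs 2 3,
    hH 0 1, hH 0 2, hH 0 3, hH 1 2, hH 1 3, hH 2 3, -mul_eq_mul_left_iff, -add_left_inj,
    -add_right_inj]
    at k00 k01 k02 k03 k10 k11 k12 k13 k20 k21 k22 k23 k30 k31 k32 k33 ⊢
  · linear_combination -k00 - k11 - k22 - k33
  · linear_combination -k01 + k10 - k23 + k32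
  · linear_combination -k02 + k13 + k20 - k31
  · linear_combination -k03 - k12 + k21 + k30

theorem d1_bil1 (T : Fin n → Mn n) (w u v : Fin n → ℝ) :
    bil (Matrix.of fun i j => ∑ k, w k * T k i j) u v = tri T w u v := by
  simp only [bil, tri, dotProduct, mulVec, of_apply, Finset.mul_sum, Finset.sum_mul]
  symm
  rw [Finset.sum_comm]
  refine Finset.sum_congr rfl fun i _ => ?_
  rw [Finset.sum_comm]
  exact Finset.sum_congr rfl fun j _ => Finset.sum_congr rfl fun k _ => by ring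

theorem d1_bil2 (T : Fin n → Mn n) (w u v : Fin n → ℝ) :
    bil (Matrix.of fun i j => ∑ l, w l * T i j l) u v = tri T u v w := by
  simp only [bil, tri, dotProduct, mulVec, of_apply, Finset.mul_sum, Finset.sum_mul]
  exact Finset.sum_congr rfl fun i _ => Finset.sum_congr rfl fun j _ =>
    Finset.sum_congr rfl fun k _ => by ring

theorem d1_swap (A : Mn n) (w : Fin n → ℝ) (S : Fin n → Fin n → Fin n → ℝ) :
    ∑ k, w k * ∑ i, ∑ j, A i j * S k i j = ∑ i, ∑ j, A i j * ∑ k, w k * S k i j := by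
  simp only [Finset.mul_sum]
  rw [Finset.sum_comm]
  refine Finset.sum_congr rfl fun i _ => ?_
  rw [Finset.sum_comm]
  exact Finset.sum_congr rfl fun j _ => Finset.sum_congr rfl fun k _ => by ring

section
variable {J : Fin 4 → Mn n} (hJ : QT J) {x : Fin n → ℝ} (hx : x ⬝ᵥ x ≠ 0)
include hJ hx

theorem d1_c1 (F : ℝ) (G : M4) (T : Fin n → Mn n) (w : Fin n → ℝ) :
    ∑ k, w k * ∑ i, ∑ j, ans J x F G i j * T k i j
      = F * ∑ a, tri T w (PP J x *ᵥ Pi.single a 1) (PP J x *ᵥ Pi.single a 1)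
        + (x ⬝ᵥ x)⁻¹ * ∑ a, ∑ c, G a c *
            tri T w (Xi J x *ᵥ Pi.single a 1) (Xi J x *ᵥ Pi.single c 1) := by
  have h := contr_ans hJ hx F G (Matrix.of fun i j => ∑ k, w k * T k i j)
  simp only [d1_bil1, of_apply] at h
  rw [← h]
  exact d1_swap _ w fun k i j => T k i j

theorem d1_c2 (F : ℝ) (G : M4) (T : Fin n → Mn n) (w : Fin n → ℝ) :
    ∑ l, w l * ∑ i, ∑ j, ans J x F G i j * T i j l
      = F * ∑ a, tri T (PP J x *ᵥ Pi.single a 1) (PP J x *ᵥ Pi.single a 1) w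
        + (x ⬝ᵥ x)⁻¹ * ∑ a, ∑ c, G a c *
            tri T (Xi J x *ᵥ Pi.single a 1) (Xi J x *ᵥ Pi.single c 1) w := by
  have h := contr_ans hJ hx F G (Matrix.of fun i j => ∑ l, w l * T i j l)
  simp only [d1_bil2, of_apply] at h
  rw [← h]
  exact d1_swap _ w fun l i j => T i j l

omit hJ hx in
theorem d1_cov (c : Fin n → ℝ) (γ : Fin 4 → ℝ)
    (h1 : ∀ a, ∑ k, (PP J x *ᵥ Pi.single a 1) k * c k = 0)
    (h2 : ∀ β, ∑ k, (Xi J x *ᵥ Pi.single β 1) k * c k = γ β) :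
    c = Xi J x *ᵥ ((x ⬝ᵥ x)⁻¹ • γ) := by
  have e1 : PP J x *ᵥ c = 0 := by
    funext a
    rw [← PP_symm, Pi.zero_apply, ← h1 a]
    simp only [mulVec_single_one]
    rfl
  have e2 : (Xi J x)ᵀ *ᵥ c = γ := by
    funext β
    rw [← h2 β]
    simp only [mulVec_single_one]
    rfl
  rw [PP, sub_mulVec, one_mulVec, smul_mulVec, ← mulVec_mulVec, e2, sub_eq_zero] at e1
  rw [mulVec_smul]
  exact e1

theorem d1_hsum (u : Fin 4 → ℝ) :
    ∑ a : Fin n, ∑ e, u e * ((J e *ᵥ (PP J x *ᵥ Pi.single a 1)) ⬝ᵥ (PP J x *ᵥ Pi.single a 1))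
      = u 0 * ((n : ℝ) - 4) := by
  rw [Finset.sum_comm]
  simp only [← Finset.mul_sum, hsum1 hJ hx, mul_ite, mul_zero, Finset.sum_ite_eq',
    Finset.mem_univ, if_true]

omit hJ in
theorem d1_cancel (G : M4) (t : Fin 4 → Fin 4 → ℝ) :
    (x ⬝ᵥ x)⁻¹ * ∑ a, ∑ c, G a c * ((x ⬝ᵥ x) * t a c) = ∑ a, ∑ c, G a c * t a c := by
  simp only [mul_left_comm _ (x ⬝ᵥ x), ← Finset.mul_sum]
  rw [mul_inv_cancel_left₀ hx]

end

section
variable {J : Fin 4 → Mn n} (hJ : QT J) {x : Fin n → ℝ} (hx : x ⬝ᵥ x ≠ 0) {F : ℝ} (hF : 0 < F)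
  (Fd : ℝ) {G Gd : M4} (hG : G.PosDef) (hGd : Gd.IsSymm)
include hJ hx hF hG hGd

omit hF hG hGd in
theorem d1_trh (a : Fin n → ℝ) : ∑ k, (PP J x *ᵥ a) k *
    ∑ i, ∑ j, ans J x F⁻¹ G⁻¹ i j * jetT J x F Fd G Gd k i j = 0 := by
  rw [d1_c1 hJ hx]
  simp only [tri_hhh hJ hx, tri_hvv hJ hx, mul_zero, Finset.sum_const_zero, add_zero]

omit hF hGd in
theorem d1_trv (z : Fin 4 → ℝ) : ∑ k, (Xi J x *ᵥ z) k *
    ∑ i, ∑ j, ans J x F⁻¹ G⁻¹ i j * jetT J x F Fd G Gd k i j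
      = z 0 * (((n : ℝ) - 4) * Fd / F + trace (G⁻¹ * Gd)) := by
  rw [d1_c1 hJ hx]
  simp only [tri_vhh hJ hx, tri_vvv hJ hx F Fd Gd (d1_sym hG)]
  rw [d1_cancel hx, tv_trace F hG, ← Finset.mul_sum, hsum0 hJ hx]
  ring

/-- A covector `c` is determined by its values on `PP a` and `Xi z`:
`c = PP c + |x|^{-2} Xi (Xiᵀ c)`. Use `ans_inv`, `contr_ans`, `tri_*`, `hsum*`. -/
theorem trace_jet (k : Fin n) :
    ∑ i, ∑ j, (ans J x F G)⁻¹ i j * jetT J x F Fd G Gd k i j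
      = x k / (x ⬝ᵥ x) * (((n : ℝ) - 4) * Fd / F + trace (G⁻¹ * Gd)) := by
  rw [ans_inv hJ hx hF.ne' (d1_det hG)]
  have h := d1_cov (fun k => ∑ i, ∑ j, ans J x F⁻¹ G⁻¹ i j * jetT J x F Fd G Gd k i j)
    ((((n : ℝ) - 4) * Fd / F + trace (G⁻¹ * Gd)) • Pi.single 0 1)
    (fun a => d1_trh hJ hx Fd _) fun β => by
      rw [d1_trv hJ hx Fd hG, Pi.smul_apply, smul_eq_mul, mul_comm, Pi.single_comm]
  rw [congrFun h k, mulVec_smul, mulVec_smul, Xi_e0 hJ]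
  simp only [Pi.smul_apply, smul_eq_mul]
  ring

theorem VA_ans (k : Fin n) :
    VA (ans J x F G)⁻¹ (jetT J x F Fd G Gd) k
      = (Xi J x *ᵥ ((x ⬝ᵥ x)⁻¹ • (G⁻¹ *ᵥ gam ((n : ℝ) - 4) F Fd G Gd))) k := by
  rw [ans_inv hJ hx hF.ne' (d1_det hG),
    VA_eq (ans_symm _ (d1_sym hG.inv)) (jetT_symm J x F Fd (d1_sym hG) hGd)]
  have h := d1_cov (J := J) (x := x)
    (fun l => ∑ i, ∑ j, ans J x F⁻¹ G⁻¹ i j * jetT J x F Fd G Gd i j l
      - ∑ i, ∑ j, ans J x F⁻¹ G⁻¹ i j * jetT J x F Fd G Gd l i j)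
    (gam ((n : ℝ) - 4) F Fd G Gd) (fun a => by
      simp only [mul_sub, Finset.sum_sub_distrib]
      rw [d1_trh hJ hx, d1_c2 hJ hx]
      simp only [tri_hhh hJ hx, tri_vvh hJ hx, mul_zero, Finset.sum_const_zero, add_zero,
        sub_zero]) fun β => by
      simp only [mul_sub, Finset.sum_sub_distrib]
      rw [d1_trv hJ hx Fd hG, d1_c2 hJ hx]
      simp only [tri_hhv hJ hx, tri_vvv hJ hx F Fd Gd (d1_sym hG)]
      rw [d1_cancel hx, tv_div F hG hGd, d1_hsum hJ hx, mulVec_single_one, gam]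
      have hF' := hF.ne'
      by_cases hβ : β = 0
      · subst hβ
        simp only [col_apply, Matrix.sub_apply, Matrix.smul_apply, one_apply_eq, smul_eq_mul,
          if_true, Pi.single_eq_same]
        field_simp
        ring
      · simp only [col_apply, Matrix.sub_apply, Matrix.smul_apply, one_apply_ne (Ne.symm hβ),
          smul_eq_mul, if_neg hβ, Pi.single_eq_of_ne (Ne.symm hβ)]
        ring
  rw [h, mulVec_mulVec, ans_Xi hJ hx, ← mulVec_mulVec, mulVec_smul]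

omit hF hG in
/-- `1 = ans J x 1 1`. -/
theorem flux_jet (hGs : G.IsSymm) :
    ∑ i, ∑ j, (jetT J x F Fd G Gd j i j - jetT J x F Fd G Gd i j j) * x i
      = fl ((n : ℝ) - 4) F Fd G Gd := by
  have h1 := d1_c1 hJ hx 1 1 (jetT J x F Fd G Gd) (Xi J x *ᵥ Pi.single 0 1)
  have h2 := d1_c2 hJ hx 1 1 (jetT J x F Fd G Gd) (Xi J x *ᵥ Pi.single 0 1)
  simp only [tri_vhh hJ hx, tri_vvv hJ hx F Fd Gd hGs, tri_hhv hJ hx] at h1 h2
  rw [d1_cancel hx, ← Finset.mul_sum, hsum0 hJ hx] at h1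
  rw [d1_cancel hx, d1_hsum hJ hx] at h2
  rw [Xi_e0 hJ, ans_one] at h1 h2
  rw [mulVec_single_one] at h2
  simp only [one_apply, ite_mul, one_mul, zero_mul, Finset.sum_ite_eq, Finset.mem_univ, if_true,
    d1_tv] at h1 h2
  have e : ∑ i, ∑ j, (jetT J x F Fd G Gd j i j - jetT J x F Fd G Gd i j j) * x i =
      ∑ l, x l * ∑ i, jetT J x F Fd G Gd i i l - ∑ k, x k * ∑ i, jetT J x F Fd G Gd k i i := by
    rw [← Finset.sum_sub_distrib]
    refine Finset.sum_congr rfl fun i _ => ?_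
    rw [← mul_sub, ← Finset.sum_sub_distrib, Finset.mul_sum]
    refine Finset.sum_congr rfl fun j _ => ?_
    rw [(jetT_symm J x F Fd hGs hGd j).apply i j, mul_comm]
  rw [e, h1, h2]
  simp [Fin.sum_univ_four, qm, fl, trY, trace]
  ring

end

end Vale.Agent.P366
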