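import Vale.Agent.P366.JetV
import Vale.Agent.P366.Frame

/-! Triple contractions of the jet in an adapted frame. -/

theorem d2a_bi {ι : Type} [Fintype ι] (M N w : Fin 4 → ℝ) (s t : Fin 4 → ι → ι → ℝ)
    (h : ∀ e e', ∑ i, ∑ j, s e i j * t e' i j = if e = e' then w e else 0) :
    ∑ i, ∑ j, (∑ e, M e * s e i j) * (∑ e, N e * t e i j) = ∑ e, M e * N e * w e := by
  have h1 : ∀ i j, (∑ e, M e * s e i j) * (∑ e, N e * t e i j)
      = ∑ q : Fin 4 × Fin 4, M q.1 * N q.2 * (s q.1 i j * t q.2 i j) := by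
    intro i j
    rw [Finset.sum_mul_sum, Fintype.sum_prod_type]
    exact Finset.sum_congr rfl fun e _ => Finset.sum_congr rfl fun e' _ => by ring
  simp only [h1]
  calc ∑ i, ∑ j, ∑ q : Fin 4 × Fin 4, M q.1 * N q.2 * (s q.1 i j * t q.2 i j)
      = ∑ i, ∑ q : Fin 4 × Fin 4, ∑ j, M q.1 * N q.2 * (s q.1 i j * t q.2 i j) :=
        Finset.sum_congr rfl fun i _ => Finset.sum_comm
    _ = ∑ q : Fin 4 × Fin 4, ∑ i, ∑ j, M q.1 * N q.2 * (s q.1 i j * t q.2 i j) := Finset.sum_comm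
    _ = ∑ q : Fin 4 × Fin 4, M q.1 * N q.2 * (if q.1 = q.2 then w q.1 else 0) := by
        refine Finset.sum_congr rfl fun q _ => ?_
        simp only [← Finset.mul_sum, h]
    _ = ∑ e, M e * N e * w e := by
        rw [Fintype.sum_prod_type]
        refine Finset.sum_congr rfl fun e _ => ?_
        simp

theorem d2a_sw1 {ι : Type} [Fintype ι] (g : Fin 4 → ℝ) (Y : Fin 4 → ι → ι → ℝ) :
    ∑ i, ∑ j, ∑ c, g c * Y c i j = ∑ c, g c * ∑ i, ∑ j, Y c i j := by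
  simp only [Fin.sum_univ_four, Finset.sum_add_distrib, ← Finset.mul_sum]

theorem d2a_sw2 {ι : Type} [Fintype ι] (g : Fin 4 → ℝ) (Y : Fin 4 → ι → ι → ℝ) :
    ∑ i, ∑ c, ∑ j, g c * Y c i j = ∑ c, g c * ∑ i, ∑ j, Y c i j := by
  simp only [Fin.sum_univ_four, Finset.sum_add_distrib, ← Finset.mul_sum]

theorem d2a_sw3 {ι : Type} [Fintype ι] (g : Fin 4 → ℝ) (Y : Fin 4 → ι → ι → ℝ) :
    ∑ c, ∑ i, ∑ j, g c * Y c i j = ∑ c, g c * ∑ i, ∑ j, Y c i j := by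
  simp only [← Finset.mul_sum]

theorem d2a_core {ι : Type} [Fintype ι] {X : Fin 4 → ι → ι → ℝ} {p : ι → ι → ℝ}
    {T : Fin 4 → Fin 4 → Fin 4 → ℝ} {y d a1 a2 a3 : Fin 4 → ℝ} {m ρ F : ℝ} (hρ : ρ ≠ 0)
    (hF : F ≠ 0)
    (h0 : ∑ i, p i i = m) (h1 : ∀ c, ∑ i, ∑ j, X c i j ^ 2 = m * a1 c)
    (h2 : ∀ c, ∑ i, ∑ j, X c i j * X c j i = m * a2 c) (h3 : ∑ i, ∑ j, p i j ^ 2 = m)
    (h4 : ∀ c, ∑ i, ∑ j, X c i j * p j i = m * a3 c)
    {t : ι ⊕ Fin 4 → ι ⊕ Fin 4 → ι ⊕ Fin 4 → ℝ} {D : ι ⊕ Fin 4 → ℝ}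
    (D1 : ∀ i, D (.inl i) = F⁻¹) (D2 : ∀ c, D (.inr c) = d c / ρ)
    (t1 : ∀ i j k, t (.inl i) (.inl j) (.inl k) = 0)
    (t2 : ∀ i j c, t (.inl i) (.inl j) (.inr c) = X c i j)
    (t3 : ∀ i c j, t (.inl i) (.inr c) (.inl j) = X c i j)
    (t4 : ∀ i a b, t (.inl i) (.inr a) (.inr b) = 0)
    (t5 : ∀ c i j, t (.inr c) (.inl i) (.inl j) = y c * p i j)
    (t6 : ∀ a i b, t (.inr a) (.inl i) (.inr b) = 0)
    (t7 : ∀ a b i, t (.inr a) (.inr b) (.inl i) = 0)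
    (t8 : ∀ a b c, t (.inr a) (.inr b) (.inr c) = ρ * T a b c) :
    -(1 / 4) * (∑ A, ∑ B, ∑ C, D A * D B * D C * t A B C ^ 2)
      + (1 / 2) * (∑ A, ∑ B, ∑ C, D A * D B * D C * (t A B C * t C B A))
      - (1 / 4) * ∑ C, D C * (∑ B, D B * t C B B) ^ 2
    = (-(1 / 4) * (∑ a, ∑ b, ∑ c, d a * d b * d c * T a b c ^ 2
        + 2 * (m / F ^ 2) * ∑ c, d c * a1 c + (m / F ^ 2) * ∑ c, d c * y c ^ 2)
      + (1 / 2) * (∑ a, ∑ b, ∑ c, d a * d b * d c * (T a b c * T c b a)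
        + 2 * (m / F ^ 2) * ∑ c, d c * (a3 c * y c) + (m / F ^ 2) * ∑ c, d c * a2 c)
      - (1 / 4) * ∑ c, d c * (m / F * y c + ∑ b, d b * T c b b) ^ 2) / ρ := by
  have h3' : ∀ c, ∑ i, ∑ j, (y c * p i j) ^ 2 = m * y c ^ 2 := by
    intro c
    simp only [mul_pow, ← Finset.mul_sum, h3]
    ring
  have h4' : ∀ c, ∑ i, ∑ j, X c i j * (y c * p j i) = m * (a3 c * y c) := by
    intro c
    have : ∀ i j, X c i j * (y c * p j i) = y c * (X c i j * p j i) := fun i j => by ring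
    simp only [this, ← Finset.mul_sum, h4]
    ring
  have h5' : ∀ c, ∑ i, ∑ j, y c * p i j * X c j i = m * (a3 c * y c) := by
    intro c
    rw [Finset.sum_comm, ← h4' c]
    exact Finset.sum_congr rfl fun i _ => Finset.sum_congr rfl fun j _ => by ring
  have e1 : ∑ a, ∑ b, ∑ c, d a / ρ * (d b / ρ) * (d c / ρ) * (ρ * T a b c) ^ 2
      = (∑ a, ∑ b, ∑ c, d a * d b * d c * T a b c ^ 2) / ρ := by
    simp only [Finset.sum_div]
    refine Finset.sum_congr rfl fun a _ => Finset.sum_congr rfl fun b _ =>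
      Finset.sum_congr rfl fun c _ => ?_
    field_simp
  have e2 : ∑ a, ∑ b, ∑ c, d a / ρ * (d b / ρ) * (d c / ρ) * (ρ * T a b c * (ρ * T c b a))
      = (∑ a, ∑ b, ∑ c, d a * d b * d c * (T a b c * T c b a)) / ρ := by
    simp only [Finset.sum_div]
    refine Finset.sum_congr rfl fun a _ => Finset.sum_congr rfl fun b _ =>
      Finset.sum_congr rfl fun c _ => ?_
    field_simp
  have S1 : ∑ A, ∑ B, ∑ C, D A * D B * D C * t A B C ^ 2
      = (∑ a, ∑ b, ∑ c, d a * d b * d c * T a b c ^ 2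
        + 2 * (m / F ^ 2) * ∑ c, d c * a1 c + (m / F ^ 2) * ∑ c, d c * y c ^ 2) / ρ := by
    simp only [Fintype.sum_sum_type, D1, D2, t1, t2, t3, t4, t5, t6, t7, t8, ne_eq,
      OfNat.ofNat_ne_zero, not_false_eq_true, zero_pow, mul_zero, Finset.sum_const_zero, zero_add,
      add_zero, Finset.sum_add_distrib]
    rw [d2a_sw1, d2a_sw2, d2a_sw3, e1]
    simp only [h1, h3']
    generalize ∑ a, ∑ b, ∑ c, d a * d b * d c * T a b c ^ 2 = Z
    simp only [Fin.sum_univ_four]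
    field_simp
    ring
  have S2 : ∑ A, ∑ B, ∑ C, D A * D B * D C * (t A B C * t C B A)
      = (∑ a, ∑ b, ∑ c, d a * d b * d c * (T a b c * T c b a)
        + 2 * (m / F ^ 2) * ∑ c, d c * (a3 c * y c) + (m / F ^ 2) * ∑ c, d c * a2 c) / ρ := by
    simp only [Fintype.sum_sum_type, D1, D2, t1, t2, t3, t4, t5, t6, t7, t8,
      mul_zero, Finset.sum_const_zero, zero_add, add_zero, Finset.sum_add_distrib]
    rw [d2a_sw1, d2a_sw2, d2a_sw3, e2]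
    simp only [h2, h4', h5']
    generalize ∑ a, ∑ b, ∑ c, d a * d b * d c * (T a b c * T c b a) = Z
    simp only [Fin.sum_univ_four]
    field_simp
    ring
  have S3 : ∑ C, D C * (∑ B, D B * t C B B) ^ 2
      = (∑ c, d c * (m / F * y c + ∑ b, d b * T c b b) ^ 2) / ρ := by
    simp only [Fintype.sum_sum_type, D1, D2, t1, t4, t5, t8, ne_eq,
      OfNat.ofNat_ne_zero, not_false_eq_true, zero_pow, mul_zero, Finset.sum_const_zero, zero_add,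
      add_zero, ← Finset.mul_sum, h0]
    rw [Finset.sum_div]
    refine Finset.sum_congr rfl fun c _ => ?_
    have : ∑ b, d b / ρ * (ρ * T c b b) = ∑ b, d b * T c b b :=
      Finset.sum_congr rfl fun b _ => by field_simp
    rw [this]
    field_simp
  rw [S1, S2, S3]
  ring

noncomputable section

open Matrix MeasureTheory Set Filter Topology Asymptotics

namespace Vale.Agent.P366

variable {n : ℕ}

section
variable {J : Fin 4 → Mn n} (hJ : QT J) {x : Fin n → ℝ} (hx : x ⬝ᵥ x ≠ 0) {F : ℝ} (hF : 0 < F)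
  (Fd : ℝ) {G Gd : M4} (hG : G.PosDef) (hGd : Gd.IsSymm) {d : Fin 4 → ℝ} {z : Fin 4 → Fin 4 → ℝ}
  (hz : G⁻¹ = ∑ c, d c • vecMulVec (z c) (z c))
include hJ hx hF hG hGd hz

/-- `ans_inv`, `frame_ans`, `QA_frame`, `Fintype.sum_sum_type`, `tri_*`, `hsum*`
(with `J 0 = 1` for the plain inner products). -/
theorem QA_ans : QA (ans J x F G)⁻¹ (jetT J x F Fd G Gd)
    = QV ((n : ℝ) - 4) F Fd G Gd d z / (x ⬝ᵥ x) := by
  have hGs : G.IsSymm := by
    have := hG.isHermitian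
    rwa [Matrix.IsHermitian, Matrix.conjTranspose_eq_transpose_of_trivial] at this
  have hgi := frame_ans hJ hx F hz
  rw [← ans_inv hJ hx hF.ne' hG.det_pos.ne'] at hgi
  rw [QA_frame hgi (jetT_symm J x F Fd hGs hGd)]
  have hp : ∀ u v : Fin n → ℝ, (J 0 *ᵥ u) ⬝ᵥ v = u ⬝ᵥ v := fun u v => by
    rw [hJ.one, Matrix.one_mulVec]
  have hs0 : sg 0 = 1 := rfl
  refine (d2a_core (ι := Fin n)
    (X := fun c i j => ∑ e, ((G - F • (1 : M4)) *ᵥ z c) e *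
      ((J e *ᵥ (PP J x *ᵥ Pi.single i 1)) ⬝ᵥ (PP J x *ᵥ Pi.single j 1)))
    (p := fun i j => (PP J x *ᵥ Pi.single i 1) ⬝ᵥ (PP J x *ᵥ Pi.single j 1))
    (T := fun a b c => tv F G Gd (z a) (z b) (z c)) (y := fun c => z c 0 * Fd) (d := d)
    (a1 := fun c => ∑ e, ((G - F • (1 : M4)) *ᵥ z c) e ^ 2)
    (a2 := fun c => ∑ e, sg e * ((G - F • (1 : M4)) *ᵥ z c) e ^ 2)
    (a3 := fun c => ((G - F • (1 : M4)) *ᵥ z c) 0) (m := (n : ℝ) - 4) (ρ := x ⬝ᵥ x) (F := F)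
    hx hF.ne' (hsum0 hJ hx) (fun c => ?_) (fun c => ?_) ?_ (fun c => ?_)
    (t := fun A B C => tri (jetT J x F Fd G Gd) (fr J x z A) (fr J x z B) (fr J x z C))
    (D := frD n F (x ⬝ᵥ x) d) (fun _ => rfl) (fun _ => rfl)
    (fun i j k => tri_hhh hJ hx F Fd Gd _ _ _) (fun i j c => tri_hhv hJ hx F Fd Gd _ _ _)
    (fun i c j => tri_hvh hJ hx F Fd Gd hGs _ _ _) (fun i a b => tri_hvv hJ hx F Fd Gd _ _ _)
    (fun c i j => tri_vhh hJ hx F Fd Gd _ _ _) (fun a i b => tri_vhv hJ hx F Fd Gd _ _ _)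
    (fun a b i => tri_vvh hJ hx F Fd Gd _ _ _)
    (fun a b c => tri_vvv hJ hx F Fd Gd hGs _ _ _)).trans rfl
  · simp only [sq]
    rw [d2a_bi _ _ (fun _ => (n : ℝ) - 4) _ _ (hsum2 hJ hx), Finset.mul_sum]
    exact Finset.sum_congr rfl fun e _ => by ring
  · rw [d2a_bi _ _ (fun e => sg e * ((n : ℝ) - 4)) _
      (fun e i j => (J e *ᵥ (PP J x *ᵥ Pi.single j 1)) ⬝ᵥ (PP J x *ᵥ Pi.single i 1))
      (hsum3 hJ hx), Finset.mul_sum]
    exact Finset.sum_congr rfl fun e _ => by ring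
  · have := hsum2 hJ hx 0 0
    simpa only [hp, if_true, sq] using this
  · have h := d2a_bi ((G - F • (1 : M4)) *ᵥ z c) (Pi.single 0 1)
      (fun e => sg e * ((n : ℝ) - 4)) _
      (fun e i j => (J e *ᵥ (PP J x *ᵥ Pi.single j 1)) ⬝ᵥ (PP J x *ᵥ Pi.single i 1))
      (hsum3 hJ hx)
    have h1 : ∀ u : Fin 4 → ℝ, ∑ e, (Pi.single 0 1 : Fin 4 → ℝ) e * u e = u 0 := fun u => by
      simp [Fin.sum_univ_four]
    have h2 : ∀ u w : Fin 4 → ℝ, ∑ e, u e * (Pi.single 0 1 : Fin 4 → ℝ) e * w e = u 0 * w 0 :=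
      fun u w => by simp [Fin.sum_univ_four]
    simp only [h1, h2, hp, hs0, one_mul] at h
    rw [h]
    ring

end

end Vale.Agent.P366
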