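import Vale.Agent.P366.Base

/-! Tables for the vertical jet in the diagonal frame. -/

noncomputable section

open Matrix MeasureTheory Set Filter Topology Asymptotics

namespace Vale.Agent.P366

variable {n : ℕ}

/-- The part of the vertical jet that does not depend on the derivative. -/
def d2b_T (u : ℝ) (b y : Fin 3 → ℝ) : Fin 4 → Fin 4 → Fin 4 → ℝ :=
  ![![![2 * u⁻¹ * b 2 ^ 2 + 2 * u⁻¹ * b 1 ^ 2 + 2 * u⁻¹ * b 0 ^ 2,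
        b 0 * y 0 - u⁻¹ * b 0 + b 0 * b 2 ^ 2 * y 0 + b 0 * b 1 ^ 2 * y 0 + b 0 ^ 3 * y 0,
        b 1 * y 1 - u⁻¹ * b 1 + b 1 * b 2 ^ 2 * y 1 + b 1 ^ 3 * y 1 + b 0 ^ 2 * b 1 * y 1,
        b 2 * y 2 - u⁻¹ * b 2 + b 2 ^ 3 * y 2 + b 1 ^ 2 * b 2 * y 2 + b 0 ^ 2 * b 2 * y 2],
      ![b 0 * y 0 - u⁻¹ * b 0 + b 0 * b 2 ^ 2 * y 0 + b 0 * b 1 ^ 2 * y 0 + b 0 ^ 3 * y 0,
        -(2 * b 0 ^ 2 * y 0), -(b 2 * y 1) + b 2 * y 0 - b 0 * b 1 * y 1 - b 0 * b 1 * y 0,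
        b 1 * y 2 - b 1 * y 0 - b 0 * b 2 * y 2 - b 0 * b 2 * y 0],
      ![b 1 * y 1 - u⁻¹ * b 1 + b 1 * b 2 ^ 2 * y 1 + b 1 ^ 3 * y 1 + b 0 ^ 2 * b 1 * y 1,
        -(b 2 * y 1) + b 2 * y 0 - b 0 * b 1 * y 1 - b 0 * b 1 * y 0, -(2 * b 1 ^ 2 * y 1),
        -(b 0 * y 2) + b 0 * y 1 - b 1 * b 2 * y 2 - b 1 * b 2 * y 1],
      ![b 2 * y 2 - u⁻¹ * b 2 + b 2 ^ 3 * y 2 + b 1 ^ 2 * b 2 * y 2 + b 0 ^ 2 * b 2 * y 2,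
        b 1 * y 2 - b 1 * y 0 - b 0 * b 2 * y 2 - b 0 * b 2 * y 0,
        -(b 0 * y 2) + b 0 * y 1 - b 1 * b 2 * y 2 - b 1 * b 2 * y 1, -(2 * b 2 ^ 2 * y 2)]],
    ![![-(2 * u⁻¹ * b 0), -(y 0) + u⁻¹ - b 0 ^ 2 * y 0, b 2 * y 1 - b 0 * b 1 * y 1,
        -(b 1 * y 2) - b 0 * b 2 * y 2],
      ![-(y 0) + u⁻¹ - b 0 ^ 2 * y 0, 2 * b 0 * y 0, b 1 * y 1, b 2 * y 2],
      ![b 2 * y 1 - b 0 * b 1 * y 1, b 1 * y 1, 0, y 2 - y 1],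
      ![-(b 1 * y 2) - b 0 * b 2 * y 2, b 2 * y 2, y 2 - y 1, 0]],
    ![![-(2 * u⁻¹ * b 1), -(b 2 * y 0) - b 0 * b 1 * y 0, -(y 1) + u⁻¹ - b 1 ^ 2 * y 1,
        b 0 * y 2 - b 1 * b 2 * y 2],
      ![-(b 2 * y 0) - b 0 * b 1 * y 0, 0, b 0 * y 0, -(y 2) + y 0],
      ![-(y 1) + u⁻¹ - b 1 ^ 2 * y 1, b 0 * y 0, 2 * b 1 * y 1, b 2 * y 2],
      ![b 0 * y 2 - b 1 * b 2 * y 2, -(y 2) + y 0, b 2 * y 2, 0]],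
    ![![-(2 * u⁻¹ * b 2), b 1 * y 0 - b 0 * b 2 * y 0, -(b 0 * y 1) - b 1 * b 2 * y 1,
        -(y 2) + u⁻¹ - b 2 ^ 2 * y 2],
      ![b 1 * y 0 - b 0 * b 2 * y 0, 0, y 1 - y 0, b 0 * y 0],
      ![-(b 0 * y 1) - b 1 * b 2 * y 1, y 1 - y 0, 0, b 1 * y 1],
      ![-(y 2) + u⁻¹ - b 2 ^ 2 * y 2, b 0 * y 0, b 1 * y 1, 2 * b 2 * y 2]]]

theorem d2b_E (u : ℝ) (b y : Fin 3 → ℝ) (F : ℝ) (c : Fin 4) :
    (Gdg u b y - F • (1 : M4)) *ᵥ zdg b c =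
      ![![u⁻¹ - F, F * b 0, F * b 1, F * b 2], ![b 0 * y 0, y 0 - F, 0, 0],
        ![b 1 * y 1, 0, y 1 - F, 0], ![b 2 * y 2, 0, 0, y 2 - F]] c := by
  rw [sub_mulVec, smul_mulVec, one_mulVec]
  funext i
  fin_cases c <;> fin_cases i <;> simp [Gdg, zdg] <;> ring

theorem d2b_tv (u : ℝ) (b y : Fin 3 → ℝ) (F : ℝ) (Gd : M4) (a c e : Fin 4) :
    tv F (Gdg u b y) Gd (zdg b a) (zdg b c) (zdg b e) =
      zdg b a 0 * bil Gd (zdg b c) (zdg b e) + d2b_T u b y a c e := by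
  have h : tv F (Gdg u b y) Gd (zdg b a) (zdg b c) (zdg b e) =
      zdg b a 0 * bil Gd (zdg b c) (zdg b e) +
        tv F (Gdg u b y) 0 (zdg b a) (zdg b c) (zdg b e) := by
    simp only [tv, bil, sub_mulVec, dotProduct_sub, zero_mulVec, dotProduct_zero]
    ring
  rw [h]
  congr 1
  rw [tv, bil, zero_sub, neg_mulVec, smul_mulVec, d2b_E, d2b_E]
  fin_cases a <;> fin_cases c <;> fin_cases e <;>
    simp [d2b_T, zdg, qm, dotProduct, Fin.sum_univ_four] <;> ring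

theorem d2b_D (b : Fin 3 → ℝ) {Gd : M4} (hGd : Gd.IsSymm) :
    ∃ p q r s : ℝ, ∀ c e, bil Gd (zdg b c) (zdg b e) =
      ![![p, q, r, s], ![q, Gd 1 1, Gd 1 2, Gd 1 3], ![r, Gd 1 2, Gd 2 2, Gd 2 3],
        ![s, Gd 1 3, Gd 2 3, Gd 3 3]] c e := by
  have h := fun i j => hGd.apply i j
  refine ⟨bil Gd (zdg b 0) (zdg b 0), bil Gd (zdg b 0) (zdg b 1), bil Gd (zdg b 0) (zdg b 2),
    bil Gd (zdg b 0) (zdg b 3), fun c e => ?_⟩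
  fin_cases c <;> fin_cases e <;>
    simp [bil, zdg, dotProduct, mulVec, Fin.sum_univ_four, h 0 1, h 0 2, h 0 3, h 1 2, h 1 3,
      h 2 3] <;> ring

theorem d2b_tr (u : ℝ) (b y : Fin 3 → ℝ) (Gd : M4) :
    trace (Gdgi u b y * Gd * Gdgi u b y) = ∑ a, ∑ c, ddg u y a * ddg u y c *
      bil Gd (zdg b a) (zdg b c) * (zdg b a ⬝ᵥ zdg b c) := by
  simp only [trace, diag_apply, Matrix.mul_apply, Fin.sum_univ_four]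
  simp [Gdgi, ddg, bil, zdg, dotProduct, mulVec, Fin.sum_univ_four]
  ring

theorem d2b_ud (u : ℝ) (b y : Fin 3 → ℝ) (Gd : M4) :
    (Gdgi u b y * Gd * Gdgi u b y) 0 0 = u ^ 2 * bil Gd (zdg b 0) (zdg b 0) := by
  simp only [Matrix.mul_apply, Fin.sum_univ_four]
  simp [Gdgi, bil, zdg, dotProduct, mulVec, Fin.sum_univ_four]
  ring

end Vale.Agent.P366
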