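import Vale.Agent.P366.Dg
import Vale.Agent.P366.D2bA

/-! The scalar curvature identity in the diagonal frame (checked numerically). -/

noncomputable section

open Matrix MeasureTheory Set Filter Topology Asymptotics

namespace Vale.Agent.P366

variable {n : ℕ}

set_option maxHeartbeats 2000000 in
/-- Pure algebra. Rewrite `(Gdg u b y)⁻¹` by `Gdg_inv`, `uu_Gdg`, `hh_Gdg`; replace the lower
entries of `Gd` by the upper ones; evaluate every `tv F G Gd (zdg b a) (zdg b c) (zdg b e)` first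
(it does not depend on `F`), then `field_simp; ring`. -/
theorem QV_Gdg {u : ℝ} {b y : Fin 3 → ℝ} (hu : 0 < u) (hy : ∀ i, 0 < y i) (m : ℝ) {F : ℝ}
    (hF : 0 < F) (Fd : ℝ) {Gd : M4} (hGd : Gd.IsSymm) :
    QV m F Fd (Gdg u b y) Gd (ddg u y) (zdg b)
      + (-(m * Fd / F ^ 2) - trace ((Gdg u b y)⁻¹ * Gd * (Gdg u b y)⁻¹)
          + (2 + m) * ud (Gdg u b y) Gd - 2 * ud (Gdg u b y) Gd * hh m F Fd (Gdg u b y) Gd)
      + (m + 2) * vv m F Fd (Gdg u b y) Gd
    = RS m F y - (ud (Gdg u b y) Gd - 2 * u) * hh m F Fd (Gdg u b y) Gd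
      - u * hh m F Fd (Gdg u b y) Gd ^ 2 - u * A2 m F Fd b y Gd := by
  obtain ⟨p, q, r, s, hD⟩ := d2b_D b hGd
  have h0 := (hy 0).ne'
  have h1 := (hy 1).ne'
  have h2 := (hy 2).ne'
  have h3 := hu.ne'
  have h4 := hF.ne'
  rw [vv, hh_Gdg hu hy m F Fd h4 hGd, ud, uu_Gdg hu hy, Gdg_inv hu hy, d2b_tr, d2b_ud]
  simp only [QV, d2b_tv, d2b_E, hD]
  simp only [Fin.sum_univ_four, Fin.sum_univ_three, d2b_T, ddg, zdg, sg, RS, A2, Ah, aH, Gdgi,
    trace, diag_apply, dotProduct, of_apply, cons_val', cons_val_zero, cons_val_one, cons_val,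
    cons_val_fin_one]
  generalize y 0 = y0 at *
  generalize y 1 = y1 at *
  generalize y 2 = y2 at *
  generalize b 0 = b0
  generalize b 1 = b1
  generalize b 2 = b2
  simp only [zero_mul, one_mul, zero_add, add_zero, mul_zero, mul_one]
  field_simp
  ring

end Vale.Agent.P366
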