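import Vale.Agent.P366.JetV
import Vale.Agent.P366.Frame

/-! Divergence and norm of an invariant tensor in an adapted frame. -/

noncomputable section

open Matrix MeasureTheory Set Filter Topology Asymptotics

namespace Vale.Agent.P366

variable {n : ℕ}

section
variable {J : Fin 4 → Mn n} (hJ : QT J) {x : Fin n → ℝ} (hx : x ⬝ᵥ x ≠ 0)
include hJ hx

theorem d3a_hh : ∑ i : Fin n, ∑ j : Fin n,
    ((PP J x *ᵥ Pi.single i 1) ⬝ᵥ (PP J x *ᵥ Pi.single j 1)) ^ 2 = (n : ℝ) - 4 := by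
  have h := hsum2 hJ hx 0 0
  simpa only [hJ.one, one_mulVec, ← sq, if_true] using h

theorem d3a_hhv (F Fd : ℝ) (G Gd : M4) (z : Fin 4 → ℝ) :
    ∑ a : Fin n, tri (jetT J x F Fd G Gd) (PP J x *ᵥ Pi.single a 1) (PP J x *ᵥ Pi.single a 1)
      (Xi J x *ᵥ z) = ((n : ℝ) - 4) * ((G - F • (1 : M4)) *ᵥ z) 0 := by
  simp only [tri_hhv hJ hx]
  rw [Finset.sum_comm]
  simp only [← Finset.mul_sum, hsum1 hJ hx, mul_ite, mul_zero, Finset.sum_ite_eq',
    Finset.mem_univ, if_true]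
  ring

theorem d3a_vhh (F Fd : ℝ) (G Gd : M4) (z : Fin 4 → ℝ) :
    ∑ a : Fin n, tri (jetT J x F Fd G Gd) (Xi J x *ᵥ z) (PP J x *ᵥ Pi.single a 1)
      (PP J x *ᵥ Pi.single a 1) = ((n : ℝ) - 4) * (z 0 * Fd) := by
  simp only [tri_vhh hJ hx, ← Finset.mul_sum, hsum0 hJ hx]
  ring

theorem d3a_frame {F : ℝ} (hF : 0 < F) {G : M4} (hG : G.PosDef) {d : Fin 4 → ℝ}
    {z : Fin 4 → Fin 4 → ℝ} (hz : G⁻¹ = ∑ c, d c • vecMulVec (z c) (z c)) :
    (ans J x F G)⁻¹ = ∑ A, frD n F (x ⬝ᵥ x) d A • vecMulVec (fr J x z A) (fr J x z A) := by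
  rw [ans_inv hJ hx hF.ne' hG.det_pos.ne', frame_ans hJ hx F hz]

end

section
variable {J : Fin 4 → Mn n} (hJ : QT J) {x : Fin n → ℝ} (hx : x ⬝ᵥ x ≠ 0) {F : ℝ} (hF : 0 < F)
  (Fd : ℝ) {G Gd : M4} (hG : G.PosDef) (hGd : Gd.IsSymm) {d : Fin 4 → ℝ} {z : Fin 4 → Fin 4 → ℝ}
  (hz : G⁻¹ = ∑ c, d c • vecMulVec (z c) (z c))
include hJ hx hF hG hz

include hGd in
/-- `ans_inv`, `frame_ans`, `cur_frame`, `Fintype.sum_sum_type`, `tri_*`, `bil_*`, `hsum*`. -/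
theorem cur_ans (FB FBd : ℝ) {B : M4} (hB : B.IsSymm) (Bd : M4) (w : Fin 4 → ℝ) :
    ∑ j, curA (ans J x F G)⁻¹ (jetT J x F Fd G Gd) (ans J x FB B) (jetT J x FB FBd B Bd) j
        * (Xi J x *ᵥ w) j
      = CV ((n : ℝ) - 4) F Fd G Gd FB B Bd d z w := by
  have hGs : G.IsSymm := by simpa using hG.isHermitian
  rw [cur_frame (d3a_frame hJ hx hF hG hz) (jetT_symm J x F Fd hGs hGd) (ans_symm FB hB), CV]
  have e1 : ∑ A, frD n F (x ⬝ᵥ x) d A *
      tri (jetT J x FB FBd B Bd) (fr J x z A) (fr J x z A) (Xi J x *ᵥ w)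
      = ((n : ℝ) - 4) / F * ((B - FB • (1 : M4)) *ᵥ w) 0
        + ∑ c, d c * tv FB B Bd (z c) (z c) w := by
    simp only [Fintype.sum_sum_type, frD, fr, Sum.elim_inl, Sum.elim_inr, ← Finset.mul_sum,
      d3a_hhv hJ hx, tri_vvv hJ hx FB FBd Bd hB]
    congr 1
    · ring
    · exact Finset.sum_congr rfl fun c _ => by field_simp
  have e2 : ∀ c, ∑ A, frD n F (x ⬝ᵥ x) d A *
      (tri (jetT J x F Fd G Gd) (fr J x z A) (fr J x z A) (Xi J x *ᵥ z c)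
        - (1 / 2) * tri (jetT J x F Fd G Gd) (Xi J x *ᵥ z c) (fr J x z A) (fr J x z A))
      = ((n : ℝ) - 4) / F * ((G - F • (1 : M4)) *ᵥ z c) 0
        + ∑ a, d a * tv F G Gd (z a) (z a) (z c)
        - (1 / 2) * (((n : ℝ) - 4) / F * (z c 0 * Fd)
          + ∑ a, d a * tv F G Gd (z c) (z a) (z a)) := fun c => by
    simp only [Fintype.sum_sum_type, frD, fr, Sum.elim_inl, Sum.elim_inr, ← Finset.mul_sum,
      Finset.sum_sub_distrib, d3a_hhv hJ hx, d3a_vhh hJ hx, tri_vvv hJ hx F Fd Gd hGs]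
    have e : ∑ a, d a / (x ⬝ᵥ x) * (x ⬝ᵥ x * tv F G Gd (z a) (z a) (z c)
        - 1 / 2 * (x ⬝ᵥ x * tv F G Gd (z c) (z a) (z a)))
        = ∑ a, d a * tv F G Gd (z a) (z a) (z c)
          - 1 / 2 * ∑ a, d a * tv F G Gd (z c) (z a) (z a) := by
      rw [Finset.mul_sum, ← Finset.sum_sub_distrib]
      exact Finset.sum_congr rfl fun a _ => by field_simp
    rw [e]
    ring
  have e3 : ∑ A, ∑ C, frD n F (x ⬝ᵥ x) d A * frD n F (x ⬝ᵥ x) d C *
      bil (ans J x FB B) (fr J x z A) (fr J x z C) *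
        tri (jetT J x F Fd G Gd) (Xi J x *ᵥ w) (fr J x z A) (fr J x z C)
      = ((n : ℝ) - 4) * FB / F ^ 2 * (w 0 * Fd)
        + ∑ a, ∑ b, d a * d b * bil B (z a) (z b) * tv F G Gd w (z a) (z b) := by
    simp only [Fintype.sum_sum_type, frD, fr, Sum.elim_inl, Sum.elim_inr, bil_hh hJ hx,
      bil_hv hJ hx, bil_vh hJ hx, bil_vv hJ hx, tri_vhh hJ hx, tri_vvv hJ hx F Fd Gd hGs,
      mul_zero, zero_mul, Finset.sum_const_zero, add_zero, zero_add]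
    congr 1
    · rw [← d3a_hh hJ hx]
      simp only [Finset.sum_mul, Finset.sum_div]
      exact Finset.sum_congr rfl fun a _ => Finset.sum_congr rfl fun b _ => by ring
    · exact Finset.sum_congr rfl fun a _ => Finset.sum_congr rfl fun b _ => by field_simp
  rw [e1, e3]
  congr 2
  rw [Fintype.sum_sum_type]
  have e4 : ∀ c, fr J x z (Sum.inr c) = Xi J x *ᵥ z c := fun _ => rfl
  have e5 : ∀ a, fr J x z (Sum.inl a) = PP J x *ᵥ Pi.single a 1 := fun _ => rfl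
  have e6 : ∀ c, frD n F (x ⬝ᵥ x) d (Sum.inr c) = d c / (x ⬝ᵥ x) := fun _ => rfl
  simp only [e4, e5, e6, e2, bil_hv hJ hx, bil_vv hJ hx, mul_zero, Finset.sum_const_zero, zero_add]
  exact Finset.sum_congr rfl fun c _ => by field_simp

theorem normSq_ans (FK : ℝ) (L : M4) :
    ∑ i, ∑ j, ∑ k, ∑ l, (ans J x F G)⁻¹ i k * (ans J x F G)⁻¹ j l
        * ans J x FK L i j * ans J x FK L k l
      = ((n : ℝ) - 4) * (FK / F) ^ 2 + ∑ a, ∑ c, d a * d c * bil L (z a) (z c) ^ 2 := by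
  rw [normSq_frame (d3a_frame hJ hx hF hG hz)]
  simp only [Fintype.sum_sum_type, frD, fr, Sum.elim_inl, Sum.elim_inr, bil_hh hJ hx,
    bil_hv hJ hx, bil_vh hJ hx, bil_vv hJ hx, sq (0 : ℝ), mul_zero, Finset.sum_const_zero,
    add_zero, zero_add]
  congr 1
  · rw [← d3a_hh hJ hx]
    simp only [Finset.sum_mul]
    exact Finset.sum_congr rfl fun a _ => Finset.sum_congr rfl fun b _ => by ring
  · exact Finset.sum_congr rfl fun a _ => Finset.sum_congr rfl fun b _ => by field_simp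

end

end Vale.Agent.P366
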