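import Vale.Agent.P366.Dg

/-! The momentum constraint in the diagonal frame (checked numerically). -/

noncomputable section

open Matrix MeasureTheory Set Filter Topology Asymptotics

namespace Vale.Agent.P366

set_option linter.all false

variable {n : ℕ}

set_option maxHeartbeats 3200000 in
/-- Pure algebra, as for `QV_Gdg`. -/
theorem CV_Gdg {u : ℝ} {b y : Fin 3 → ℝ} (hu : 0 < u) (hy : ∀ i, 0 < y i) (m : ℝ) {F : ℝ}
    (hF : 0 < F) (Fd : ℝ) {Gd : M4} (hGd : Gd.IsSymm) (FB : ℝ) {B Bd : M4} (hB : B.IsSymm)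
    (hBd : Bd.IsSymm) :
    CV m F Fd (Gdg u b y) Gd FB B Bd (ddg u y) (zdg b) (zdg b 0)
      = nd (Gdg u b y) Gd B Bd - AK m F Fd b y Gd FB B
        + hh m F Fd (Gdg u b y) Gd * nn (Gdg u b y) B := by
  have y0 := (hy 0).ne'
  have y1 := (hy 1).ne'
  have y2 := (hy 2).ne'
  have u0 := hu.ne'
  have F0 := hF.ne'
  rw [nd, ud, hh_Gdg hu hy m F Fd F0 hGd, nn_Gdg hu hy, uu_Gdg hu hy, Gdg_inv hu hy]
  simp only [CV, AK, Ah, aH, tv, bil, qm, ddg, zdg, Gdg, Gdgi, Fin.sum_univ_four,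
    Fin.sum_univ_three, Matrix.mul_apply, Matrix.neg_apply, dotProduct, Matrix.mulVec,
    Matrix.sub_apply, Matrix.smul_apply, Matrix.one_apply, smul_eq_mul, Matrix.of_apply,
    Matrix.cons_val', Matrix.cons_val_zero, Matrix.cons_val_one, Matrix.cons_val_two,
    Matrix.cons_val_three, Matrix.cons_val, Matrix.cons_val_fin_one, Fin.isValue, Fin.reduceEq,
    if_true, if_false, Fin.succ_zero_eq_one, Fin.succ_one_eq_two, Fin.reduceSucc,
    Matrix.head_cons, Matrix.tail_cons, Matrix.vecHead, Matrix.vecTail, Function.comp,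
    hGd.apply 0 1, hGd.apply 0 2, hGd.apply 0 3, hGd.apply 1 2, hGd.apply 1 3, hGd.apply 2 3,
    hB.apply 0 1, hB.apply 0 2, hB.apply 0 3, hB.apply 1 2, hB.apply 1 3, hB.apply 2 3,
    hBd.apply 0 1, hBd.apply 0 2, hBd.apply 0 3, hBd.apply 1 2, hBd.apply 1 3, hBd.apply 2 3,
    mul_zero, zero_mul, mul_one, one_mul, add_zero, zero_add, sub_zero, neg_zero]
  field_simp
  ring

/-- `CV` is linear in the last argument. -/
theorem CV_smul (m F Fd : ℝ) (G Gd : M4) (FB : ℝ) (B Bd : M4) (d : Fin 4 → ℝ)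
    (z : Fin 4 → Fin 4 → ℝ) (c : ℝ) (w : Fin 4 → ℝ) :
    CV m F Fd G Gd FB B Bd d z (c • w) = c * CV m F Fd G Gd FB B Bd d z w := by
  have h1 : ∀ (F : ℝ) (G Gd : M4) (p q : Fin 4 → ℝ),
      tv F G Gd p q (c • w) = c * tv F G Gd p q w := fun F G Gd p q => by
    simp only [tv, bil, Matrix.mulVec_smul, dotProduct, Fin.sum_univ_four, qm, Pi.smul_apply,
      smul_eq_mul, Matrix.cons_val_zero, Matrix.cons_val_one, Matrix.cons_val]
    ring
  have h2 : ∀ (F : ℝ) (G Gd : M4) (p q : Fin 4 → ℝ),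
      tv F G Gd (c • w) p q = c * tv F G Gd w p q := fun F G Gd p q => by
    simp only [tv, bil, dotProduct, Fin.sum_univ_four, qm, Pi.smul_apply,
      smul_eq_mul, Matrix.cons_val_zero, Matrix.cons_val_one, Matrix.cons_val]
    ring
  have h3 : ∀ p : Fin 4 → ℝ, bil B p (c • w) = c * bil B p w := fun p => by
    simp only [bil, Matrix.mulVec_smul, dotProduct_smul, smul_eq_mul]
  simp only [CV, h1, h2, h3, Matrix.mulVec_smul, Pi.smul_apply, smul_eq_mul, Fin.sum_univ_four]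
  ring

end Vale.Agent.P366
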