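import Mathlib

/-! Initial data in the asymptotic chart: coordinate definitions. -/

noncomputable section

open Matrix MeasureTheory

namespace Vale.Agent.P366

/-- Euclidean space of dimension `n`. -/
abbrev Euc (n : ℕ) := EuclideanSpace ℝ (Fin n)

/-- A field of 2-tensors, given by its coordinate matrix. -/
abbrev Fld (n : ℕ) := Euc n → Matrix (Fin n) (Fin n) ℝ

variable {n : ℕ}

/-- Coordinate derivative in direction `i`. -/
def pd (f : Euc n → ℝ) (i : Fin n) (x : Euc n) : ℝ :=
  fderiv ℝ f x (EuclideanSpace.single i 1)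

/-- Christoffel symbol with upper index `k`. -/
def chr (g : Fld n) (k i j : Fin n) (x : Euc n) : ℝ :=
  (1 / 2) * ∑ l, (g x)⁻¹ k l *
    (pd (fun y => g y j l) i x + pd (fun y => g y i l) j x - pd (fun y => g y i j) l x)

/-- Ricci tensor. -/
def ric (g : Fld n) (i j : Fin n) (x : Euc n) : ℝ :=
  ∑ k, pd (chr g k i j) k x - ∑ k, pd (chr g k i k) j x
    + ∑ k, ∑ l, (chr g k k l x * chr g l i j x - chr g k j l x * chr g l i k x)

/-- Scalar curvature. -/
def scal (g : Fld n) (x : Euc n) : ℝ := ∑ i, ∑ j, (g x)⁻¹ i j * ric g i j x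

/-- Trace of `K` with respect to `g`. -/
def trK (g K : Fld n) (x : Euc n) : ℝ := ∑ i, ∑ j, (g x)⁻¹ i j * K x i j

/-- Squared norm of `K` with respect to `g`. -/
def normSqK (g K : Fld n) (x : Euc n) : ℝ :=
  ∑ i, ∑ j, ∑ k, ∑ l, (g x)⁻¹ i k * (g x)⁻¹ j l * K x i j * K x k l

/-- The momentum tensor `K - (tr K) g`. -/
def mom (g K : Fld n) : Fld n := fun x => K x - trK g K x • g x

/-- Energy density. -/
def mu (g K : Fld n) (x : Euc n) : ℝ := (scal g x + trK g K x ^ 2 - normSqK g K x) / 2

/-- Momentum density: the divergence of the momentum tensor. -/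
def cur (g K : Fld n) (j : Fin n) (x : Euc n) : ℝ :=
  ∑ i, ∑ k, (g x)⁻¹ i k * (pd (fun y => mom g K y i j) k x
    - ∑ l, (chr g l k i x * mom g K x l j + chr g l k j x * mom g K x i l))

/-- Norm of the momentum density with respect to `g`. -/
def curNorm (g K : Fld n) (x : Euc n) : ℝ :=
  √(∑ i, ∑ j, (g x)⁻¹ i j * cur g K i x * cur g K j x)

/-- Outward `g`-unit normal field of the coordinate spheres. -/
def nu (g : Fld n) (i : Fin n) (x : Euc n) : ℝ :=
  (∑ j, (g x)⁻¹ i j * x j) / √(∑ a, ∑ b, (g x)⁻¹ a b * x a * x b)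

/-- Mean curvature of the coordinate sphere through `x`: the `g`-divergence of the unit normal. -/
def meanH (g : Fld n) (x : Euc n) : ℝ :=
  ∑ i, pd (nu g i) i x + ∑ i, ∑ k, chr g i i k x * nu g k x

/-- Outward future null expansion of the coordinate sphere through `x`. -/
def thetaP (g K : Fld n) (x : Euc n) : ℝ :=
  meanH g x + (trK g K x - ∑ i, ∑ j, K x i j * nu g i x * nu g j x)

/-- Euclidean area measure on the unit sphere. -/
def sph (n : ℕ) : Measure (Metric.sphere (0 : Euc n) 1) := (volume : Measure (Euc n)).toSphere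

/-- Area of the unit sphere. -/
def omega (n : ℕ) : ℝ := (sph n).real Set.univ

/-- Euclidean surface integral over the sphere of radius `R`. -/
def sInt (R : ℝ) (f : Euc n → ℝ) : ℝ := R ^ (n - 1) * ∫ θ, f (R • (θ : Euc n)) ∂(sph n)

/-- The `g`-area of the coordinate sphere of radius `R`. -/
def area (g : Fld n) (R : ℝ) : ℝ :=
  sInt R (fun x => √((g x).det * ∑ a, ∑ b, (g x)⁻¹ a b * (x a / R) * (x b / R)))

/-- The normalising constant. -/
def cn (n : ℕ) : ℝ := 1 / (2 * ((n : ℝ) - 1) * omega n)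

/-- Energy flux through the sphere of radius `R`. -/
def enFlux (g : Fld n) (R : ℝ) : ℝ :=
  cn n * sInt R (fun x => ∑ i, ∑ j,
    (pd (fun y => g y i j) j x - pd (fun y => g y j j) i x) * (x i / R))

/-- Momentum flux through the sphere of radius `R`. -/
def momFlux (g K : Fld n) (i : Fin n) (R : ℝ) : ℝ :=
  2 * cn n * sInt R (fun x => ∑ j, mom g K x i j * (x j / R))

/-- Action of a matrix on a point. -/
def act (A : Matrix (Fin n) (Fin n) ℝ) (x : Euc n) : Euc n := WithLp.toLp 2 (A *ᵥ x.ofLp)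

end Vale.Agent.P366
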