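import Vale.Agent.P366.Der0

/-! Derivatives of the radial functions. -/

noncomputable section

open Matrix MeasureTheory Set Filter Topology Asymptotics

namespace Vale.Agent.P366

variable {n : ℕ}

/-- Entrywise derivatives. -/
def der_HD (G : ℝ → M4) (G' : M4) (r : ℝ) : Prop :=
  ∀ a b, HasDerivAt (fun s => G s a b) (G' a b) r

/-- The matrix of the derivatives. -/
def der_M (G : ℝ → M4) (r : ℝ) : M4 := Matrix.of fun a b => deriv (fun s => G s a b) r

theorem der_dot (G : ℝ → M4) (r : ℝ) : dotM G r = r • der_M G r := rfl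

theorem der_of {G : ℝ → M4} {r : ℝ} (h : ∀ a b, DifferentiableAt ℝ (fun s => G s a b) r) :
    der_HD G (der_M G r) r := fun a b => (h a b).hasDerivAt

theorem der_mul {A B : ℝ → M4} {A' B' : M4} {r : ℝ} (hA : der_HD A A' r) (hB : der_HD B B' r) :
    der_HD (fun s => A s * B s) (A' * B r + A r * B') r := fun a b => by
  have h := HasDerivAt.fun_sum (u := Finset.univ) fun c _ => (hA a c).fun_mul (hB c b)
  simp only [Matrix.add_apply, Matrix.mul_apply, ← Finset.sum_add_distrib]
  exact h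

theorem der_trace {A : ℝ → M4} {A' : M4} {r : ℝ} (hA : der_HD A A' r) :
    HasDerivAt (fun s => trace (A s)) (trace A') r :=
  HasDerivAt.fun_sum (u := Finset.univ) fun c _ => hA c c

theorem der_ud (G G' : M4) (r : ℝ) : ud G (r • G') = r * ud G G' := by
  simp [ud]

theorem der_tr (G G' : M4) (r : ℝ) : trace (G⁻¹ * r • G') = r * trace (G⁻¹ * G') := by
  simp

section
variable {r₁ : ℝ} {F FK : ℝ → ℝ} {G L : ℝ → M4} (h : RD r₁ F G FK L) {r : ℝ} (hr : r₁ < r)
  (m : ℝ)
include h hr

theorem der_G : der_HD G (der_M G r) r :=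
  der_of fun a b => ((h.cG a b).contDiffAt (Ioi_mem_nhds hr)).differentiableAt (by simp)

theorem der_F : HasDerivAt F (deriv F r) r :=
  ((h.cF.contDiffAt (Ioi_mem_nhds hr)).differentiableAt (by simp)).hasDerivAt

theorem der_inv : der_HD (fun s => (G s)⁻¹) (-((G r)⁻¹ * der_M G r * (G r)⁻¹)) r :=
  hasDerivAt_minv (der_G h hr) (h.Gpos r hr).det_pos.ne'

theorem der_u : HasDerivAt (fun s => uu (G s)) (ud (G r) (der_M G r)) r := der_inv h hr 0 0

theorem dot_uf : dot (uf G) r = ud (G r) (dotM G r) := by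
  rw [der_dot, der_ud, ← (der_u h hr).deriv]
  rfl

theorem dot_vv : dot (fun s => vv m (F s) (dot F s) (G s) (dotM G s)) r
    = -(m * dot F r / F r ^ 2) - trace ((G r)⁻¹ * dotM G r * (G r)⁻¹)
      + (2 + m) * ud (G r) (dotM G r) - 2 * ud (G r) (dotM G r) * hf m F G r
      - 2 * uf G r * dot (hf m F G) r := by
  have h1 := ((cd_hf h hr m).differentiableAt (by simp)).hasDerivAt
  have h2 := ((((hasDerivAt_const r m).fun_div (der_F h hr) (h.Fpos r hr).ne').fun_add
    (der_trace (der_inv h hr))).fun_add ((der_u h hr).const_mul (2 + m))).fun_sub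
      (((der_u h hr).const_mul 2).fun_mul h1)
  have h3 : deriv (fun s => vv m (F s) (dot F s) (G s) (dotM G s)) r = _ := h2.deriv
  rw [dot, h3, der_dot, der_ud]
  simp only [dot, uf, trace_neg, Matrix.mul_smul, Matrix.smul_mul, trace_smul, smul_eq_mul]
  ring

theorem dot_nn {B : ℝ → M4} (hB : ∀ a b, DifferentiableAt ℝ (fun s => B s a b) r) :
    DifferentiableAt ℝ (fun s => nn (G s) (B s)) r ∧
      dot (fun s => nn (G s) (B s)) r = nd (G r) (dotM G r) (B r) (dotM B r) := by
  have h1 := (der_mul (der_mul (der_inv h hr) (der_of hB)) (der_inv h hr) 0 0).fun_div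
    (der_u h hr) (uu_pos (h.Gpos r hr)).ne'
  have h0 := (uu_pos (h.Gpos r hr)).ne'
  refine ⟨h1.differentiableAt, ?_⟩
  have h3 : deriv (fun s => nn (G s) (B s)) r = _ := h1.deriv
  rw [dot, h3, der_dot, der_dot, nd, der_ud]
  simp only [Matrix.mul_smul, Matrix.smul_mul, Matrix.add_mul, Matrix.neg_mul, Matrix.mul_neg,
    Matrix.add_apply, Matrix.neg_apply, Matrix.smul_apply, smul_eq_mul, Matrix.mul_assoc]
  field_simp
  ring

theorem dot_detY : DifferentiableAt ℝ (fun s => detY (G s)) r ∧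
    dot (fun s => detY (G s)) r = detY (G r) *
      (trace ((G r)⁻¹ * dotM G r) + ud (G r) (dotM G r) / uu (G r)) := by
  have h1 := (hasDerivAt_det4 (der_G h hr) (h.Gpos r hr).det_pos.ne').fun_mul (der_u h hr)
  have h0 := (uu_pos (h.Gpos r hr)).ne'
  refine ⟨h1.differentiableAt, ?_⟩
  have h3 : deriv (fun s => detY (G s)) r = _ := h1.deriv
  rw [dot, h3, der_dot, der_ud, der_tr, detY]
  field_simp

theorem dot_af (hn : 4 ≤ n) : DifferentiableAt ℝ (af n F G) r ∧
    dot (af n F G) r = hf ((n : ℝ) - 4) F G r * af n F G r := by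
  obtain ⟨k, rfl⟩ := Nat.exists_eq_add_of_le' hn
  obtain ⟨h1, h2⟩ := dot_detY h hr
  have hF := h.Fpos r hr
  have hP : 0 < F r ^ k * detY (G r) := mul_pos (pow_pos hF k) (detY_pos (h.Gpos r hr))
  have h3 := (hasDerivAt_pow (k + 3) r).fun_mul
    ((((der_F h hr).fun_pow k).fun_mul h1.hasDerivAt).sqrt hP.ne')
  refine ⟨h3.differentiableAt, ?_⟩
  have h4 : deriv (af (k + 4) F G) r = _ := h3.deriv
  have h5 : (k : ℝ) * F r ^ (k - 1) = k * F r ^ k / F r := by
    rcases k with _ | k
    · simp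
    · rw [Nat.add_sub_cancel, pow_succ]
      field_simp
  have h6 : af (k + 4) F G r = r ^ (k + 3) * √(F r ^ k * detY (G r)) := rfl
  have h7 : r * ((k : ℝ) * F r ^ (k - 1) * deriv F r * detY (G r) +
      F r ^ k * deriv (fun s => detY (G s)) r) = F r ^ k * detY (G r) *
        (k * (r * deriv F r) / F r +
          (trace ((G r)⁻¹ * dotM G r) + ud (G r) (dotM G r) / uu (G r))) := by
    rw [dot] at h2
    rw [h5]
    linear_combination F r ^ k * h2
  have h8 := Real.mul_self_sqrt hP.le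
  have h9 := (Real.sqrt_pos.2 hP).ne'
  rw [dot, h4, h6, hf, hh, dot, show k + 3 - 1 = k + 2 from rfl]
  generalize √(F r ^ k * detY (G r)) = q at *
  generalize (k : ℝ) * F r ^ (k - 1) * deriv F r * detY (G r) +
      F r ^ k * deriv (fun s => detY (G s)) r = P' at *
  have h10 : r * (P' / (2 * q)) = q * (k * (r * deriv F r) / F r +
      (trace ((G r)⁻¹ * dotM G r) + ud (G r) (dotM G r) / uu (G r))) / 2 := by
    rw [← mul_div_assoc, h7, ← h8]
    field_simp
  push_cast
  linear_combination r ^ (k + 3) * h10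

end

end Vale.Agent.P366
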