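import Vale.Agent.P366.Base

/-! The diagonal parametrisation of the vertical Gram matrix. -/

noncomputable section

open Matrix MeasureTheory Set Filter Topology Asymptotics

namespace Vale.Agent.P366

variable {n : ℕ}

lemma dg_bil {L : M4} (hL : L.IsSymm) (v w : Fin 4 → ℝ) : bil L v w = bil L w v := by
  rw [bil, bil, Matrix.dotProduct_mulVec, ← Matrix.mulVec_transpose, hL.eq, dotProduct_comm]

lemma dg_uu {G : M4} (hG : G.PosDef) : 0 < uu G := hG.inv.diag_pos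

section
variable {u : ℝ} {b y : Fin 3 → ℝ} (hu : 0 < u) (hy : ∀ i, 0 < y i)

theorem Gdg_symm (u : ℝ) (b y : Fin 3 → ℝ) : (Gdg u b y).IsSymm := by
  refine Matrix.IsSymm.ext fun i j => ?_
  fin_cases i <;> fin_cases j <;> simp [Gdg]

theorem Gdgi_frame (u : ℝ) (b y : Fin 3 → ℝ) :
    Gdgi u b y = ∑ c, ddg u y c • vecMulVec (zdg b c) (zdg b c) := by
  ext i j
  fin_cases i <;> fin_cases j <;>
    simp [Gdgi, ddg, zdg, Fin.sum_univ_four, vecMulVec_apply] <;> ring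

include hu hy

theorem Gdg_inv : (Gdg u b y)⁻¹ = Gdgi u b y := by
  have h0 := (hy 0).ne'
  have h1 := (hy 1).ne'
  have h2 := (hy 2).ne'
  have h3 := hu.ne'
  refine Matrix.inv_eq_right_inv ?_
  ext i j
  fin_cases i <;> fin_cases j <;> simp [Gdg, Gdgi, Matrix.mul_apply, Fin.sum_univ_four] <;>
    field_simp <;> ring

theorem Gdg_det : (Gdg u b y).det = y 0 * y 1 * y 2 / u := by
  have h3 := hu.ne'
  rw [Matrix.det_succ_row_zero]
  simp [Gdg, Fin.sum_univ_four, Matrix.det_fin_three, Fin.succAbove]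
  field_simp
  ring

theorem uu_Gdg : uu (Gdg u b y) = u := by
  simp [uu, Gdg_inv hu hy, Gdgi]

theorem detY_Gdg : detY (Gdg u b y) = y 0 * y 1 * y 2 := by
  have h3 := hu.ne'
  rw [detY, Gdg_det hu hy, uu_Gdg hu hy]
  field_simp

omit hu hy in
theorem trY_Gdg : trY (Gdg u b y) = y 0 + y 1 + y 2 := by
  simp [trY, Gdg, Matrix.trace, Fin.sum_univ_four]
  ring

theorem H0_Gdg (m F : ℝ) : H0 m F (Gdg u b y) = H0d m F y := by
  rw [H0, H0d, trY_Gdg, detY_Gdg hu hy]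

theorem Gdg_inv_e0 : (Gdg u b y)⁻¹ *ᵥ Pi.single 0 1 = u • zdg b 0 := by
  rw [Gdg_inv hu hy]
  ext i
  fin_cases i <;> simp [Gdgi, zdg]

theorem hh_Gdg (m F Fd : ℝ) (hF : F ≠ 0) {Gd : M4} (hGd : Gd.IsSymm) :
    hh m F Fd (Gdg u b y) Gd = ∑ i : Fin 3, Ah b y Gd i i / y i + m * aH F Fd := by
  have h0 := (hy 0).ne'
  have h1 := (hy 1).ne'
  have h2 := (hy 2).ne'
  have h3 := hu.ne'
  have e1 := hGd.apply 0 1
  have e2 := hGd.apply 0 2
  have e3 := hGd.apply 0 3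
  have e4 := hGd.apply 1 2
  have e5 := hGd.apply 1 3
  have e6 := hGd.apply 2 3
  rw [hh, ud, uu_Gdg hu hy, Gdg_inv hu hy]
  simp only [Matrix.trace, Matrix.diag, Matrix.mul_apply, Fin.sum_univ_four, Fin.sum_univ_three,
    e1, e2, e3, e4, e5, e6]
  simp [Gdgi, Ah, aH]
  field_simp
  ring

theorem nn_Gdg (L : M4) : nn (Gdg u b y) L = u * bil L (zdg b 0) (zdg b 0) := by
  have h3 := hu.ne'
  rw [nn, uu_Gdg hu hy, Gdg_inv hu hy]
  simp only [bil, Matrix.mul_apply, Matrix.mulVec, dotProduct, Fin.sum_univ_four]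
  simp [Gdgi, zdg]
  field_simp
  ring

/-- The norm of `K` splits into normal, mixed and tangential parts. -/
theorem normSq_Gdg (m F FK : ℝ) {L : M4} (hL : L.IsSymm) :
    ∃ X2 : ℝ, 0 ≤ X2 ∧
      m * (FK / F) ^ 2 + ∑ a, ∑ c, ddg u y a * ddg u y c * bil L (zdg b a) (zdg b c) ^ 2
        = nn (Gdg u b y) L ^ 2 + 2 * X2 + KT2 m F y FK L := by
  have e1 : bil L (zdg b 1) (zdg b 0) = bil L (zdg b 0) (zdg b 1) := dg_bil hL _ _
  have e2 : bil L (zdg b 2) (zdg b 0) = bil L (zdg b 0) (zdg b 2) := dg_bil hL _ _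
  have e3 : bil L (zdg b 3) (zdg b 0) = bil L (zdg b 0) (zdg b 3) := dg_bil hL _ _
  have e4 : ∀ i j : Fin 3, bil L (zdg b i.succ) (zdg b j.succ) = L i.succ j.succ := by
    intro i j
    fin_cases i <;> fin_cases j <;>
      simp [zdg, bil, Matrix.mulVec, dotProduct, Fin.sum_univ_four]
  have h0 := hy 0
  have h1 := hy 1
  have h2 := hy 2
  refine ⟨u * (1 / y 0) * bil L (zdg b 0) (zdg b 1) ^ 2 +
    u * (1 / y 1) * bil L (zdg b 0) (zdg b 2) ^ 2 +
    u * (1 / y 2) * bil L (zdg b 0) (zdg b 3) ^ 2, by positivity, ?_⟩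
  have f11 : bil L (zdg b 1) (zdg b 1) = L 1 1 := e4 0 0
  have f12 : bil L (zdg b 1) (zdg b 2) = L 1 2 := e4 0 1
  have f13 : bil L (zdg b 1) (zdg b 3) = L 1 3 := e4 0 2
  have f21 : bil L (zdg b 2) (zdg b 1) = L 2 1 := e4 1 0
  have f22 : bil L (zdg b 2) (zdg b 2) = L 2 2 := e4 1 1
  have f23 : bil L (zdg b 2) (zdg b 3) = L 2 3 := e4 1 2
  have f31 : bil L (zdg b 3) (zdg b 1) = L 3 1 := e4 2 0
  have f32 : bil L (zdg b 3) (zdg b 2) = L 3 2 := e4 2 1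
  have f33 : bil L (zdg b 3) (zdg b 3) = L 3 3 := e4 2 2
  rw [nn_Gdg hu hy, KT2]
  simp only [Fin.sum_univ_four, Fin.sum_univ_three, e1, e2, e3, f11, f12, f13, f21, f22, f23,
    f31, f32, f33]
  simp [ddg]
  ring

/-- `AK` of the momentum tensor. -/
theorem AK_mom (m F Fd FK t : ℝ) (hF : F ≠ 0) {Gd : M4} (hGd : Gd.IsSymm) (L : M4) :
    AK m F Fd b y Gd (FK - t * F) (L - t • Gdg u b y)
      = AK m F Fd b y Gd FK L - t * hh m F Fd (Gdg u b y) Gd := by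
  have h0 := (hy 0).ne'
  have h1 := (hy 1).ne'
  have h2 := (hy 2).ne'
  rw [hh_Gdg hu hy m F Fd hF hGd]
  simp only [AK, Fin.sum_univ_three]
  simp [Gdg]
  field_simp
  ring

end

theorem nn_mom {G : M4} (hG : G.PosDef) (L : M4) (t : ℝ) : nn G (L - t • G) = nn G L - t := by
  have h := (dg_uu hG).ne'
  have hd : IsUnit G.det := hG.det_pos.ne'.isUnit
  have e : G⁻¹ * (L - t • G) * G⁻¹ = G⁻¹ * L * G⁻¹ - t • G⁻¹ := by
    rw [Matrix.mul_sub, Matrix.sub_mul, Matrix.mul_smul, Matrix.nonsing_inv_mul G hd,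
      Matrix.smul_mul, Matrix.one_mul]
  rw [nn, nn, e, Matrix.sub_apply, Matrix.smul_apply, smul_eq_mul, sub_div, ← uu,
    mul_div_assoc, div_self h, mul_one]

theorem uu_pos {G : M4} (hG : G.PosDef) : 0 < uu G := by
  exact dg_uu hG

theorem detY_pos {G : M4} (hG : G.PosDef) : 0 < detY G := by
  exact mul_pos hG.det_pos (uu_pos hG)

theorem trY_pos {G : M4} (hG : G.PosDef) : 0 < trY G := by
  have h1 : 0 < G 1 1 := hG.diag_pos
  have h2 : 0 < G 2 2 := hG.diag_pos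
  have h3 : 0 < G 3 3 := hG.diag_pos
  simp only [trY, Matrix.trace, Matrix.diag, Fin.sum_univ_four]
  linarith

/-- `y i = G (i+1) (i+1)`, `b i = G 0 (i+1) / y i`, `1/u = G 0 0 - ∑ y b^2 > 0` by testing the
form on `zdg b 0`. -/
theorem exists_Gdg {G : M4} (hG : G.PosDef) (h12 : G 1 2 = 0) (h13 : G 1 3 = 0) (h23 : G 2 3 = 0) :
    ∃ (u : ℝ) (b y : Fin 3 → ℝ), 0 < u ∧ (∀ i, 0 < y i) ∧ G = Gdg u b y := by
  have h1 : 0 < G 1 1 := hG.diag_pos
  have h2 : 0 < G 2 2 := hG.diag_pos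
  have h3 : 0 < G 3 3 := hG.diag_pos
  have hs : ∀ i j, G j i = G i j := fun i j => by
    simpa using hG.isHermitian.apply i j
  have e1 := hs 0 1
  have e2 := hs 0 2
  have e3 := hs 0 3
  have e4 := (hs 1 2).trans h12
  have e5 := (hs 1 3).trans h13
  have e6 := (hs 2 3).trans h23
  obtain ⟨w, hw⟩ : ∃ w, w = G 0 0 - (G 0 1 ^ 2 / G 1 1 + G 0 2 ^ 2 / G 2 2 + G 0 3 ^ 2 / G 3 3) :=
    ⟨_, rfl⟩
  have hp : 0 < w := by
    have hz : (![1, -(G 0 1 / G 1 1), -(G 0 2 / G 2 2), -(G 0 3 / G 3 3)] : Fin 4 → ℝ) ≠ 0 := by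
      intro h
      simpa using congrFun h 0
    have := hG.dotProduct_mulVec_pos hz
    refine lt_of_lt_of_eq this ?_
    rw [hw]
    simp [Matrix.mulVec, dotProduct, Fin.sum_univ_four, e1, e2, e3, e4, e5, e6, h12, h13, h23]
    field_simp
    ring
  refine ⟨1 / w, ![G 0 1 / G 1 1, G 0 2 / G 2 2, G 0 3 / G 3 3], ![G 1 1, G 2 2, G 3 3],
    by positivity, fun i => by fin_cases i <;> simpa, ?_⟩
  ext i j
  fin_cases i <;> fin_cases j <;>
    simp [Gdg, e1, e2, e3, e4, e5, e6, h12, h13, h23, hw] <;> field_simp <;> ring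

end Vale.Agent.P366
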