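import Vale.Agent.P366.Gen
import Vale.Agent.P366.Dg

/-! Derivatives of the radial functions. -/

noncomputable section

open Matrix MeasureTheory Set Filter Topology Asymptotics

namespace Vale.Agent.P366

variable {n : ℕ}

/-- Regularity and positivity of the radial coefficients. -/
structure RD (r₁ : ℝ) (F : ℝ → ℝ) (G : ℝ → M4) (FK : ℝ → ℝ) (L : ℝ → M4) : Prop where
  pos : 0 < r₁
  cF : ContDiffOn ℝ 2 F (Ioi r₁)
  cG : ∀ a b, ContDiffOn ℝ 2 (fun r => G r a b) (Ioi r₁)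
  cFK : ContDiffOn ℝ 1 FK (Ioi r₁)
  cL : ∀ a b, ContDiffOn ℝ 1 (fun r => L r a b) (Ioi r₁)
  Fpos : ∀ r, r₁ < r → 0 < F r
  Gpos : ∀ r, r₁ < r → (G r).PosDef
  Lsym : ∀ r, r₁ < r → (L r).IsSymm

theorem dotM_symm {G : ℝ → M4} {r₁ r : ℝ} (hs : ∀ s, r₁ < s → (G s).IsSymm) (hr : r₁ < r) :
    (dotM G r).IsSymm := by
  refine Matrix.IsSymm.ext fun a b => ?_
  have e : (fun s => G s b a) =ᶠ[𝓝 r] fun s => G s a b := by
    filter_upwards [Ioi_mem_nhds hr] with s h using (hs s h).apply a b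
  simp only [dotM, dot, Matrix.of_apply, e.deriv_eq]

/-- Entrywise `C¹` matrix valued functions. -/
def der0_C (A : ℝ → M4) (r : ℝ) : Prop := ∀ a b, ContDiffAt ℝ 1 (fun s => A s a b) r

theorem der0_mul {A B : ℝ → M4} {r : ℝ} (hA : der0_C A r) (hB : der0_C B r) :
    der0_C (fun s => A s * B s) r := fun a b => by
  simp only [Matrix.mul_apply]
  exact ContDiffAt.sum fun c _ => (hA a c).mul (hB c b)

theorem der0_tr {A : ℝ → M4} {r : ℝ} (hA : der0_C A r) :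
    ContDiffAt ℝ 1 (fun s => trace (A s)) r := by
  simp only [Matrix.trace, Matrix.diag_apply]
  exact ContDiffAt.sum fun c _ => hA c c

theorem der0_dot {f : ℝ → ℝ} {r : ℝ} (hf : ContDiffAt ℝ 2 f r) : ContDiffAt ℝ 1 (dot f) r :=
  contDiffAt_id.mul ((hf.fderiv_right (m := 1) le_rfl).clm_apply contDiffAt_const)

section
variable {r₁ : ℝ} {F FK : ℝ → ℝ} {G L : ℝ → M4} (h : RD r₁ F G FK L) {r : ℝ} (hr : r₁ < r)
  (m : ℝ)
include h hr

theorem der0_F : ContDiffAt ℝ 1 F r := (h.cF.contDiffAt (Ioi_mem_nhds hr)).of_le one_le_two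

theorem der0_G : der0_C G r := fun a b =>
  ((h.cG a b).contDiffAt (Ioi_mem_nhds hr)).of_le one_le_two

theorem der0_L : der0_C L r := fun a b => (h.cL a b).contDiffAt (Ioi_mem_nhds hr)

theorem der0_Gi : der0_C (fun s => (G s)⁻¹) r :=
  contDiffAt_inv (der0_G h hr) (h.Gpos r hr).det_pos.ne'

theorem der0_Gd : der0_C (dotM G) r := fun a b =>
  der0_dot ((h.cG a b).contDiffAt (Ioi_mem_nhds hr))

theorem cd_uf : ContDiffAt ℝ 1 (uf G) r := der0_Gi h hr 0 0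

theorem cd_hf : ContDiffAt ℝ 1 (hf m F G) r :=
  (contDiffAt_const.mul ((((contDiffAt_const.mul
    (der0_dot (h.cF.contDiffAt (Ioi_mem_nhds hr)))).div (der0_F h hr) (h.Fpos r hr).ne').add
    (der0_tr (der0_mul (der0_Gi h hr) (der0_Gd h hr)))).add
    ((der0_mul (der0_mul (der0_Gi h hr) (der0_Gd h hr)) (der0_Gi h hr) 0 0).neg.div (cd_uf h hr)
      (uu_pos (h.Gpos r hr)).ne'))).add contDiffAt_const

theorem cd_tt : ContDiffAt ℝ 1 (fun s => tt m (F s) (G s) (FK s) (L s)) r :=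
  ((contDiffAt_const.mul (h.cFK.contDiffAt (Ioi_mem_nhds hr))).div (der0_F h hr)
    (h.Fpos r hr).ne').add (der0_tr (der0_mul (der0_Gi h hr) (der0_L h hr)))

theorem cd_kf : ContDiffAt ℝ 1 (kf m F G FK L) r :=
  contDiffAt_id.mul ((cd_tt h hr m).sub
    ((der0_mul (der0_mul (der0_Gi h hr) (der0_L h hr)) (der0_Gi h hr) 0 0).div (cd_uf h hr)
      (uu_pos (h.Gpos r hr)).ne'))

theorem cd_Hf : ContDiffAt ℝ 1 (Hf m F G) r := by
  have h1 : ContDiffAt ℝ 1 (fun s => trY (G s)) r :=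
    (der0_tr (der0_G h hr)).sub (der0_G h hr 0 0)
  have h2 : ContDiffAt ℝ 1 (fun s => detY (G s)) r :=
    (contDiffAt_det (der0_G h hr)).mul (cd_uf h hr)
  have p1 : 0 < trY (G r) / 3 := div_pos (trY_pos (h.Gpos r hr)) three_pos
  have p2 := detY_pos (h.Gpos r hr)
  have h3 : ContDiffAt ℝ 1 (fun s => √(trY (G s) / 3)) r := (h1.div_const 3).sqrt p1.ne'
  exact (h1.div (h2.sqrt p2.ne') (Real.sqrt_pos.2 p2).ne').add (contDiffAt_const.mul
    ((contDiffAt_const.div h3 (Real.sqrt_pos.2 p1).ne').add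
      (h3.div (der0_F h hr) (h.Fpos r hr).ne')))

theorem af_pos : 0 < af n F G r :=
  mul_pos (pow_pos (h.pos.trans hr) _)
    (Real.sqrt_pos.2 (mul_pos (pow_pos (h.Fpos r hr) _) (detY_pos (h.Gpos r hr))))

end

end Vale.Agent.P366
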