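import Vale.Agent.P366.E0

/-! Real algebra: the barrier inequality and the monotonicity computation. -/

noncomputable section

open Matrix MeasureTheory Set Filter Topology Asymptotics

namespace Vale.Agent.P366

variable {n : ℕ}

theorem A2_ge {m F Fd : ℝ} {b y : Fin 3 → ℝ} (hy : ∀ i, 0 < y i) (Gd : M4) :
    ∑ i, (Ah b y Gd i i / y i) ^ 2 + m * aH F Fd ^ 2 ≤ A2 m F Fd b y Gd := by
  unfold A2
  refine add_le_add_left (Finset.sum_le_sum fun i _ => ?_) _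
  rw [div_pow, sq (y i)]
  exact Finset.single_le_sum (f := fun j => Ah b y Gd i j ^ 2 / (y i * y j))
    (fun j _ => div_nonneg (sq_nonneg _) (mul_pos (hy i) (hy j)).le) (Finset.mem_univ i)

/-- A sum of squares `(h L - κ A)^2/(y y)`. -/
theorem AK_cs {m F Fd : ℝ} {b y : Fin 3 → ℝ} (hm : 0 < m) (hy : ∀ i, 0 < y i) (Gd : M4)
    (FK : ℝ) (L : M4) (h κ : ℝ) :
    2 * κ * h * AK m F Fd b y Gd FK L
      ≤ h ^ 2 * KT2 m F y FK L + κ ^ 2 * A2 m F Fd b y Gd := by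
  have h1 : 2 * κ * h * ∑ i : Fin 3, ∑ j : Fin 3, Ah b y Gd i j * L i.succ j.succ / (y i * y j) ≤
      h ^ 2 * ∑ i : Fin 3, ∑ j : Fin 3, L i.succ j.succ ^ 2 / (y i * y j) +
        κ ^ 2 * ∑ i : Fin 3, ∑ j : Fin 3, Ah b y Gd i j ^ 2 / (y i * y j) := by
    simp only [Finset.mul_sum, ← Finset.sum_add_distrib]
    refine Finset.sum_le_sum fun i _ => Finset.sum_le_sum fun j _ => ?_
    simp only [← mul_div_assoc, ← add_div]
    refine div_le_div_of_nonneg_right ?_ (mul_pos (hy i) (hy j)).le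
    nlinarith [sq_nonneg (h * L i.succ j.succ - κ * Ah b y Gd i j)]
  unfold AK KT2 A2
  nlinarith [mul_nonneg hm.le (sq_nonneg (h * (FK / F) - κ * aH F Fd))]

/-- The left side equals `h R + 2W - hW - [u h A + h T - 2 κ C] - 2 h X - 2 (h mu - κ Jn / s)`. -/
theorem key_alg {u s h hd udd κ κd R A C T N X sc mu Jn : ℝ} (hs : 0 < s) (hu : u = s ^ 2)
    (hκ : |κ| < s * h) (hsc : sc = R - 2 * u * hd - (udd - 2 * u) * h - u * h ^ 2 - u * A)
    (hmu : 2 * mu = sc + (κ + N) ^ 2 - (N ^ 2 + 2 * X + T)) (hX : 0 ≤ X)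
    (hJ : Jn = s * (-κd + κ - C + h * N)) (hdec : |Jn| ≤ mu)
    (hcs : 2 * κ * h * C ≤ h ^ 2 * T + κ ^ 2 * A) :
    udd * h ^ 2 + 2 * u * h * hd - 2 * κ * κd
      ≤ h * R + 2 * (u * h ^ 2 - κ ^ 2) - h * (u * h ^ 2 - κ ^ 2)
        - (u * h ^ 2 - κ ^ 2) / h * A := by
  have hh : 0 < h := (mul_pos_iff_of_pos_left hs).1 ((abs_nonneg κ).trans_lt hκ)
  have h1 : κ * (-κd + κ - C + h * N) ≤ h * mu := by
    rw [hJ, abs_mul, abs_of_pos hs] at hdec
    have h2 := le_abs_self (κ * (-κd + κ - C + h * N))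
    rw [abs_mul] at h2
    have h3 := mul_le_mul_of_nonneg_right hκ.le (abs_nonneg (-κd + κ - C + h * N))
    have h4 := mul_le_mul_of_nonneg_left hdec hh.le
    linarith
  have h2 : 2 * κ * C ≤ h * T + κ ^ 2 / h * A := by
    refine le_of_mul_le_mul_left ?_ hh
    have h5 : h * (h * T + κ ^ 2 / h * A) = h ^ 2 * T + κ ^ 2 * A := by field_simp
    linarith
  have h3 : (u * h ^ 2 - κ ^ 2) / h * A = u * h * A - κ ^ 2 / h * A := by field_simp
  have h4 := congrArg (fun t => h * t) hsc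
  have h5 := congrArg (fun t => h * t) hmu
  linarith [mul_nonneg hh.le hX]

/-- With `ω = W/H^2`, `γ = gr/H`: the expression is at least `h (1 - ω)(|γ|^2 - 1/(m+3))`, by
completing the square in `a`, and `|γ|^2 ≥ 1/(m+3)` by Cauchy-Schwarz. -/
theorem mono_alg {m h W Wd H Hd R A aa gh : ℝ} {a gr : Fin 3 → ℝ} (hm : 0 < m) (hh : 0 < h)
    (hW : 0 < W) (hH : 0 < H) (hω : W / H ^ 2 < 1)
    (hWd : Wd ≤ h * R + 2 * W - h * W - W / h * A) (hA : ∑ i, a i ^ 2 + m * aa ^ 2 ≤ A)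
    (hb : R + (∑ i, gr i ^ 2 + m * gh ^ 2) ≤ H ^ 2) (hs : ∑ i, gr i + m * gh = -H)
    (hHd : Hd = ∑ i, gr i * a i + m * gh * aa + H) :
    0 ≤ (m + 2) / (m + 3) * h * (1 - W / H ^ 2) - Wd / H ^ 2 + 2 * W * Hd / H ^ 3 := by
  have h1 : H ^ 2 ≤ (m + 3) * (∑ i, gr i ^ 2 + m * gh ^ 2) := by
    rw [← neg_sq, ← hs]
    simp only [Fin.sum_univ_three]
    nlinarith [sq_nonneg (gr 0 - gr 1), sq_nonneg (gr 0 - gr 2), sq_nonneg (gr 1 - gr 2),
      mul_nonneg hm.le (sq_nonneg (gr 0 - gh)), mul_nonneg hm.le (sq_nonneg (gr 1 - gh)),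
      mul_nonneg hm.le (sq_nonneg (gr 2 - gh))]
  have h2 : 0 ≤ H ^ 2 * A + 2 * h * H * (∑ i, gr i * a i + m * gh * aa) +
      h ^ 2 * (∑ i, gr i ^ 2 + m * gh ^ 2) := by
    have h3 := mul_le_mul_of_nonneg_left hA (sq_nonneg H)
    simp only [Fin.sum_univ_three] at h3 ⊢
    nlinarith [sq_nonneg (H * a 0 + h * gr 0), sq_nonneg (H * a 1 + h * gr 1),
      sq_nonneg (H * a 2 + h * gr 2), mul_nonneg hm.le (sq_nonneg (H * aa + h * gh))]
  generalize ∑ i, gr i ^ 2 + m * gh ^ 2 = G at *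
  generalize ∑ i, gr i * a i + m * gh * aa = P at *
  have hH2 : 0 < H ^ 2 := pow_pos hH 2
  have h3 : 1 / (m + 3) ≤ G / H ^ 2 := by
    rw [div_le_div_iff₀ (by linarith) hH2]
    linarith
  have h4 : 0 ≤ A / h + 2 * (P / H) + h * (G / H ^ 2) := by
    have h5 : A / h + 2 * (P / H) + h * (G / H ^ 2) =
        (H ^ 2 * A + 2 * h * H * P + h ^ 2 * G) / (h * H ^ 2) := by field_simp
    rw [h5]
    exact div_nonneg h2 (mul_pos hh hH2).le
  have h5 : R / H ^ 2 + G / H ^ 2 ≤ 1 := by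
    rw [← add_div, div_le_one hH2]
    exact hb
  have h6 : Wd / H ^ 2 ≤ h * (R / H ^ 2) + 2 * (W / H ^ 2) - h * (W / H ^ 2) -
      W / H ^ 2 * (A / h) :=
    (div_le_div_of_nonneg_right hWd hH2.le).trans (le_of_eq (by field_simp))
  have h7 : 2 * W * Hd / H ^ 3 = 2 * (W / H ^ 2) * (P / H + 1) := by
    rw [hHd]
    field_simp
  have h8 : (m + 2) / (m + 3) = 1 - 1 / (m + 3) := by
    field_simp
    ring
  rw [h7, h8]
  linarith [mul_nonneg (div_pos hW hH2).le h4, mul_nonneg hh.le (sub_nonneg.2 h5),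
    mul_nonneg (mul_pos hh (sub_pos.2 hω)).le (sub_nonneg.2 h3)]

end Vale.Agent.P366
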