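import Vale.Agent.P366.Der
import Vale.Agent.P366.E1

/-! Derivative of the barrier function and of the mass function. -/

noncomputable section

open Matrix MeasureTheory Set Filter Topology Asymptotics

namespace Vale.Agent.P366

variable {n : ℕ}

theorem der2_alg {m F F' p q r T' D' y0 y1 y2 a0 a1 a2 : ℝ} (hF : F ≠ 0) (hp : p ≠ 0) (hq : q ≠ 0)
    (h3 : y0 + y1 + y2 = 3 * p ^ 2) (hT : r * T' = a0 * y0 + a1 * y1 + a2 * y2)
    (hD : r * D' = q ^ 2 * (a0 + a1 + a2)) :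
    r * ((T' * q - 3 * p ^ 2 * (D' / (2 * q))) / q ^ 2 +
      m / 2 * ((0 * p - 1 * (T' / 3 / (2 * p))) / p ^ 2 + (T' / 3 / (2 * p) * F - p * F') / F ^ 2)) =
      (2 * y0 / q - 3 * p ^ 2 / q + y0 / (3 * p ^ 2) * (m / 2 * (p / F) - m / 2 * (1 / p))) *
          (a0 / 2 + 1) +
        (2 * y1 / q - 3 * p ^ 2 / q + y1 / (3 * p ^ 2) * (m / 2 * (p / F) - m / 2 * (1 / p))) *
          (a1 / 2 + 1) +
        (2 * y2 / q - 3 * p ^ 2 / q + y2 / (3 * p ^ 2) * (m / 2 * (p / F) - m / 2 * (1 / p))) *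
          (a2 / 2 + 1) + m * -(p / F) * (r * F' / (2 * F) + 1) +
        (3 * p ^ 2 / q + m / 2 * (1 / p + p / F)) := by
  have e : r * ((T' * q - 3 * p ^ 2 * (D' / (2 * q))) / q ^ 2 +
      m / 2 * ((0 * p - 1 * (T' / 3 / (2 * p))) / p ^ 2 + (T' / 3 / (2 * p) * F - p * F') / F ^ 2)) =
      (r * T' * q - 3 * p ^ 2 * (r * D' / (2 * q))) / q ^ 2 +
      m / 2 * (-(r * T' / 3 / (2 * p)) / p ^ 2 +
        (r * T' / 3 / (2 * p) * F - p * (r * F')) / F ^ 2) := by ring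
  obtain rfl : y2 = 3 * p ^ 2 - y0 - y1 := by linarith
  rw [e, hT, hD]
  field_simp
  ring

section
variable {r₁ : ℝ} {F FK : ℝ → ℝ} {G L : ℝ → M4} (h : RD r₁ F G FK L) {r : ℝ} (hr : r₁ < r)
include h hr

/-- `dot trY = Gd 1 1 + Gd 2 2 + Gd 3 3`, `dot detY = detY ∑ Gd ii / y i` (from `dot_detY` and
`hh_Gdg`), chain rule for the square roots. -/
theorem dot_Hf (m : ℝ) {u : ℝ} {b y : Fin 3 → ℝ} (hu : 0 < u) (hy : ∀ i, 0 < y i)
    (hG : G r = Gdg u b y) :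
    dot (Hf m F G) r = ∑ i, grY m (F r) y i * (Ah b y (dotM G r) i i / y i)
      + m * grH (F r) y * aH (F r) (dot F r) + H0d m (F r) y := by
  have hF := h.Fpos r hr
  have hs : (dotM G r).IsSymm := dotM_symm (fun s hs => (h.Gpos s hs).1) hr
  have hT : HasDerivAt (fun s => trY (G s)) (trace (der_M G r) - der_M G r 0 0) r :=
    (der_trace (der_G h hr)).fun_sub (der_G h hr 0 0)
  obtain ⟨hD, hD'⟩ := dot_detY h hr
  have tp : trY (G r) / 3 ≠ 0 := (div_pos (trY_pos (h.Gpos r hr)) three_pos).ne'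
  have dp := detY_pos (h.Gpos r hr)
  have hp := (hT.div_const 3).sqrt tp
  have p0 : √(trY (G r) / 3) ≠ 0 :=
    (Real.sqrt_pos.2 (div_pos (trY_pos (h.Gpos r hr)) three_pos)).ne'
  have h1 := (hT.fun_div (hD.hasDerivAt.sqrt dp.ne') (Real.sqrt_pos.2 dp).ne').fun_add
    ((((hasDerivAt_const r (1 : ℝ)).fun_div hp p0).fun_add
      (hp.fun_div (der_F h hr) hF.ne')).const_mul (m / 2))
  have h2 : deriv (Hf m F G) r = _ := h1.deriv
  have h3 := hh_Gdg (b := b) hu hy 0 1 0 one_ne_zero hs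
  have y0 := (hy 0).ne'
  have y1 := (hy 1).ne'
  have y2 := (hy 2).ne'
  have e0 : Ah b y (dotM G r) 0 0 / y 0 = dotM G r 1 1 / y 0 / 2 + 1 := by
    simp only [Ah, of_apply, cons_val]
    field_simp
  have e1 : Ah b y (dotM G r) 1 1 / y 1 = dotM G r 2 2 / y 1 / 2 + 1 := by
    simp only [Ah, of_apply, cons_val]
    field_simp
  have e2 : Ah b y (dotM G r) 2 2 / y 2 = dotM G r 3 3 / y 2 / 2 + 1 := by
    simp only [Ah, of_apply, cons_val]
    field_simp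
  rw [Fin.sum_univ_three, e0, e1, e2, hh, ← hG] at h3
  have q2 : √(detY (G r)) ^ 2 = detY (G r) := Real.sq_sqrt dp.le
  have p2 : trY (G r) = 3 * √(trY (G r) / 3) ^ 2 := by
    rw [Real.sq_sqrt (div_pos (trY_pos (h.Gpos r hr)) three_pos).le]
    ring
  have eT : y 0 + y 1 + y 2 = trY (G r) := by rw [hG, trY_Gdg]
  have eD : y 0 * y 1 * y 2 = detY (G r) := by rw [hG, detY_Gdg hu hy]
  have k := der2_alg (m := m) (F' := deriv F r) (r := r)
    (T' := trace (der_M G r) - der_M G r 0 0) (D' := deriv (fun s => detY (G s)) r)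
    (a0 := dotM G r 1 1 / y 0) (a1 := dotM G r 2 2 / y 1) (a2 := dotM G r 3 3 / y 2)
    hF.ne' p0 (Real.sqrt_pos.2 dp).ne' (eT.trans p2)
    (by
      rw [div_mul_cancel₀ _ y0, div_mul_cancel₀ _ y1, div_mul_cancel₀ _ y2, der_dot, trace,
        Fin.sum_univ_four]
      simp only [diag_apply, Matrix.smul_apply, smul_eq_mul]
      ring)
    (by
      rw [q2]
      refine hD'.trans (congrArg _ ?_)
      linarith)
  rw [← p2] at k
  rw [dot, h2, Fin.sum_univ_three, e0, e1, e2]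
  simp only [grY, grH, aH, H0d, dot, eT, eD]
  exact k

theorem Hf_pos {m : ℝ} (hm : 0 < m) : 0 < Hf m F G r := by
  have h1 := div_pos (trY_pos (h.Gpos r hr)) three_pos
  have h2 := trY_pos (h.Gpos r hr)
  have h3 := detY_pos (h.Gpos r hr)
  have h4 := h.Fpos r hr
  unfold Hf H0
  positivity

theorem dot_Wf (m : ℝ) : DifferentiableAt ℝ (Wf m F G FK L) r ∧
    dot (Wf m F G FK L) r = ud (G r) (dotM G r) * hf m F G r ^ 2
      + 2 * uf G r * hf m F G r * dot (hf m F G) r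
      - 2 * kf m F G FK L r * dot (kf m F G FK L) r := by
  have hu := ((cd_uf h hr).differentiableAt (by simp)).hasDerivAt
  have h1 := ((cd_hf h hr m).differentiableAt (by simp)).hasDerivAt
  have h2 := ((cd_kf h hr m).differentiableAt (by simp)).hasDerivAt
  have h3 := (hu.fun_mul (h1.fun_pow 2)).fun_sub (h2.fun_pow 2)
  refine ⟨h3.differentiableAt, ?_⟩
  have h4 : deriv (Wf m F G FK L) r = _ := h3.deriv
  rw [← dot_uf h hr]
  simp only [dot, h4]
  push_cast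
  ring

theorem dot_Mf (hn : 4 < n) : DifferentiableAt ℝ (Mf n F G FK L) r ∧
    dot (Mf n F G FK L) r = af n F G r ^ (((n : ℝ) - 2) / ((n : ℝ) - 1)) *
      (((n : ℝ) - 2) / ((n : ℝ) - 1) * hf ((n : ℝ) - 4) F G r *
          (1 - Wf ((n : ℝ) - 4) F G FK L r / Hf ((n : ℝ) - 4) F G r ^ 2)
        - dot (Wf ((n : ℝ) - 4) F G FK L) r / Hf ((n : ℝ) - 4) F G r ^ 2
        + 2 * Wf ((n : ℝ) - 4) F G FK L r * dot (Hf ((n : ℝ) - 4) F G) r
          / Hf ((n : ℝ) - 4) F G r ^ 3) := by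
  have hm : (0 : ℝ) < (n : ℝ) - 4 := by
    have : (4 : ℝ) < n := by exact_mod_cast hn
    linarith
  obtain ⟨a1, a2⟩ := dot_af h hr hn.le
  have a0 : 0 < af n F G r := af_pos h hr
  have w1 := (dot_Wf h hr ((n : ℝ) - 4)).1.hasDerivAt
  have h1 := ((cd_Hf h hr ((n : ℝ) - 4)).differentiableAt (by simp)).hasDerivAt
  have h0 := (Hf_pos h hr hm).ne'
  have h3 := (a1.hasDerivAt.rpow_const (p := ((n : ℝ) - 2) / ((n : ℝ) - 1)) (Or.inl a0.ne')).fun_mul
    ((w1.fun_div (h1.fun_pow 2) (pow_ne_zero 2 h0)).const_sub 1)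
  refine ⟨h3.differentiableAt, ?_⟩
  have h4 : deriv (Mf n F G FK L) r = _ := h3.deriv
  rw [dot] at a2
  rw [dot, h4, Real.rpow_sub_one a0.ne', mul_add, ← mul_assoc, ← mul_assoc, ← mul_assoc, a2]
  simp only [dot]
  have a3 := a0.ne'
  generalize ((n : ℝ) - 2) / ((n : ℝ) - 1) = c
  push_cast
  field_simp
  ring

theorem cont_T (m : ℝ) : ContinuousAt (Tp m F G FK L) r ∧ ContinuousAt (Tm m F G FK L) r := by
  have h1 := ((cd_uf h hr).continuousAt.sqrt).mul (cd_hf h hr m).continuousAt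
  exact ⟨h1.add (cd_kf h hr m).continuousAt, h1.sub (cd_kf h hr m).continuousAt⟩

theorem Tp_mul_Tm (m : ℝ) : Tp m F G FK L r * Tm m F G FK L r = Wf m F G FK L r := by
  have h1 : √(uf G r) ^ 2 = uf G r := Real.sq_sqrt (uu_pos (h.Gpos r hr)).le
  rw [Tp, Tm, Wf]
  linear_combination hf m F G r ^ 2 * h1

end

end Vale.Agent.P366
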