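import Vale.Agent.P366.Base

/-! Real algebra: the barrier inequality and the monotonicity computation. -/

noncomputable section

open Matrix MeasureTheory Set Filter Topology Asymptotics

namespace Vale.Agent.P366

variable {n : ℕ}

theorem H0d_pos {m F : ℝ} {y : Fin 3 → ℝ} (hm : 0 < m) (hF : 0 < F) (hy : ∀ i, 0 < y i) :
    0 < H0d m F y := by
  have h0 := hy 0
  have h1 := hy 1
  have h2 := hy 2
  unfold H0d
  positivity

theorem gr_sum {m F : ℝ} {y : Fin 3 → ℝ} (hF : 0 < F) (hy : ∀ i, 0 < y i) :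
    ∑ i, grY m F y i + m * grH F y = -H0d m F y := by
  have h0 := hy 0
  have h1 := hy 1
  have h2 := hy 2
  have hT : y 0 + y 1 + y 2 ≠ 0 := by positivity
  have e : y 0 / (y 0 + y 1 + y 2) + y 1 / (y 0 + y 1 + y 2) + y 2 / (y 0 + y 1 + y 2) = 1 := by
    field_simp
  simp only [Fin.sum_univ_three, grY, grH, H0d]
  linear_combination (m / 2 * (√((y 0 + y 1 + y 2) / 3) / F) -
    m / 2 * (1 / √((y 0 + y 1 + y 2) / 3))) * e

theorem e0_main {a b c D v m F : ℝ} (ha : 0 < a) (hb : 0 < b) (hc : 0 < c) (hD : 0 < D)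
    (hv : 0 < v) (hm : 0 < m) (hF : 0 < F) (eD : a * b * c = D ^ 2) (ev : a + b + c = 3 * v ^ 2) :
    m * (m + 8) / F - m * (a + b + c) / F ^ 2
      + 2 * ((a + b + c) ^ 2 - 2 * (a ^ 2 + b ^ 2 + c ^ 2)) / (a * b * c) +
      ((2 * a / D - (a + b + c) / D + a / (a + b + c) * (m / 2 * (v / F) - m / 2 * (1 / v))) ^ 2 +
        (2 * b / D - (a + b + c) / D + b / (a + b + c) * (m / 2 * (v / F) - m / 2 * (1 / v))) ^ 2 +
        (2 * c / D - (a + b + c) / D + c / (a + b + c) * (m / 2 * (v / F) - m / 2 * (1 / v))) ^ 2 +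
        m * (-(v / F)) ^ 2) ≤ ((a + b + c) / D + m / 2 * (1 / v + v / F)) ^ 2 := by
  have hT : 0 < a + b + c := by positivity
  set A := m / 2 * (1 / v) with hA
  set B := m / 2 * (v / F) with hB
  have hA0 : 0 < A := by positivity
  have hB0 : 0 < B := by positivity
  have h1 : D ≤ v ^ 3 := by
    refine (abs_le_of_sq_le_sq' ?_ (by positivity)).2
    have e : (v ^ 3) ^ 2 = (a + b + c) ^ 3 / 27 := by rw [ev]; ring
    rw [e, ← eD]
    nlinarith [mul_nonneg ha.le (sq_nonneg (b - c)), mul_nonneg hb.le (sq_nonneg (a - c)),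
      mul_nonneg hc.le (sq_nonneg (a - b)), mul_nonneg hT.le (sq_nonneg (a - b)),
      mul_nonneg hT.le (sq_nonneg (b - c)), mul_nonneg hT.le (sq_nonneg (a - c))]
  have h2 : 3 * D * v ≤ a * b + b * c + a * c := by
    refine (abs_le_of_sq_le_sq' ?_ (by positivity)).2
    have e : (3 * D * v) ^ 2 = 3 * (a * b * c) * (a + b + c) := by rw [eD, ev]; ring
    rw [e]
    nlinarith [sq_nonneg (a * b - b * c), sq_nonneg (b * c - a * c), sq_nonneg (a * b - a * c)]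
  have h3 : 3 * v ^ 4 ≤ a ^ 2 + b ^ 2 + c ^ 2 := by
    have e : 3 * v ^ 4 = (a + b + c) ^ 2 / 3 := by rw [ev]; ring
    rw [e]
    nlinarith [sq_nonneg (a - b), sq_nonneg (b - c), sq_nonneg (a - c)]
  have k1 : (a ^ 2 + b ^ 2 + c ^ 2) / (a + b + c) ^ 2 * (B - A) ^ 2 ≤ (B - A) ^ 2 := by
    refine mul_le_of_le_one_left (sq_nonneg _) ((div_le_one (by positivity)).2 ?_)
    nlinarith [mul_pos ha hb, mul_pos hb hc, mul_pos ha hc]
  have k2 : 4 * A * B = m ^ 2 / F := by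
    rw [hA, hB]
    field_simp
    ring
  have k3 : 2 * m * (1 / v ^ 2) ≤ 4 * A * ((a ^ 2 + b ^ 2 + c ^ 2) / (D * (a + b + c))) := by
    calc 2 * m * (1 / v ^ 2) = 4 * A * (3 * v ^ 4 / (v ^ 3 * (3 * v ^ 2))) := by
          rw [hA]
          field_simp
          ring
      _ ≤ _ := by
          rw [ev]
          gcongr
  have k4 : 4 * m / F ≤ 2 * m * (1 / v ^ 2) + 2 * m * (v / F) ^ 2 := by
    have e : 2 * m * (1 / v ^ 2) + 2 * m * (v / F) ^ 2 - 4 * m / F =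
        2 * m * (1 / v - v / F) ^ 2 := by
      field_simp
      ring
    have : 0 ≤ 2 * m * (1 / v - v / F) ^ 2 := by positivity
    linarith
  have k5 : 4 * m / F ≤ 4 * B * (2 * (a * b + b * c + a * c) / (D * (a + b + c))) := by
    calc 4 * m / F = 4 * B * (2 * (3 * D * v) / (D * (3 * v ^ 2))) := by
          rw [hB]
          field_simp
      _ ≤ _ := by
          rw [ev]
          gcongr
  have k6 : m * (a + b + c) / F ^ 2 = 3 * (m * (v / F) ^ 2) := by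
    rw [ev]
    ring
  have k7 : m / 2 * (1 / v + v / F) = A + B := by
    rw [hA, hB]
    ring
  have id : ((a + b + c) / D + (A + B)) ^ 2 -
      2 * ((a + b + c) ^ 2 - 2 * (a ^ 2 + b ^ 2 + c ^ 2)) / D ^ 2 -
      ((2 * a / D - (a + b + c) / D + a / (a + b + c) * (B - A)) ^ 2 +
        (2 * b / D - (a + b + c) / D + b / (a + b + c) * (B - A)) ^ 2 +
        (2 * c / D - (a + b + c) / D + c / (a + b + c) * (B - A)) ^ 2) =
      4 * B * (2 * (a * b + b * c + a * c) / (D * (a + b + c))) +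
        4 * A * ((a ^ 2 + b ^ 2 + c ^ 2) / (D * (a + b + c))) + (A + B) ^ 2 -
        (a ^ 2 + b ^ 2 + c ^ 2) / (a + b + c) ^ 2 * (B - A) ^ 2 := by
    clear_value A B
    field_simp
    ring
  have k8 : m * (m + 8) / F = m ^ 2 / F + 2 * (4 * m / F) := by ring
  have k9 : (A + B) ^ 2 = (B - A) ^ 2 + 4 * A * B := by ring
  rw [eD, k6, k7, k8, neg_sq]
  linarith

/-- Barrier inequality. With `T = ∑ y`, `D = √(∏ y)`, `v = √(T/3)`, `p i = y i / D`,
`w i = y i / T`, `A = (m/2)/v`, `B = (m/2) v/F`, `σ = T/D`: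
`H0^2 - ∑ grY^2 - m grH^2 - RS = [4B ∑ p(1-w) + 4A ∑ p w + 2 m v^2/F^2 - 8m/F]
 + [(A+B)^2 - (∑ w^2)(B-A)^2 - m^2/F]`. The last bracket is `≥ 4AB - m^2/F = 0`.
In the first, `∑ p w ≥ v^2/D`, `v^3 ≥ D` give (AM-GM) `2m v/D + 2m v^2/F^2 ≥ 4m/F`, and
`∑ p(1-w) = 2 e2/(D T)` with `e2^2 ≥ 3 e1 e3` gives `4B ∑ p(1-w) ≥ 4m/F`. -/
theorem barrier {m F : ℝ} {y : Fin 3 → ℝ} (hm : 0 < m) (hF : 0 < F) (hy : ∀ i, 0 < y i) :
    RS m F y + (∑ i, grY m F y i ^ 2 + m * grH F y ^ 2) ≤ H0d m F y ^ 2 := by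
  have h0 := hy 0
  have h1 := hy 1
  have h2 := hy 2
  simp only [Fin.sum_univ_three, RS, grY, grH, H0d]
  refine e0_main h0 h1 h2 (by positivity) (by positivity) hm hF
    (Real.sq_sqrt (by positivity)).symm ?_
  rw [Real.sq_sqrt (by positivity)]
  ring

end Vale.Agent.P366
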