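import Vale.Agent.P366.Base

/-! First order expansions with quadratic remainder at infinity. -/

noncomputable section

open Matrix MeasureTheory Set Filter Topology Asymptotics

namespace Vale.Agent.P366

variable {n : ℕ}

/-- `f = a + l + O(ε^2)` with `l = O(ε)`. -/
structure Ex (ε f : ℝ → ℝ) (a : ℝ) (l : ℝ → ℝ) : Prop where
  lin : l =O[atTop] ε
  rem : (fun r => f r - a - l r) =O[atTop] fun r => ε r ^ 2

section
variable {ε f g l k : ℝ → ℝ} {a b : ℝ}

theorem Ex.const (ε : ℝ → ℝ) (a : ℝ) : Ex ε (fun _ => a) a (fun _ => 0) := by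
  refine ⟨isBigO_zero _ _, ?_⟩
  simp only [sub_self]
  exact isBigO_zero _ _

theorem Ex.of_isBigO (h : (fun r => f r - a) =O[atTop] ε) : Ex ε f a (fun r => f r - a) := by
  refine ⟨h, ?_⟩
  simp only [sub_self]
  exact isBigO_zero _ _

theorem Ex.congr (h : Ex ε f a l) (hf : ∀ᶠ r in atTop, f r = g r) (ha : a = b)
    (hl : ∀ r, l r = k r) : Ex ε g b k := by
  have e : l = k := funext hl
  subst e ha
  refine ⟨h.lin, h.rem.congr' ?_ EventuallyEq.rfl⟩
  filter_upwards [hf] with r hr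
  rw [hr]

theorem Ex.add (h₁ : Ex ε f a l) (h₂ : Ex ε g b k) :
    Ex ε (fun r => f r + g r) (a + b) (fun r => l r + k r) := by
  refine ⟨h₁.lin.add h₂.lin, (h₁.rem.add h₂.rem).congr_left fun r => ?_⟩
  ring

theorem Ex.sub (h₁ : Ex ε f a l) (h₂ : Ex ε g b k) :
    Ex ε (fun r => f r - g r) (a - b) (fun r => l r - k r) := by
  refine ⟨h₁.lin.sub h₂.lin, (h₁.rem.sub h₂.rem).congr_left fun r => ?_⟩
  ring

theorem Ex.cmul (c : ℝ) (h : Ex ε f a l) :
    Ex ε (fun r => c * f r) (c * a) (fun r => c * l r) := by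
  refine ⟨h.lin.const_mul_left c, (h.rem.const_mul_left c).congr_left fun r => ?_⟩
  ring

theorem Ex.sum {ι : Type} (s : Finset ι) {f l : ι → ℝ → ℝ} {a : ι → ℝ}
    (h : ∀ i ∈ s, Ex ε (f i) (a i) (l i)) :
    Ex ε (fun r => ∑ i ∈ s, f i r) (∑ i ∈ s, a i) (fun r => ∑ i ∈ s, l i r) := by
  refine ⟨(IsBigO.sum fun i hi => (h i hi).lin).congr_left fun r => Finset.sum_apply _ _ _,
    (IsBigO.sum fun i hi => (h i hi).rem).congr_left fun r => ?_⟩
  rw [Finset.sum_apply, Finset.sum_sub_distrib, Finset.sum_sub_distrib]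

variable (hε : Tendsto ε atTop (𝓝 0))
include hε

theorem ex0_sq : (fun r => ε r ^ 2) =O[atTop] ε := by
  have h1 : ε =O[atTop] (fun _ => (1 : ℝ)) := hε.isBigO_one ℝ
  refine (h1.mul (isBigO_refl ε atTop)).congr (fun r => ?_) fun r => one_mul _
  ring

theorem Ex.isBigO (h : Ex ε f a l) : (fun r => f r - a) =O[atTop] ε := by
  refine (h.lin.add (h.rem.trans (ex0_sq hε))).congr_left fun r => ?_
  ring

theorem Ex.tendsto (h : Ex ε f a l) : Tendsto f atTop (𝓝 a) :=
  tendsto_sub_nhds_zero_iff.1 ((h.isBigO hε).trans_tendsto hε)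

theorem Ex.mul (h₁ : Ex ε f a l) (h₂ : Ex ε g b k) :
    Ex ε (fun r => f r * g r) (a * b) (fun r => l r * b + a * k r) := by
  refine ⟨((h₁.lin.const_mul_left b).add (h₂.lin.const_mul_left a)).congr_left fun r => by ring,
    ?_⟩
  have h3 : (fun r => (f r - a) * (g r - b)) =O[atTop] fun r => ε r ^ 2 :=
    ((h₁.isBigO hε).mul (h₂.isBigO hε)).congr_right fun r => by ring
  refine ((h3.add (h₁.rem.const_mul_left b)).add (h₂.rem.const_mul_left a)).congr_left
    fun r => ?_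
  ring

end

end Vale.Agent.P366
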