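import Vale.Agent.P366.Base

/-! Contractions expressed in a frame that diagonalises the inverse metric. -/

noncomputable section

open Matrix MeasureTheory Set Filter Topology

namespace Vale.Agent.P366

variable {n : ℕ}

theorem tau_eq {gi : Mn n} {T : Fin n → Mn n} (hgi : gi.IsSymm) (hT : ∀ k, (T k).IsSymm)
    (k : Fin n) :
    ∑ i, chA gi T i i k = (1 / 2) * ∑ i, ∑ j, gi i j * T k i j := by
  have e : ∑ i, ∑ l, gi i l * T l i k = ∑ i, ∑ l, gi i l * T i k l := by
    rw [Finset.sum_comm]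
    exact Finset.sum_congr rfl fun i _ => Finset.sum_congr rfl fun l _ => by
      rw [hgi.apply i l, (hT i).apply k l]
  simp only [chA, ← Finset.mul_sum, mul_sub, mul_add, Finset.sum_sub_distrib,
    Finset.sum_add_distrib, e]
  ring

theorem VA_eq {gi : Mn n} {T : Fin n → Mn n} (hgi : gi.IsSymm) (hT : ∀ k, (T k).IsSymm)
    (k : Fin n) :
    VA gi T k = (gi *ᵥ fun l => ∑ i, ∑ j, gi i j * T i j l - ∑ i, ∑ j, gi i j * T l i j) k := by
  have e1 : ∀ l, ∑ i, ∑ j, gi i j * T j i l = ∑ i, ∑ j, gi i j * T i j l := fun l => by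
    rw [Finset.sum_comm]
    exact Finset.sum_congr rfl fun i _ => Finset.sum_congr rfl fun j _ => by rw [hgi.apply i j]
  have e2 : ∑ i, ∑ j, gi i j * chA gi T k i j =
      ∑ l, gi k l * ((1 / 2) * ∑ i, ∑ j, gi i j * (T i j l + T j i l - T l i j)) := by
    simp only [chA, Finset.mul_sum]
    rw [Finset.sum_comm_cycle]
    exact Finset.sum_congr rfl fun l _ => Finset.sum_congr rfl fun i _ =>
      Finset.sum_congr rfl fun j _ => by ring
  simp only [VA, e2, tau_eq hgi hT, mulVec, dotProduct, ← Finset.sum_sub_distrib]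
  refine Finset.sum_congr rfl fun l _ => ?_
  simp only [mul_sub (gi _ _) (T _ _ _ + _), mul_add (gi _ _) (T _ _ _), Finset.sum_sub_distrib,
    Finset.sum_add_distrib, e1]
  ring

/-- Cauchy-Schwarz for the positive form `gi`. -/
theorem cs_nu {gi : Mn n} (hgi : gi.PosDef) (c x : Fin n → ℝ) :
    |∑ j, c j * ((∑ l, gi j l * x l) / √(∑ a, ∑ b, gi a b * x a * x b))|
      ≤ √(∑ i, ∑ j, gi i j * c i * c j) := by
  have e : ∀ u v : Fin n → ℝ, ∑ a, ∑ b, gi a b * u a * v b = toBilin' gi u v := fun u v => by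
    simp only [toBilin'_apply, mul_comm (u _)]
  have h0 : ∀ u, 0 ≤ toBilin' gi u u := fun u => by
    simpa only [toBilin'_apply', star_trivial] using hgi.posSemidef.dotProduct_mulVec_nonneg u
  have hs : toBilin' gi x c = toBilin' gi c x := by
    rw [← e, ← e, Finset.sum_comm]
    refine Finset.sum_congr rfl fun i _ => Finset.sum_congr rfl fun j _ => ?_
    rw [show gi j i = gi i j from hgi.1.apply i j, mul_right_comm]
  have h1 := LinearMap.BilinForm.apply_mul_apply_le_of_forall_zero_le _ h0 c x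
  have e1 : ∑ j, c j * ∑ l, gi j l * x l = toBilin' gi c x := toBilin'_apply' gi c x ▸ rfl
  simp only [← mul_div_assoc, ← Finset.sum_div, e, e1]
  rw [abs_div, abs_of_nonneg (Real.sqrt_nonneg _)]
  refine div_le_of_le_mul₀ (Real.sqrt_nonneg _) (Real.sqrt_nonneg _) ?_
  rw [← Real.sqrt_mul (h0 c)]
  exact Real.abs_le_sqrt (by rwa [hs, ← sq] at h1)

section
variable {κ : Type} [Fintype κ] {D : κ → ℝ} {f : κ → Fin n → ℝ} {gi : Mn n}

theorem sum_frame (hgi : gi = ∑ A, D A • vecMulVec (f A) (f A)) (B : Mn n) :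
    ∑ i, ∑ j, gi i j * B i j = ∑ A, D A * bil B (f A) (f A) := by
  simp only [hgi, Matrix.sum_apply, Matrix.smul_apply, vecMulVec_apply, smul_eq_mul, bil,
    dotProduct, mulVec, Finset.mul_sum, Finset.sum_mul]
  rw [Finset.sum_comm_cycle]
  exact Finset.sum_congr rfl fun l _ => Finset.sum_congr rfl fun i _ =>
    Finset.sum_congr rfl fun j _ => by ring

theorem frame0_q (hgi : gi = ∑ A, D A • vecMulVec (f A) (f A)) (u v : Fin n → ℝ) :
    ∑ i, ∑ j, gi i j * (u i * v j) = ∑ A, D A * ((u ⬝ᵥ f A) * (v ⬝ᵥ f A)) := by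
  refine (sum_frame hgi (vecMulVec u v)).trans (Finset.sum_congr rfl fun A _ => ?_)
  rw [bil, vecMulVec_mulVec, dotProduct_smul, op_smul_eq_mul, dotProduct_comm]

theorem normSq_frame (hgi : gi = ∑ A, D A • vecMulVec (f A) (f A)) (K : Mn n) :
    ∑ i, ∑ j, ∑ k, ∑ l, gi i k * gi j l * K i j * K k l
      = ∑ A, ∑ B, D A * D B * bil K (f A) (f B) ^ 2 := by
  have e1 : ∀ i, ∑ j, ∑ k, ∑ l, gi i k * gi j l * K i j * K k l =
      ∑ k, ∑ B, D B * (gi i k * ((K *ᵥ f B) i * (K *ᵥ f B) k)) := fun i => by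
    rw [Finset.sum_comm]
    refine Finset.sum_congr rfl fun k _ => ?_
    have h := congrArg (gi i k * ·) (frame0_q hgi (K i) (K k))
    simp only [Finset.mul_sum] at h
    refine Eq.trans (Finset.sum_congr rfl fun j _ => Finset.sum_congr rfl fun l _ => by ring)
      (h.trans (Finset.sum_congr rfl fun B _ => mul_left_comm _ _ _))
  simp only [e1]
  rw [Finset.sum_comm_cycle, Finset.sum_comm (f := fun A B => D A * D B * _)]
  refine Finset.sum_congr rfl fun B _ => ?_
  simp only [← Finset.mul_sum]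
  rw [frame0_q hgi, Finset.mul_sum]
  refine Finset.sum_congr rfl fun A _ => ?_
  rw [bil, dotProduct_comm]
  ring

end

end Vale.Agent.P366
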