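import Vale.Agent.P366.Base

/-! Calculus for determinants and inverses of matrix valued functions. -/

noncomputable section

open Matrix MeasureTheory Set Filter Topology

namespace Vale.Agent.P366

variable {n : ℕ}

section
variable {X : Type} [NormedAddCommGroup X] [NormedSpace ℝ X] {ι : Type} [Fintype ι] [DecidableEq ι]

/-- Expand with `Matrix.det_apply'`. -/
theorem contDiffAt_det {N : WithTop ℕ∞} {g : X → Matrix ι ι ℝ} {x : X}
    (hg : ∀ i j, ContDiffAt ℝ N (fun y => g y i j) x) :
    ContDiffAt ℝ N (fun y => (g y).det) x := by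
  simp only [Matrix.det_apply']
  exact ContDiffAt.sum fun σ _ => contDiffAt_const.mul (contDiffAt_prod fun i _ => hg _ _)

/-- `Matrix.inv_def`, `Matrix.adjugate_apply` (a determinant of an updated matrix). -/
theorem contDiffAt_inv {N : WithTop ℕ∞} {g : X → Matrix ι ι ℝ} {x : X}
    (hg : ∀ i j, ContDiffAt ℝ N (fun y => g y i j) x) (hd : (g x).det ≠ 0) (i j : ι) :
    ContDiffAt ℝ N (fun y => (g y)⁻¹ i j) x := by
  simp only [Matrix.inv_def, Ring.inverse_eq_inv', Matrix.smul_apply, smul_eq_mul,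
    Matrix.adjugate_apply]
  refine ((contDiffAt_det hg).inv hd).mul (contDiffAt_det fun a b => ?_)
  simp only [Matrix.updateRow_apply]
  split_ifs
  · exact contDiffAt_const
  · exact hg a b

theorem differentiableAt_det {g : X → Matrix ι ι ℝ} {x : X}
    (hg : ∀ i j, DifferentiableAt ℝ (fun y => g y i j) x) :
    DifferentiableAt ℝ (fun y => (g y).det) x := by
  simp only [Matrix.det_apply']
  exact DifferentiableAt.fun_sum fun σ _ => (differentiableAt_const _).mul
    (HasFDerivAt.finsetProd fun i _ => (hg (σ i) i).hasFDerivAt).differentiableAt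

theorem differentiableAt_minv {g : X → Matrix ι ι ℝ} {x : X}
    (hg : ∀ i j, DifferentiableAt ℝ (fun y => g y i j) x) (hd : (g x).det ≠ 0) (i j : ι) :
    DifferentiableAt ℝ (fun y => (g y)⁻¹ i j) x := by
  simp only [Matrix.inv_def, Ring.inverse_eq_inv', Matrix.smul_apply, smul_eq_mul,
    Matrix.adjugate_apply]
  refine ((differentiableAt_det hg).inv hd).mul (differentiableAt_det fun a b => ?_)
  simp only [Matrix.updateRow_apply]
  split_ifs
  · exact differentiableAt_const _
  · exact hg a b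

/-- Differentiate `(g y)⁻¹ * g y = 1`, valid near `x`. -/
theorem fderiv_minv {g : X → Matrix ι ι ℝ} {x : X}
    (hg : ∀ i j, DifferentiableAt ℝ (fun y => g y i j) x) (hd : (g x).det ≠ 0) (w : X) (i j : ι) :
    fderiv ℝ (fun y => (g y)⁻¹ i j) x w =
      (-((g x)⁻¹ * (Matrix.of fun a b => fderiv ℝ (fun y => g y a b) x w) * (g x)⁻¹)) i j := by
  have hi := differentiableAt_minv hg hd
  have h1 : ∀ a b, (fun y => ∑ c, (g y)⁻¹ a c * g y c b) =ᶠ[𝓝 x] fun _ => (1 : Matrix ι ι ℝ) a b :=
    fun a b => ((differentiableAt_det hg).continuousAt.eventually_ne hd).mono fun y hy => by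
      rw [← Matrix.nonsing_inv_mul (g y) (isUnit_iff_ne_zero.2 hy), Matrix.mul_apply]
  have h2 : (Matrix.of fun a b => fderiv ℝ (fun y => (g y)⁻¹ a b) x w) * g x +
      (g x)⁻¹ * (Matrix.of fun a b => fderiv ℝ (fun y => g y a b) x w) = 0 := by
    ext a b
    have h3 := (HasFDerivAt.fun_sum (u := Finset.univ) fun c _ =>
      (hi a c).hasFDerivAt.fun_mul (hg c b).hasFDerivAt).unique
      ((hasFDerivAt_const _ x).congr_of_eventuallyEq (h1 a b))
    have h4 := congrArg (fun L : X →L[ℝ] ℝ => L w) h3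
    simp only [_root_.sum_apply, _root_.add_apply,
      _root_.smul_apply, smul_eq_mul, _root_.zero_apply] at h4
    simp only [Matrix.add_apply, Matrix.mul_apply, Matrix.of_apply, Matrix.zero_apply]
    rw [← h4, ← Finset.sum_add_distrib]
    exact Finset.sum_congr rfl fun c _ => by ring
  have h3 := congrArg (· * (g x)⁻¹) (eq_neg_of_add_eq_zero_left h2)
  simp only [Matrix.mul_nonsing_inv_cancel_right _ _ (isUnit_iff_ne_zero.2 hd), neg_mul] at h3
  exact congrFun (congrFun h3 i) j

theorem hasDerivAt_minv {G : ℝ → Matrix ι ι ℝ} {G' : Matrix ι ι ℝ} {r : ℝ}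
    (h : ∀ a b, HasDerivAt (fun s => G s a b) (G' a b) r) (hd : (G r).det ≠ 0) (a b : ι) :
    HasDerivAt (fun s => (G s)⁻¹ a b) ((-((G r)⁻¹ * G' * (G r)⁻¹)) a b) r := by
  have hg := fun a b => (h a b).differentiableAt
  have h1 := (differentiableAt_minv hg hd a b).hasDerivAt
  have e : (Matrix.of fun a b => fderiv ℝ (fun y => G y a b) r 1) = G' := by
    ext a b
    exact (h a b).deriv
  rwa [← fderiv_apply_one_eq_deriv, fderiv_minv hg hd, e] at h1

end

/-- Jacobi formula in size four: `det • G⁻¹ = adjugate G`; expand everything. -/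
theorem hasDerivAt_det4 {G : ℝ → M4} {G' : M4} {r : ℝ}
    (h : ∀ a b, HasDerivAt (fun s => G s a b) (G' a b) r) (hd : (G r).det ≠ 0) :
    HasDerivAt (fun s => (G s).det) ((G r).det * trace ((G r)⁻¹ * G')) r := by
  have e : (G r).det * trace ((G r)⁻¹ * G') = ∑ k, ((G r).updateCol k fun a => G' a k).det := by
    rw [← smul_eq_mul, ← trace_smul, ← Matrix.smul_mul, Matrix.inv_def, smul_smul,
      Ring.mul_inverse_cancel _ (isUnit_iff_ne_zero.2 hd), one_smul, trace]
    refine Finset.sum_congr rfl fun k _ => ?_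
    rw [← cramer_apply, cramer_eq_adjugate_mulVec]
    rfl
  rw [e]
  simp only [Matrix.det_apply']
  rw [Finset.sum_comm]
  refine HasDerivAt.fun_sum fun σ _ => ?_
  rw [← Finset.mul_sum]
  refine HasDerivAt.const_mul _ ((HasDerivAt.fun_finsetProd fun i _ => h (σ i) i).congr_deriv
    (Finset.sum_congr rfl fun k _ => ?_))
  rw [← Finset.prod_erase_mul _ _ (Finset.mem_univ k), Matrix.updateCol_self, smul_eq_mul]
  congr 1
  exact Finset.prod_congr rfl fun i hi => (Matrix.updateCol_ne (Finset.ne_of_mem_erase hi)).symm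

end Vale.Agent.P366
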