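import Vale.Agent.P366.Alg

/-! First derivatives of the ansatz, and divergence of invariant vector fields. -/

noncomputable section

open Matrix MeasureTheory Set Filter Topology

namespace Vale.Agent.P366

variable {n : ℕ}

/-- differentiable with given coordinate derivatives -/
def jetd_D (f : Euc n → ℝ) (x : Euc n) (c : Fin n → ℝ) : Prop :=
  DifferentiableAt ℝ f x ∧ ∀ k, pd f k x = c k

section
variable {f g : Euc n → ℝ} {x : Euc n} {c d : Fin n → ℝ}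

theorem jetd_const (a : ℝ) : jetd_D (fun _ => a) x fun _ => 0 :=
  ⟨differentiableAt_const a, fun k => by simp [pd]⟩

theorem jetd_add (hf : jetd_D f x c) (hg : jetd_D g x d) :
    jetd_D (fun y => f y + g y) x fun k => c k + d k :=
  ⟨hf.1.add hg.1, fun k => by
    beta_reduce
    rw [← hf.2 k, ← hg.2 k, pd, (hf.1.hasFDerivAt.fun_add hg.1.hasFDerivAt).fderiv]
    rfl⟩

theorem jetd_sub (hf : jetd_D f x c) (hg : jetd_D g x d) :
    jetd_D (fun y => f y - g y) x fun k => c k - d k :=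
  ⟨hf.1.sub hg.1, fun k => by
    beta_reduce
    rw [← hf.2 k, ← hg.2 k, pd, (hf.1.hasFDerivAt.fun_sub hg.1.hasFDerivAt).fderiv]
    rfl⟩

theorem jetd_mul (hf : jetd_D f x c) (hg : jetd_D g x d) :
    jetd_D (fun y => f y * g y) x fun k => f x * d k + g x * c k :=
  ⟨hf.1.mul hg.1, fun k => by
    beta_reduce
    rw [← hf.2 k, ← hg.2 k, pd, (hf.1.hasFDerivAt.fun_mul hg.1.hasFDerivAt).fderiv]
    rfl⟩

theorem jetd_sum {ι : Type} (s : Finset ι) {F : ι → Euc n → ℝ} {C : ι → Fin n → ℝ}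
    (h : ∀ a, jetd_D (F a) x (C a)) :
    jetd_D (fun y => ∑ a ∈ s, F a y) x fun k => ∑ a ∈ s, C a k := by
  classical
  induction s using Finset.induction_on with
  | empty => simpa only [Finset.sum_empty] using jetd_const 0
  | insert i s hi ih => simpa only [Finset.sum_insert hi] using jetd_add (h i) ih

theorem jetd_ev (hf : jetd_D f x c) (e : g =ᶠ[𝓝 x] f) : jetd_D g x c :=
  ⟨hf.1.congr_of_eventuallyEq e, fun k => by rw [← hf.2 k, pd, pd, e.fderiv_eq]⟩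

/-- the entries of `Xi` as linear forms -/
def jetd_L (J : Fin 4 → Mn n) (i : Fin n) (a : Fin 4) : Euc n →L[ℝ] ℝ :=
  ∑ l, J a i l • EuclideanSpace.proj l

theorem jetd_L_eq (J : Fin 4 → Mn n) (i : Fin n) (a : Fin 4) :
    (fun y : Euc n => Xi J y.ofLp i a) = jetd_L J i a := by
  funext y
  simp [jetd_L, Xi, mulVec, dotProduct]

theorem jetd_Xi (J : Fin 4 → Mn n) (i : Fin n) (a : Fin 4) :
    jetd_D (fun y => Xi J y.ofLp i a) x fun k => Xi J (Pi.single k 1) i a := by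
  refine ⟨by rw [jetd_L_eq]; exact (jetd_L J i a).differentiableAt, fun k => ?_⟩
  rw [pd, jetd_L_eq, ContinuousLinearMap.fderiv, ← jetd_L_eq]
  rfl

end

theorem jetd_rep {J : Fin 4 → Mn n} {r₁ : ℝ} {k : ℕ} {g : Fld n}
    {F : ℝ → ℝ} {G : ℝ → M4} (h : Rad J r₁ k g F G) {x : Euc n} (hx : r₁ < ‖x‖) (i j : Fin n) :
    (fun y => g y i j) =ᶠ[𝓝 x] fun y => F ‖y‖ * (1 : Mn n) i j + (‖y‖ ^ 2)⁻¹ *
      ∑ b, (∑ a, Xi J y.ofLp i a * (G ‖y‖ a b - F ‖y‖ * (1 : M4) a b)) * Xi J y.ofLp j b := by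
  filter_upwards [continuous_norm.continuousAt.eventually (lt_mem_nhds hx)] with y hy
  rw [h.eq y hy, ans_eq, dot_self_eq]
  rfl

theorem hasFDerivAt_rad {φ : ℝ → ℝ} {x : Euc n} (hx : x ≠ 0) (hφ : DifferentiableAt ℝ φ ‖x‖) :
    DifferentiableAt ℝ (fun y : Euc n => φ ‖y‖) x ∧
      ∀ k, pd (fun y : Euc n => φ ‖y‖) k x = dot φ ‖x‖ * x k / ‖x‖ ^ 2 := by
  have h0 : ‖x‖ ≠ 0 := norm_ne_zero_iff.2 hx
  have h1 := (hasStrictFDerivAt_norm_sq x).hasFDerivAt.sqrt (pow_ne_zero 2 h0)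
  simp only [Real.sqrt_sq (norm_nonneg _)] at h1
  have h2 := hφ.hasDerivAt.comp_hasFDerivAt x h1
  refine ⟨h2.differentiableAt, fun k => ?_⟩
  have e : fderiv ℝ (fun y : Euc n => φ ‖y‖) x = _ := h2.fderiv
  rw [pd, e, dot]
  simp [EuclideanSpace.inner_single_right]
  field_simp

/-- Use `ans_eq` entrywise; `Xi J y` is linear in `y` with `Xi J (Pi.single k 1) i a = J a i k`. -/
theorem dg_eq {J : Fin 4 → Mn n} {r₁ : ℝ} (hr : 0 < r₁) {k : ℕ} (hk : 1 ≤ k) {g : Fld n}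
    {F : ℝ → ℝ} {G : ℝ → M4} (h : Rad J r₁ k g F G) {x : Euc n} (hx : r₁ < ‖x‖) :
    dg g x = jetT J x.ofLp (F ‖x‖) (dot F ‖x‖) (G ‖x‖) (dotM G ‖x‖) := by
  have h0 : 0 < ‖x‖ := hr.trans hx
  have hx0 : x ≠ 0 := norm_pos_iff.1 h0
  have hk0 : (k : WithTop ℕ∞) ≠ 0 := by exact_mod_cast (by omega : k ≠ 0)
  have hF : jetd_D (fun y => F ‖y‖) x _ :=
    hasFDerivAt_rad hx0 ((h.cF.contDiffAt (Ioi_mem_nhds hx)).differentiableAt hk0)
  have hG : ∀ a b, jetd_D (fun y => G ‖y‖ a b) x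
      fun l => dotM G ‖x‖ a b * x l / ‖x‖ ^ 2 := fun a b =>
    hasFDerivAt_rad (φ := fun r => G r a b) hx0
      (((h.cG a b).contDiffAt (Ioi_mem_nhds hx)).differentiableAt hk0)
  have hs : HasDerivAt (fun s : ℝ => (s ^ 2)⁻¹) (-(2 * ‖x‖) / (‖x‖ ^ 2) ^ 2) ‖x‖ := by
    simpa using (hasDerivAt_pow 2 ‖x‖).fun_inv (pow_ne_zero 2 h0.ne')
  have hρ : jetd_D (fun y => (‖y‖ ^ 2)⁻¹) x fun l => -2 * (‖x‖ ^ 2)⁻¹ * x l / ‖x‖ ^ 2 := by
    obtain ⟨h1, h2⟩ := hasFDerivAt_rad hx0 hs.differentiableAt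
    refine ⟨h1, fun l => (h2 l).trans ?_⟩
    rw [dot, hs.deriv]
    field_simp
  funext l
  ext i j
  have H := jetd_ev (jetd_add (jetd_mul hF (jetd_const ((1 : Mn n) i j))) (jetd_mul hρ
    (jetd_sum Finset.univ fun b => jetd_mul (jetd_sum Finset.univ fun a => jetd_mul (jetd_Xi J i a)
      (jetd_sub (hG a b) (jetd_mul hF (jetd_const ((1 : M4) a b))))) (jetd_Xi J j b))))
    (jetd_rep h hx i j)
  refine (H.2 l).trans ?_
  simp only [jetT, jet, dot_self_eq, dotProduct_single, Matrix.add_apply, Matrix.smul_apply,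
    Matrix.mul_apply, Matrix.sub_apply, transpose_apply, smul_eq_mul, Fin.sum_univ_four]
  ring

theorem rad_contDiffAt {J : Fin 4 → Mn n} {r₁ : ℝ} (hr : 0 < r₁) {k : ℕ} {g : Fld n}
    {F : ℝ → ℝ} {G : ℝ → M4} (h : Rad J r₁ k g F G) {x : Euc n} (hx : r₁ < ‖x‖) (i j : Fin n) :
    ContDiffAt ℝ k (fun y => g y i j) x := by
  have h0 : 0 < ‖x‖ := hr.trans hx
  have hn : ContDiffAt ℝ k (fun y : Euc n => ‖y‖) x := contDiffAt_norm ℝ (norm_pos_iff.1 h0)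
  have hF : ContDiffAt ℝ k (fun y : Euc n => F ‖y‖) x :=
    (h.cF.contDiffAt (Ioi_mem_nhds hx)).comp x hn
  have hG : ∀ a b, ContDiffAt ℝ k (fun y : Euc n => G ‖y‖ a b) x := fun a b =>
    ((h.cG a b).contDiffAt (Ioi_mem_nhds hx)).comp x hn
  have hX : ∀ i a, ContDiffAt ℝ k (fun y : Euc n => Xi J y.ofLp i a) x := fun i a => by
    rw [jetd_L_eq]
    exact (jetd_L J i a).contDiff.contDiffAt
  refine ContDiffAt.congr_of_eventuallyEq ?_ (jetd_rep h hx i j)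
  exact (hF.mul contDiffAt_const).add (((hn.pow 2).inv (pow_ne_zero 2 h0.ne')).mul
    (ContDiffAt.sum fun b _ => (ContDiffAt.sum fun a _ =>
      (hX i a).mul ((hG a b).sub (hF.mul contDiffAt_const))).mul (hX j b)))

/-- The coefficients `φ s a = ⟨U(s x/r), J a (s x/r)⟩ / s^2` are differentiable at `r = ‖x‖`;
then the product rule, `trace (J a) = 0` and `x ⬝ᵥ J a x = 0` for `a ≠ 0`. -/
theorem div_eq {J : Fin 4 → Mn n} (hJ : QT J) {x : Euc n} (hx : x ≠ 0)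
    {U : Fin n → Euc n → ℝ} {φ : ℝ → Fin 4 → ℝ} (hU : ∀ i, DifferentiableAt ℝ (U i) x)
    (hrep : ∀ᶠ y in 𝓝 x, ∀ i, U i y = (Xi J y.ofLp *ᵥ φ ‖y‖) i) :
    DifferentiableAt ℝ (fun s => φ s 0) ‖x‖ ∧
      ∑ i, pd (U i) i x = dot (fun s => φ s 0) ‖x‖ + n * φ ‖x‖ 0 := by
  have h0 : 0 < ‖x‖ := norm_pos_iff.2 hx
  have hγ : DifferentiableAt ℝ (fun s : ℝ => (s / ‖x‖) • x) ‖x‖ := by fun_prop
  have e0 : (‖x‖ / ‖x‖) • x = x := by rw [div_self h0.ne', one_smul]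
  have hφ : ∀ a, DifferentiableAt ℝ (fun s => φ s a) ‖x‖ := fun a => by
    have h1 : DifferentiableAt ℝ
        (fun s : ℝ => (s * ‖x‖)⁻¹ * ∑ i, Xi J x.ofLp i a * U i ((s / ‖x‖) • x)) ‖x‖ :=
      (DifferentiableAt.fun_inv (h := fun s : ℝ => s * ‖x‖) (by fun_prop) (mul_pos h0 h0).ne').fun_mul
        (DifferentiableAt.fun_sum fun i _ =>
          (DifferentiableAt.comp (g := U i) ‖x‖ (by rw [e0]; exact hU i) hγ).const_mul _)
    refine h1.congr_of_eventuallyEq ?_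
    have h2 : Tendsto (fun s : ℝ => (s / ‖x‖) • x) (𝓝 ‖x‖) (𝓝 x) := by
      have := hγ.continuousAt.tendsto
      rwa [e0] at this
    filter_upwards [h2.eventually hrep, lt_mem_nhds h0] with s h3 hs
    have e1 : ‖(s / ‖x‖) • x‖ = s := by
      rw [norm_smul, Real.norm_eq_abs, abs_of_pos (div_pos hs h0), div_mul_cancel₀ _ h0.ne']
    have e2 : ∑ i, Xi J x.ofLp i a * U i ((s / ‖x‖) • x) =
        ((Xi J x.ofLp)ᵀ *ᵥ (Xi J ((s / ‖x‖) • x.ofLp) *ᵥ φ s)) a :=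
      Finset.sum_congr rfl fun i _ => by rw [h3 i, e1]; rfl
    rw [e2, Xi_smul, smul_mulVec, mulVec_smul, mulVec_mulVec, XtX hJ, dot_self_eq, smul_mulVec,
      one_mulVec]
    simp only [Pi.smul_apply, smul_eq_mul]
    field_simp
  refine ⟨hφ 0, ?_⟩
  have H : ∀ i, pd (U i) i x = ∑ a, (dot (fun s => φ s a) ‖x‖ / ‖x‖ ^ 2 *
      (Xi J x.ofLp i a * x i) + φ ‖x‖ a * J a i i) := fun i => by
    have h1 := jetd_ev (g := U i) (jetd_sum Finset.univ fun a => jetd_mul (jetd_Xi J i a)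
      (hasFDerivAt_rad hx (hφ a))) (hrep.mono fun y hy => hy i)
    refine (h1.2 i).trans (Finset.sum_congr rfl fun a _ => ?_)
    have : Xi J (Pi.single i 1) i a = J a i i := by simp [Xi]
    rw [this]
    ring
  have e3 : ∀ a, ∑ i, Xi J x.ofLp i a * x i = ‖x‖ ^ 2 * (Pi.single 0 1 : Fin 4 → ℝ) a := fun a => by
    have := congrFun (Xt_x hJ (x := x.ofLp)) a
    rw [dot_self_eq] at this
    exact this
  have e4 : ∀ a, ∑ i, J a i i = sg a * ∑ i, J a i i := fun a => by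
    have := congrArg trace (hJ.tr a)
    rw [trace_transpose, trace_smul] at this
    exact this
  have e5 : ∑ i, J 0 i i = n := by
    rw [hJ.one]
    simp
  have t1 := e4 1
  have t2 := e4 2
  have t3 := e4 3
  simp only [sg, cons_val, neg_mul, one_mul] at t1 t2 t3
  rw [Finset.sum_congr rfl fun i _ => H i, Finset.sum_comm]
  simp only [Finset.sum_add_distrib, ← Finset.mul_sum, e3, Fin.sum_univ_four, e5,
    show ∑ i, J 1 i i = 0 by linarith, show ∑ i, J 2 i i = 0 by linarith,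
    show ∑ i, J 3 i i = 0 by linarith]
  simp
  field_simp

end Vale.Agent.P366
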