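import Vale.Agent.P366.Gen

/-! The scalar curvature is a divergence plus a quadratic expression in first derivatives. -/

noncomputable section

open Matrix MeasureTheory Set Filter Topology

namespace Vale.Agent.P366

variable {n : ℕ}

theorem scal_pd {f : Euc n → ℝ} {x : Euc n} (hf : ContDiffAt ℝ 2 f x) (i : Fin n) :
    DifferentiableAt ℝ (pd f i) x :=
  ((hf.fderiv_right (m := 1) le_rfl).differentiableAt one_ne_zero).clm_apply
    (differentiableAt_const _)

theorem differentiableAt_chr {g : Fld n} {x : Euc n}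
    (hg : ∀ i j, ContDiffAt ℝ 2 (fun y => g y i j) x) (hd : (g x).det ≠ 0) (k i j : Fin n) :
    DifferentiableAt ℝ (chr g k i j) x :=
  (DifferentiableAt.fun_sum fun l _ =>
    (differentiableAt_minv (fun a b => (hg a b).differentiableAt two_ne_zero) hd k l).mul
      (((scal_pd (hg j l) i).add (scal_pd (hg i l) j)).sub (scal_pd (hg i j) l))).const_mul _

theorem differentiableAt_VA {g : Fld n} {x : Euc n}
    (hg : ∀ i j, ContDiffAt ℝ 2 (fun y => g y i j) x) (hd : (g x).det ≠ 0) (k : Fin n) :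
    DifferentiableAt ℝ (fun y => VA (g y)⁻¹ (dg g y) k) x := by
  have hi := differentiableAt_minv (fun a b => (hg a b).differentiableAt two_ne_zero) hd
  have hc := differentiableAt_chr hg hd
  exact (DifferentiableAt.fun_sum fun i _ => DifferentiableAt.fun_sum fun j _ =>
    (hi i j).mul (hc k i j)).sub (DifferentiableAt.fun_sum fun j _ =>
      (hi k j).mul (DifferentiableAt.fun_sum fun i _ => hc i i j))

/-- Metric compatibility for the inverse: with `T k` symmetric and `gi` symmetric,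
`-(gi * T k * gi) i j = -(Γ^i_{kl} gi l j + Γ^j_{kl} gi i l)`. -/
theorem dinv_chA {gi : Mn n} {T : Fin n → Mn n} (hgi : gi.IsSymm) (hT : ∀ k, (T k).IsSymm)
    (k i j : Fin n) :
    (gi * T k * gi) i j = ∑ l, (chA gi T i k l * gi l j + chA gi T j k l * gi i l) := by
  have e1 : ∑ l, chA gi T i k l * gi l j =
      ∑ l, ∑ m, (1 / 2) * (gi i m * (T k l m + T l k m - T m k l) * gi l j) := by
    simp only [chA, Finset.mul_sum, Finset.sum_mul, mul_assoc]
  have e2 : ∑ l, chA gi T j k l * gi i l =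
      ∑ l, ∑ m, (1 / 2) * (gi j l * (T k m l + T m k l - T l k m) * gi i m) := by
    rw [Finset.sum_comm]
    simp only [chA, Finset.mul_sum, Finset.sum_mul, mul_assoc]
  rw [Finset.sum_add_distrib, e1, e2, ← Finset.sum_add_distrib]
  simp only [mul_apply, Finset.sum_mul, ← Finset.sum_add_distrib]
  refine Finset.sum_congr rfl fun l _ => Finset.sum_congr rfl fun m _ => ?_
  rw [hgi.apply l j, (hT k).apply m l]
  ring

theorem scal_sym {gi : Mn n} {T : Fin n → Mn n} (hT : ∀ k, (T k).IsSymm) (k i j : Fin n) :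
    chA gi T k i j = chA gi T k j i := by
  simp only [chA]
  congr 1
  refine Finset.sum_congr rfl fun l _ => ?_
  rw [(hT l).apply i j]
  ring

theorem scal_dgs {g : Fld n} {x : Euc n} (hs : ∀ᶠ y in 𝓝 x, (g y).IsSymm) (k : Fin n) :
    (dg g x k).IsSymm := by
  refine Matrix.IsSymm.ext fun i j => ?_
  have e : (fun y => g y j i) =ᶠ[𝓝 x] fun y => g y i j := hs.mono fun y hy => hy.apply i j
  simp only [dg, of_apply, pd, e.fderiv_eq]

theorem scal_rev (f : Fin n → Fin n → Fin n → ℝ) :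
    ∑ a, ∑ b, ∑ c, f a b c = ∑ c, ∑ b, ∑ a, f a b c := by
  rw [Finset.sum_comm, Finset.sum_congr rfl fun b _ => Finset.sum_comm, Finset.sum_comm]

theorem scal_alg {gi : Mn n} {Γ P Q D : Fin n → Fin n → Fin n → ℝ} (hgi : gi.IsSymm)
    (hΓ : ∀ k i j, Γ k i j = Γ k j i)
    (hD : ∀ k i j, D k i j = -∑ l, (Γ i k l * gi l j + Γ j k l * gi i l)) :
    ∑ i, ∑ j, gi i j * (∑ k, P k i j - ∑ k, Q k i j +
      ∑ k, ∑ l, (Γ k k l * Γ l i j - Γ k j l * Γ l i k)) =
    ∑ k, (∑ i, ∑ j, (gi i j * P k i j + Γ k i j * D k i j) -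
      ∑ j, (gi k j * ∑ i, Q i j k + (∑ i, Γ i i j) * D k k j)) +
    (∑ i, ∑ j, gi i j * ∑ k, ∑ l, Γ k j l * Γ l i k -
      ∑ i, ∑ l, gi i l * (∑ j, Γ j j l) * (∑ k, Γ k k i)) := by
  have a1 : ∑ k, ∑ i, ∑ j, gi i j * P k i j = ∑ i, ∑ j, gi i j * ∑ k, P k i j := by
    rw [Finset.sum_comm]
    refine Finset.sum_congr rfl fun i _ => ?_
    rw [Finset.sum_comm]
    simp only [Finset.mul_sum]
  have a2 : ∑ k, ∑ j, gi k j * ∑ i, Q i j k = ∑ i, ∑ j, gi i j * ∑ k, Q k i j := by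
    rw [Finset.sum_comm]
    exact Finset.sum_congr rfl fun i _ => Finset.sum_congr rfl fun j _ => by rw [hgi.apply i j]
  have a3 : ∑ k, ∑ i, ∑ j, Γ k i j * ∑ l, Γ j k l * gi i l =
      ∑ i, ∑ j, gi i j * ∑ k, ∑ l, Γ k j l * Γ l i k := by
    simp only [Finset.mul_sum]
    rw [Finset.sum_comm]
    refine Finset.sum_congr rfl fun i _ => ?_
    rw [scal_rev]
    refine Finset.sum_congr rfl fun l _ => Finset.sum_congr rfl fun j _ =>
      Finset.sum_congr rfl fun k _ => ?_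
    rw [hΓ j k l]
    ring
  have a4 : ∑ k, ∑ i, ∑ j, Γ k i j * ∑ l, Γ i k l * gi l j =
      ∑ k, ∑ i, ∑ j, Γ k i j * ∑ l, Γ j k l * gi i l := by
    refine Finset.sum_congr rfl fun k _ => ?_
    rw [Finset.sum_comm]
    refine Finset.sum_congr rfl fun i _ => Finset.sum_congr rfl fun j _ => ?_
    rw [hΓ k j i]
    exact congrArg _ (Finset.sum_congr rfl fun l _ => by rw [hgi.apply i l])
  have a5 : ∑ k, ∑ j, (∑ i, Γ i i j) * ∑ l, Γ k k l * gi l j =
      ∑ i, ∑ l, gi i l * (∑ j, Γ j j l) * (∑ k, Γ k k i) := by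
    rw [Finset.sum_comm]
    refine Finset.sum_congr rfl fun j _ => ?_
    rw [← Finset.mul_sum, Finset.sum_comm, Finset.mul_sum]
    refine Finset.sum_congr rfl fun l _ => ?_
    rw [← Finset.sum_mul, hgi.apply j l]
    ring
  have a6 : ∑ k, ∑ j, (∑ i, Γ i i j) * ∑ l, Γ j k l * gi k l =
      ∑ i, ∑ j, gi i j * ∑ k, ∑ l, Γ k k l * Γ l i j := by
    refine Finset.sum_congr rfl fun k _ => ?_
    rw [Finset.sum_congr rfl fun j _ => Finset.mul_sum _ _ _, Finset.sum_comm]
    refine Finset.sum_congr rfl fun l _ => ?_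
    rw [Finset.sum_comm, Finset.mul_sum]
    refine Finset.sum_congr rfl fun j _ => ?_
    rw [← Finset.sum_mul]
    ring
  simp only [hD, mul_add, mul_sub, mul_neg, Finset.sum_add_distrib, Finset.sum_sub_distrib,
    Finset.sum_neg_distrib, neg_add]
  rw [a1, a2, a4, a3, a5, a6]
  ring

/-- Product rule in `VA`, `fderiv_minv` and `dinv_chA`:
`R = g^{ij}(∂_k Γ^k_ij - ∂_j Γ^k_ik) + ...`, and
`∂_k V^k = g^{ij}(∂_k Γ^k_ij - ∂_j Γ^k_ki) + (∂_k g^{ij}) Γ^k_ij - (∂_k g^{kj}) Γ^i_ij`.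
(`chA gi T k i j = chA gi T k j i` when the `T k` are symmetric, near `x`.) -/
theorem scal_eq {g : Fld n} {x : Euc n}
    (hg : ∀ i j, ContDiffAt ℝ 2 (fun y => g y i j) x) (hs : ∀ᶠ y in 𝓝 x, (g y).IsSymm)
    (hd : (g x).det ≠ 0) :
    scal g x = ∑ k, pd (fun y => VA (g y)⁻¹ (dg g y) k) k x + QA (g x)⁻¹ (dg g x) := by
  have h1 := fun a b => (hg a b).differentiableAt two_ne_zero
  have hi := differentiableAt_minv h1 hd
  have hc := differentiableAt_chr hg hd
  have hgi : (g x)⁻¹.IsSymm := hs.self_of_nhds.inv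
  have hV : ∀ k, pd (fun y => VA (g y)⁻¹ (dg g y) k) k x =
      ∑ i, ∑ j, ((g x)⁻¹ i j * pd (chr g k i j) k x +
        chr g k i j x * pd (fun y => (g y)⁻¹ i j) k x) -
      ∑ j, ((g x)⁻¹ k j * ∑ i, pd (chr g i j i) k x +
        (∑ i, chr g i i j x) * pd (fun y => (g y)⁻¹ k j) k x) := fun k => by
    have H : HasFDerivAt (fun y => VA (g y)⁻¹ (dg g y) k) _ x :=
      (HasFDerivAt.fun_sum fun i _ => HasFDerivAt.fun_sum fun j _ =>
        (hi i j).hasFDerivAt.mul (hc k i j).hasFDerivAt).sub (HasFDerivAt.fun_sum fun j _ =>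
          (hi k j).hasFDerivAt.mul (HasFDerivAt.fun_sum fun i _ => (hc i i j).hasFDerivAt))
    have e : ∀ j, ∑ i, pd (chr g i j i) k x = ∑ i, pd (chr g i i j) k x := fun j =>
      Finset.sum_congr rfl fun i _ => by
        have e1 : chr g i j i =ᶠ[𝓝 x] chr g i i j :=
          hs.eventually_nhds.mono fun y hy => scal_sym (scal_dgs hy) i j i
        rw [pd, pd, e1.fderiv_eq]
    simp only [e]
    simp only [pd, H.fderiv, _root_.sub_apply, _root_.sum_apply, _root_.add_apply,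
      _root_.smul_apply, smul_eq_mul]
    rfl
  simp only [hV]
  exact scal_alg (Γ := fun k i j => chr g k i j x) (P := fun k i j => pd (chr g k i j) k x)
    (Q := fun k i j => pd (chr g k i k) j x) (D := fun k i j => pd (fun y => (g y)⁻¹ i j) k x) hgi
    (fun k i j => scal_sym (scal_dgs hs) k i j) fun k i j =>
      (fderiv_minv h1 hd _ i j).trans (congrArg Neg.neg (dinv_chA hgi (scal_dgs hs) k i j))

end Vale.Agent.P366
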