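import Vale.Agent.P366.D1
import Vale.Agent.P366.JetD
import Vale.Agent.P366.Scal
import Vale.Agent.P366.Der

/-! Geometric quantities of invariant data. -/

noncomputable section

open Matrix MeasureTheory Set Filter Topology Asymptotics

namespace Vale.Agent.P366

variable {n : ℕ}

theorem rd_of_rad {J : Fin 4 → Mn n} (hJ : QT J) (hn : 4 < n) {r₁ : ℝ} (hr : 0 < r₁)
    {g K : Fld n} {F FK : ℝ → ℝ} {G L : ℝ → M4} (hg : Rad J r₁ 2 g F G) (hK : Rad J r₁ 1 K FK L)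
    (hpos : ∀ x, r₁ < ‖x‖ → (g x).PosDef) : RD r₁ F G FK L := by
  have key : ∀ r, r₁ < r → 0 < F r ∧ (G r).PosDef := by
    intro r h
    obtain ⟨x, hx⟩ : ∃ x : Euc n, ‖x‖ = r :=
      ⟨EuclideanSpace.single ⟨0, by omega⟩ r, by simp [abs_of_pos (hr.trans h)]⟩
    have h1 := hpos x (by rwa [hx])
    rw [hg.eq x (by rwa [hx]), hx] at h1
    refine ans_posDef hJ hn ?_ h1
    rw [dot_self_eq, hx]
    exact (pow_pos (hr.trans h) 2).ne'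
  exact ⟨hr, hg.cF, hg.cG, hK.cF, hK.cG, fun r h => (key r h).1, fun r h => (key r h).2, hK.sym⟩

theorem geo1_bil (B : Mn n) (u v : Fin n → ℝ) : ∑ i, ∑ j, B i j * u i * v j = bil B u v := by
  simp only [bil, dotProduct, mulVec, Finset.mul_sum]
  exact Finset.sum_congr rfl fun i _ => Finset.sum_congr rfl fun j _ => by ring

theorem geo1_near {r₁ : ℝ} {x : Euc n} (hx : r₁ < ‖x‖) : ∀ᶠ y : Euc n in 𝓝 x, r₁ < ‖y‖ :=
  continuous_norm.continuousAt.eventually (lt_mem_nhds hx)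

theorem geo1_isymm {G : M4} (hG : G.PosDef) : (G⁻¹)ᵀ = G⁻¹ := by
  have h : Gᵀ = G := hG.1.eq
  rw [transpose_nonsing_inv, h]

section
variable {J : Fin 4 → Mn n} (hJ : QT J) {r₁ : ℝ} {g K : Fld n} {F FK : ℝ → ℝ} {G L : ℝ → M4}
  (hg : Rad J r₁ 2 g F G) (hK : Rad J r₁ 1 K FK L) (h : RD r₁ F G FK L) {x : Euc n}
  (hx : r₁ < ‖x‖)
include hJ hg h hx

omit hJ hg in
theorem geo1_rho : x.ofLp ⬝ᵥ x.ofLp ≠ 0 := by
  rw [dot_self_eq]
  exact (pow_pos (h.pos.trans hx) 2).ne'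

theorem geo1_inv : (g x)⁻¹ = ans J x.ofLp (F ‖x‖)⁻¹ (G ‖x‖)⁻¹ := by
  rw [hg.eq x hx, ans_inv hJ (geo1_rho h hx) (h.Fpos _ hx).ne' (h.Gpos _ hx).det_pos.ne']

theorem geo1_det : (g x).det ≠ 0 := by
  refine det_ne_zero_of_right_inverse (B := ans J x.ofLp (F ‖x‖)⁻¹ (G ‖x‖)⁻¹) ?_
  rw [hg.eq x hx, ans_mul hJ (geo1_rho h hx), mul_inv_cancel₀ (h.Fpos _ hx).ne',
    mul_nonsing_inv _ (h.Gpos _ hx).det_pos.ne'.isUnit, ans_one]

theorem geo1_den : ∑ a, ∑ b, (g x)⁻¹ a b * x a * x b = ‖x‖ ^ 2 * uf G ‖x‖ := by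
  have h1 := bil_vv hJ (geo1_rho h hx) (F ‖x‖)⁻¹ (G ‖x‖)⁻¹ (Pi.single 0 1) (Pi.single 0 1)
  rw [Xi_e0 hJ, dot_self_eq] at h1
  rw [geo1_bil, geo1_inv hJ hg h hx, h1]
  simp [bil, uf, uu]

theorem nu_eq (i : Fin n) : nu g i x =
    (Xi J x.ofLp *ᵥ ((‖x‖ * √(uf G ‖x‖))⁻¹ • ((G ‖x‖)⁻¹ *ᵥ Pi.single 0 1))) i := by
  have h1 : (g x)⁻¹ *ᵥ x.ofLp = Xi J x.ofLp *ᵥ ((G ‖x‖)⁻¹ *ᵥ Pi.single 0 1) := by
    rw [geo1_inv hJ hg h hx, mulVec_mulVec, ← ans_Xi hJ (geo1_rho h hx) (F ‖x‖)⁻¹,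
      ← mulVec_mulVec, Xi_e0 hJ]
  rw [nu, geo1_den hJ hg h hx, Real.sqrt_mul (sq_nonneg _), Real.sqrt_sq (norm_nonneg _),
    mulVec_smul, ← h1, Pi.smul_apply, smul_eq_mul, div_eq_inv_mul]
  rfl

omit hJ hg hx in
theorem geo1_phi {s : ℝ} (hs : r₁ < s) :
    ((s * √(uf G s))⁻¹ • ((G s)⁻¹ *ᵥ Pi.single 0 1) : Fin 4 → ℝ) 0 = √(uf G s) / s := by
  have h1 : 0 < uf G s := uu_pos (h.Gpos _ hs)
  have h2 : 0 < √(uf G s) := Real.sqrt_pos.2 h1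
  have h3 := h.pos.trans hs
  have h4 : ((G s)⁻¹ *ᵥ (Pi.single 0 1 : Fin 4 → ℝ)) 0 = √(uf G s) * √(uf G s) := by
    rw [Real.mul_self_sqrt h1.le]
    simp [uf, uu]
  rw [Pi.smul_apply, smul_eq_mul, h4]
  field_simp

theorem geo1_nud (i : Fin n) : DifferentiableAt ℝ (nu g i) x := by
  have h1 : ∀ i j, DifferentiableAt ℝ (fun y => (g y)⁻¹ i j) x :=
    differentiableAt_minv (fun i j => (rad_contDiffAt h.pos hg hx i j).differentiableAt (by simp))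
      (geo1_det hJ hg h hx)
  have h2 : ∀ j, DifferentiableAt ℝ (fun y : Euc n => y j) x := fun j => by fun_prop
  have h3 : 0 < ∑ a, ∑ b, (g x)⁻¹ a b * x a * x b := by
    rw [geo1_den hJ hg h hx]
    exact mul_pos (pow_pos (h.pos.trans hx) 2) (uu_pos (h.Gpos _ hx))
  unfold nu
  simp only [div_eq_mul_inv]
  refine (DifferentiableAt.fun_sum fun j _ => (h1 i j).mul (h2 j)).mul
    (DifferentiableAt.inv (DifferentiableAt.sqrt ?_ h3.ne') (Real.sqrt_pos.2 h3).ne')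
  exact DifferentiableAt.fun_sum fun a _ => DifferentiableAt.fun_sum fun b _ =>
    ((h1 a b).mul (h2 a)).mul (h2 b)

/-- `div_eq` with `φ s 0 = √(uf G s)/s`, `tau_eq`, `trace_jet`, `dot_uf`. -/
theorem meanH_eq : meanH g x = √(uf G ‖x‖) * hf ((n : ℝ) - 4) F G ‖x‖ / ‖x‖ := by
  have r0 : 0 < ‖x‖ := h.pos.trans hx
  have hG := h.Gpos _ hx
  have u0 : 0 < uf G ‖x‖ := uu_pos hG
  have s0 : 0 < √(uf G ‖x‖) := Real.sqrt_pos.2 u0
  have hρ := geo1_rho h hx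
  have hGd := dotM_symm hg.sym hx
  have h1 := (div_eq hJ (norm_pos_iff.1 r0) (U := nu g)
    (φ := fun s => (s * √(uf G s))⁻¹ • ((G s)⁻¹ *ᵥ Pi.single 0 1)) (geo1_nud hJ hg h hx)
    ((geo1_near hx).mono fun y hy => nu_eq hJ hg h hy)).2
  have h2 : dot (fun s => ((s * √(uf G s))⁻¹ • ((G s)⁻¹ *ᵥ Pi.single 0 1) : Fin 4 → ℝ) 0) ‖x‖ =
      ud (G ‖x‖) (dotM G ‖x‖) / (2 * √(uf G ‖x‖) * ‖x‖) - √(uf G ‖x‖) / ‖x‖ := by
    have e : (fun s => ((s * √(uf G s))⁻¹ • ((G s)⁻¹ *ᵥ Pi.single 0 1) : Fin 4 → ℝ) 0) =ᶠ[𝓝 ‖x‖]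
        fun s => √(uf G s) / s := (lt_mem_nhds hx).mono fun s hs => geo1_phi h hs
    have d := ((((cd_uf h hx).differentiableAt (by simp)).hasDerivAt.sqrt u0.ne').div
      (hasDerivAt_id ‖x‖) r0.ne').deriv
    rw [dot, e.deriv_eq, ← dot_uf h hx, dot]
    refine (congrArg (‖x‖ * ·) d).trans ?_
    simp only [id]
    field_simp
  have h3 : ∀ k, ∑ i, chr g i i k x = x k * ((1 / 2) * (((n : ℝ) - 4) * dot F ‖x‖ / F ‖x‖ +
      trace ((G ‖x‖)⁻¹ * dotM G ‖x‖)) / ‖x‖ ^ 2) := by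
    intro k
    have a1 : ((g x)⁻¹).IsSymm := by
      rw [geo1_inv hJ hg h hx]
      exact ans_symm _ (geo1_isymm hG)
    simp only [chr_eq]
    rw [dg_eq h.pos (by norm_num) hg hx, tau_eq a1 (jetT_symm _ _ _ _ (hg.sym _ hx) hGd),
      hg.eq x hx, trace_jet hJ hρ (h.Fpos _ hx) _ hG hGd, dot_self_eq]
    ring
  have h4 : ∑ k, x k * nu g k x = ‖x‖ ^ 2 * (√(uf G ‖x‖) / ‖x‖) := by
    simp only [nu_eq hJ hg h hx]
    rw [← geo1_phi h hx, ← dot_self_eq]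
    change x.ofLp ⬝ᵥ (_ *ᵥ _) = _
    rw [dotProduct_mulVec, ← mulVec_transpose, Xt_x hJ, smul_dotProduct, single_dotProduct,
      one_mul, smul_eq_mul]
  have h5 : ∑ i, ∑ k, chr g i i k x * nu g k x = (∑ k, x k * nu g k x) *
      ((1 / 2) * (((n : ℝ) - 4) * dot F ‖x‖ / F ‖x‖ +
        trace ((G ‖x‖)⁻¹ * dotM G ‖x‖)) / ‖x‖ ^ 2) := by
    rw [Finset.sum_comm, Finset.sum_mul]
    refine Finset.sum_congr rfl fun k _ => ?_
    rw [← Finset.sum_mul, h3]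
    ring
  rw [meanH, h1, h2, h5, h4, geo1_phi h hx, hf, hh]
  have h6 : uu (G ‖x‖) = √(uf G ‖x‖) * √(uf G ‖x‖) := (Real.mul_self_sqrt u0.le).symm
  rw [h6]
  generalize ((n : ℝ) - 4) * dot F ‖x‖ / F ‖x‖ = A
  field_simp
  ring

/-- `scal_eq`, `VA_ans` near `x`, `div_eq` with `φ s 0 = vv / s^2` (`gam_zero`). -/
theorem scal_rad : scal g x =
    (dot (fun s => vv ((n : ℝ) - 4) (F s) (dot F s) (G s) (dotM G s)) ‖x‖
      + ((n : ℝ) - 2) * vv ((n : ℝ) - 4) (F ‖x‖) (dot F ‖x‖) (G ‖x‖) (dotM G ‖x‖)) / ‖x‖ ^ 2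
      + QA (g x)⁻¹ (dg g x) := by
  have r0 : 0 < ‖x‖ := h.pos.trans hx
  have hc : ∀ i j, ContDiffAt ℝ 2 (fun y => g y i j) x := rad_contDiffAt h.pos hg hx
  have hd := geo1_det hJ hg h hx
  obtain ⟨φ, hφ⟩ : ∃ φ : ℝ → Fin 4 → ℝ, φ = fun s => (s ^ 2)⁻¹ •
    ((G s)⁻¹ *ᵥ gam ((n : ℝ) - 4) (F s) (dot F s) (G s) (dotM G s)) := ⟨_, rfl⟩
  obtain ⟨h1, h2⟩ := div_eq hJ (norm_pos_iff.1 r0) (U := fun k y => VA (g y)⁻¹ (dg g y) k)
    (φ := φ) (differentiableAt_VA hc hd) ((geo1_near hx).mono fun y hy k => by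
      rw [dg_eq h.pos (by norm_num) hg hy, hg.eq y hy, VA_ans hJ (geo1_rho h hy) (h.Fpos _ hy) _
        (h.Gpos _ hy) (dotM_symm hg.sym hy), dot_self_eq, hφ])
  have e : ∀ s, r₁ < s →
      vv ((n : ℝ) - 4) (F s) (dot F s) (G s) (dotM G s) = s ^ 2 * φ s 0 := by
    intro s hs
    have := (h.pos.trans hs).ne'
    rw [hφ, ← gam_zero _ _ _ (h.Gpos _ hs) (dotM_symm hg.sym hs)]
    simp only [Pi.smul_apply, smul_eq_mul]
    field_simp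
  have e' : (fun s => vv ((n : ℝ) - 4) (F s) (dot F s) (G s) (dotM G s)) =ᶠ[𝓝 ‖x‖]
      fun s => s ^ 2 * φ s 0 := (lt_mem_nhds hx).mono e
  have d := ((hasDerivAt_pow 2 ‖x‖).fun_mul h1.hasDerivAt).deriv
  rw [scal_eq hc ((geo1_near hx).mono fun y hy => by
    rw [hg.eq y hy]
    exact ans_symm _ (hg.sym _ hy)) hd, h2, e _ hx, dot.eq_1 (fun s => vv _ _ _ _ _), e'.deriv_eq,
    d, dot]
  congr 1
  field_simp
  push_cast
  ring

include hK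

theorem trK_eq : trK g K x = tt ((n : ℝ) - 4) (F ‖x‖) (G ‖x‖) (FK ‖x‖) (L ‖x‖) := by
  have hs : (K x).IsSymm := by
    rw [hK.eq x hx]
    exact ans_symm _ (hK.sym _ hx)
  have h1 : trK g K x = trace ((g x)⁻¹ * K x) := by
    simp only [trK, trace, diag, mul_apply]
    exact Finset.sum_congr rfl fun i _ => Finset.sum_congr rfl fun j _ => by rw [hs.apply]
  rw [h1, geo1_inv hJ hg h hx, hK.eq x hx, ans_mul hJ (geo1_rho h hx),
    ans_trace hJ (geo1_rho h hx), tt]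
  ring

theorem thetaP_eq : thetaP g K x = Tp ((n : ℝ) - 4) F G FK L ‖x‖ / ‖x‖ := by
  have r0 : 0 < ‖x‖ := h.pos.trans hx
  have hG := h.Gpos _ hx
  have u0 : 0 < uf G ‖x‖ := uu_pos hG
  have s0 : 0 < √(uf G ‖x‖) := Real.sqrt_pos.2 u0
  have h1 : ∑ i, ∑ j, K x i j * nu g i x * nu g j x = nn (G ‖x‖) (L ‖x‖) := by
    simp only [nu_eq hJ hg h hx]
    rw [geo1_bil, hK.eq x hx, bil_vv hJ (geo1_rho h hx), dot_self_eq, bil, mulVec_smul,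
      smul_dotProduct, dotProduct_smul, mulVec_mulVec, dotProduct_comm, dotProduct_mulVec,
      ← mulVec_transpose, geo1_isymm hG, mulVec_mulVec, dotProduct_single, mul_one, nn,
      ← Matrix.mul_assoc]
    have h6 : uu (G ‖x‖) = √(uf G ‖x‖) * √(uf G ‖x‖) := (Real.mul_self_sqrt u0.le).symm
    rw [h6]
    simp only [smul_eq_mul, mulVec_single_one, col_apply]
    field_simp
  rw [thetaP, h1, meanH_eq hJ hg h hx, trK_eq hJ hg hK h hx, Tp, kf, kk]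
  field_simp

omit hx in
theorem mom_rad : Rad J r₁ 1 (mom g K)
    (fun s => FK s - tt ((n : ℝ) - 4) (F s) (G s) (FK s) (L s) * F s)
    (fun s => L s - tt ((n : ℝ) - 4) (F s) (G s) (FK s) (L s) • G s) := by
  have ht : ContDiffOn ℝ 1 (fun s => tt ((n : ℝ) - 4) (F s) (G s) (FK s) (L s)) (Ioi r₁) :=
    fun s hs => (cd_tt h hs _).contDiffWithinAt
  refine ⟨fun x hx => ?_, h.cFK.sub (ht.mul (h.cF.of_le (by norm_num))), fun a b =>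
    (h.cL a b).sub (ht.mul ((h.cG a b).of_le (by norm_num))), fun s hs =>
    (hK.sym s hs).sub ((hg.sym s hs).smul _)⟩
  rw [mom, trK_eq hJ hg hK h hx, hK.eq x hx, hg.eq x hx, ans_sub_smul]

end

end Vale.Agent.P366
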