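import Vale.Agent.P366.Geo1

/-! Surface integrals of invariant data. -/

noncomputable section

open Matrix MeasureTheory Set Filter Topology Asymptotics

namespace Vale.Agent.P366

variable {n : ℕ}

theorem omega_pos (hn : 0 < n) : 0 < omega n := by
  have : Nonempty (Fin n) := ⟨⟨0, hn⟩⟩
  unfold omega sph
  rw [Measure.toSphere_real_apply_univ, finrank_euclideanSpace_fin]
  refine mul_pos (by exact_mod_cast hn) ?_
  exact ENNReal.toReal_pos (Metric.measure_ball_pos _ _ one_pos).ne' measure_ball_lt_top.ne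

theorem geo2_norm {R : ℝ} (hR : 0 < R) (θ : Metric.sphere (0 : Euc n) 1) :
    ‖R • (θ : Euc n)‖ = R := by
  rw [norm_smul, norm_eq_of_mem_sphere θ, mul_one, Real.norm_eq_abs, abs_of_pos hR]

theorem sInt_const {R : ℝ} (hR : 0 < R) {f : Euc n → ℝ} {c : ℝ} (hf : ∀ x, ‖x‖ = R → f x = c) :
    sInt R f = R ^ (n - 1) * (omega n * c) := by
  unfold sInt omega
  congr 1
  rw [← smul_eq_mul, ← integral_const]
  exact integral_congr_ae (Eventually.of_forall fun θ => hf _ (geo2_norm hR θ))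

/-- The antipodal map. -/
def geo2_neg (n : ℕ) : Metric.sphere (0 : Euc n) 1 ≃ᵐ Metric.sphere (0 : Euc n) 1 where
  toEquiv := Equiv.neg _
  measurable_toFun := continuous_neg.measurable
  measurable_invFun := continuous_neg.measurable

open Pointwise in
theorem geo2_mp : MeasurePreserving (geo2_neg n) (sph n) (sph n) := by
  refine ⟨(geo2_neg n).measurable, Measure.ext fun s hs => ?_⟩
  rw [Measure.map_apply (geo2_neg n).measurable hs]
  unfold sph
  rw [Measure.toSphere_apply' _ ((geo2_neg n).measurable hs), Measure.toSphere_apply' _ hs,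
    ← Measure.measure_neg volume (Ioo (0 : ℝ) 1 • (Subtype.val '' s))]
  congr 2
  ext x
  constructor
  · rintro ⟨t, ht, _, ⟨θ, hθ, rfl⟩, rfl⟩
    exact ⟨t, ht, _, ⟨-θ, hθ, rfl⟩, by simp⟩
  · rintro ⟨t, ht, _, ⟨θ, hθ, rfl⟩, e⟩
    refine ⟨t, ht, _, ⟨-θ, ?_, rfl⟩, ?_⟩
    · show - -θ ∈ s
      rwa [neg_neg]
    · have e' : t • (θ : Euc n) = -x := e
      show t • (-(θ : Euc n)) = x
      rw [smul_neg, e', neg_neg]

/-- The measure `sph n` is invariant under `θ ↦ -θ` (`Measure.toSphere_apply'`). -/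
theorem sInt_odd {R : ℝ} (hR : 0 < R) {f : Euc n → ℝ} (hf : ∀ x, ‖x‖ = R → f (-x) = -f x) :
    sInt R f = 0 := by
  unfold sInt
  have h1 := (geo2_mp (n := n)).integral_comp' fun θ => f (R • (θ : Euc n))
  have h2 : ∫ θ, f (R • ((geo2_neg n θ : Metric.sphere (0 : Euc n) 1) : Euc n)) ∂(sph n) =
      -∫ θ, f (R • (θ : Euc n)) ∂(sph n) := by
    rw [← integral_neg]
    refine integral_congr_ae (Eventually.of_forall fun θ => ?_)
    have e : ((geo2_neg n θ : Metric.sphere (0 : Euc n) 1) : Euc n) = -(θ : Euc n) := rfl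
    simp only [e, smul_neg]
    exact hf _ (geo2_norm hR θ)
  have h3 : ∫ θ, f (R • (θ : Euc n)) ∂(sph n) = 0 := by linarith
  rw [h3, mul_zero]

section
variable {J : Fin 4 → Mn n} (hJ : QT J) (hn : 4 < n) {r₁ : ℝ} {g K : Fld n} {F FK : ℝ → ℝ}
  {G L : ℝ → M4} (hg : Rad J r₁ 2 g F G) (hK : Rad J r₁ 1 K FK L) (h : RD r₁ F G FK L) {R : ℝ}
  (hR : r₁ < R)
include hJ hn hg h hR

theorem area_eq : area g R / omega n = af n F G R := by
  have hR0 : 0 < R := h.pos.trans hR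
  have hω := omega_pos (n := n) (by omega)
  unfold area af al
  rw [sInt_const hR0 (c := √(F R ^ (n - 4) * detY (G R)))]
  · field_simp
  intro x hx
  have hx1 : r₁ < ‖x‖ := hx ▸ hR
  have hd : x.ofLp ⬝ᵥ x.ofLp = R ^ 2 := by rw [dot_self_eq, hx]
  have hd0 : x.ofLp ⬝ᵥ x.ofLp ≠ 0 := by rw [hd]; positivity
  have hF := (h.Fpos R hR).ne'
  have hG := (h.Gpos R hR).det_pos.ne'
  have hb := bil_vv hJ hd0 (F R)⁻¹ (G R)⁻¹ (Pi.single 0 1) (Pi.single 0 1)
  rw [Xi_e0 hJ, hd] at hb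
  have hb2 : bil (G R)⁻¹ (Pi.single 0 1) (Pi.single 0 1) = uu (G R) := by
    simp [bil, uu]
  have hs : ∑ a, ∑ b, ans J x.ofLp (F R)⁻¹ (G R)⁻¹ a b * (x a / R) * (x b / R) = uu (G R) := by
    have e : ∑ a, ∑ b, ans J x.ofLp (F R)⁻¹ (G R)⁻¹ a b * (x a / R) * (x b / R) =
        bil (ans J x.ofLp (F R)⁻¹ (G R)⁻¹) x.ofLp x.ofLp / R ^ 2 := by
      simp only [bil, dotProduct, mulVec, Finset.sum_div, Finset.mul_sum]
      exact Finset.sum_congr rfl fun a _ => Finset.sum_congr rfl fun b _ => by ring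
    rw [e, hb, hb2]; field_simp
  rw [hg.eq x hx1, hx, ans_inv hJ hd0 hF hG, ans_det hJ hn.le hd0 hF, hs, detY, mul_assoc]

theorem enFlux_eq : enFlux g R =
    R ^ (n - 2) * fl ((n : ℝ) - 4) (F R) (dot F R) (G R) (dotM G R) / (2 * ((n : ℝ) - 1)) := by
  have hR0 : 0 < R := h.pos.trans hR
  have hω := omega_pos (n := n) (by omega)
  have hn1 : (n : ℝ) - 1 ≠ 0 := by
    have : (4 : ℝ) < n := by exact_mod_cast hn
    linarith
  unfold enFlux cn
  rw [sInt_const hR0 (c := fl ((n : ℝ) - 4) (F R) (dot F R) (G R) (dotM G R) / R)]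
  · have e : R ^ (n - 1) = R ^ (n - 2) * R := by
      rw [← pow_succ]; congr 1; omega
    rw [e]; field_simp
  intro x hx
  have hx1 : r₁ < ‖x‖ := hx ▸ hR
  have hd0 : x.ofLp ⬝ᵥ x.ofLp ≠ 0 := by rw [dot_self_eq, hx]; positivity
  have hj := dg_eq h.pos (by norm_num) hg hx1
  rw [hx] at hj
  rw [← flux_jet hJ hd0 (F := F R) (dot F R) (dotM_symm hg.sym hR) (hg.sym R hR),
    ← hj]
  simp only [Finset.sum_div]
  exact Finset.sum_congr rfl fun i _ => Finset.sum_congr rfl fun j _ => by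
    rw [mul_div_assoc]; rfl

include hK in
theorem momFlux_eq (i : Fin n) : momFlux g K i R = 0 := by
  have hR0 : 0 < R := h.pos.trans hR
  unfold momFlux
  rw [sInt_odd hR0, mul_zero]
  intro x hx
  have hm := (mom_rad hJ hg hK h).eq
  have e : mom g K (-x) = mom g K x := by
    rw [hm x (hx ▸ hR), hm (-x) (by rw [norm_neg, hx]; exact hR), norm_neg,
      ← ans_smul (J := J) (c := -1) (x := x.ofLp) (by norm_num)]
    congr 1
    ext k; simp
  rw [e, ← Finset.sum_neg_distrib]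
  exact Finset.sum_congr rfl fun j _ => by simp [neg_div]

end

end Vale.Agent.P366
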