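import Vale.Agent.P366.Alg

/-! Transitivity of the commutant of a quaternionic structure. -/

noncomputable section

open Matrix MeasureTheory Set Filter Topology

namespace Vale.Agent.P366

variable {n : ℕ}

/-- Right multiplication. -/
def inv1R (z : Fin 4 → ℝ) : M4 :=
  !![z 0, -z 1, -z 2, -z 3; z 1, z 0, z 3, -z 2; z 2, -z 3, z 0, z 1; z 3, z 2, -z 1, z 0]

/-- Left multiplication. -/
def inv1L (p : Fin 4 → ℝ) : M4 :=
  !![p 0, -p 1, -p 2, -p 3; p 1, p 0, -p 3, p 2; p 2, p 3, p 0, -p 1; p 3, -p 2, p 1, p 0]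

theorem inv1_R (p z : Fin 4 → ℝ) : inv1R z *ᵥ p = qm p z := by
  ext i
  fin_cases i <;> simp [inv1R, qm, mulVec, dotProduct, Fin.sum_univ_four] <;> ring

theorem inv1_L (p z : Fin 4 → ℝ) : inv1L p *ᵥ z = qm p z := by
  ext i
  fin_cases i <;> simp [inv1L, qm, mulVec, dotProduct, Fin.sum_univ_four] <;> ring

theorem inv1_comm (p z : Fin 4 → ℝ) : inv1R z * inv1L p = inv1L p * inv1R z := by
  ext i j
  fin_cases i <;> fin_cases j <;> simp [inv1R, inv1L, mul_apply, Fin.sum_univ_four] <;> ring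

theorem inv1_orth {z : Fin 4 → ℝ} (h : z 0 ^ 2 + z 1 ^ 2 + z 2 ^ 2 + z 3 ^ 2 = 1) :
    (inv1R z)ᵀ * inv1R z = 1 := by
  ext i j
  fin_cases i <;> fin_cases j <;> simp [inv1R, mul_apply, Fin.sum_univ_four] <;>
    first | ring1 | linear_combination h

theorem inv1_tr (a : Fin 4) : sg a • (inv1L (Pi.single a 1))ᵀ = inv1L (Pi.single a 1) := by
  ext i j
  fin_cases a <;> fin_cases i <;> fin_cases j <;> simp [inv1L, sg]

theorem inv1_JX {J : Fin 4 → Mn n} (hJ : QT J) (w : Fin n → ℝ) (a : Fin 4) :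
    J a * Xi J w = Xi J w * inv1L (Pi.single a 1) := by
  refine Matrix.ext_iff_mulVec.2 fun z => ?_
  rw [← mulVec_mulVec, ← mulVec_mulVec, J_mul_Xi hJ, inv1_L]

theorem inv1_XJ {J : Fin 4 → Mn n} (hJ : QT J) (w : Fin n → ℝ) (a : Fin 4) :
    (Xi J w)ᵀ * J a = inv1L (Pi.single a 1) * (Xi J w)ᵀ := by
  have h1 := congrArg transpose (inv1_JX hJ w a)
  have h2 : sg a * sg a = 1 := by fin_cases a <;> simp [sg]
  rw [transpose_mul, transpose_mul, hJ.tr, Matrix.mul_smul] at h1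
  rw [← inv1_tr, Matrix.smul_mul, ← h1, smul_smul, h2, one_smul]

/-- Put `w = u - v`; if `w = 0` take `A = 1`. Otherwise let `h = (Xi J w)ᵀ u / |w|^2`
(so `h 0 = 1/2`), let `q = 1 - conj h / |h|^2` (a unit quaternion, `qm h q = h - 1`), let `R` be the
matrix of `p ↦ qm p q`, and `A = 1 + |w|^{-2} Xi w (R - 1) (Xi w)ᵀ = ans J w 1 R`.
`R` is orthogonal and commutes with the left multiplications `p ↦ qm e_a p`. -/
theorem exists_move {J : Fin 4 → Mn n} (hJ : QT J) (u v : Fin n → ℝ) (huv : u ⬝ᵥ u = v ⬝ᵥ v) :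
    ∃ A : Mn n, Aᵀ * A = 1 ∧ (∀ a, A * J a = J a * A) ∧ A *ᵥ u = v ∧
      ∀ x : Fin n → ℝ, (Xi J (u - v))ᵀ *ᵥ x = 0 → A *ᵥ x = x := by
  by_cases h0 : u - v = 0
  · exact ⟨1, by simp, fun a => by simp, by rw [one_mulVec, sub_eq_zero.1 h0], fun x _ => by simp⟩
  generalize hw : u - v = w at h0
  have hρ : w ⬝ᵥ w ≠ 0 := fun h => h0 (dotProduct_self_eq_zero.1 h)
  obtain ⟨h, hh⟩ : ∃ h : Fin 4 → ℝ, h = (w ⬝ᵥ w)⁻¹ • ((Xi J w)ᵀ *ᵥ u) := ⟨_, rfl⟩
  have h1 : h 0 = 1 / 2 := by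
    have e1 : ((Xi J w)ᵀ *ᵥ u) 0 = w ⬝ᵥ u := by
      simp [Xi, mulVec, dotProduct, hJ.one, one_apply]
    have e2 : w ⬝ᵥ w = 2 * (w ⬝ᵥ u) := by
      rw [← hw]
      simp only [sub_dotProduct, dotProduct_sub, dotProduct_comm v u]
      linarith
    rw [hh, Pi.smul_apply, e1, smul_eq_mul, inv_mul_eq_div, div_eq_iff hρ, e2]
    ring
  obtain ⟨N, hN⟩ : ∃ N, N = h 0 ^ 2 + h 1 ^ 2 + h 2 ^ 2 + h 3 ^ 2 := ⟨_, rfl⟩
  have hN0 : N ≠ 0 := by
    rw [hN, h1]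
    positivity
  obtain ⟨q, hq⟩ : ∃ q : Fin 4 → ℝ, q = ![1 - h 0 / N, h 1 / N, h 2 / N, h 3 / N] := ⟨_, rfl⟩
  have h2 : q 0 ^ 2 + q 1 ^ 2 + q 2 ^ 2 + q 3 ^ 2 = 1 := by
    simp only [hq, cons_val_zero, cons_val_one, cons_val]
    field_simp
    linear_combination -hN - 2 * N * h1
  have h3 : qm h q - h = -Pi.single 0 1 := by
    ext i
    fin_cases i <;> simp [qm, hq] <;> field_simp <;> first | ring1 | linear_combination hN
  refine ⟨ans J w 1 (inv1R q), ?_, fun a => ?_, ?_, fun x hx => ?_⟩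
  · have e : (ans J w 1 (inv1R q))ᵀ = ans J w 1 (inv1R q)ᵀ := by
      simp only [ans, transpose_add, transpose_smul, PP_symm, transpose_mul, transpose_transpose,
        Matrix.mul_assoc]
    rw [e, ans_mul hJ hρ, inv1_orth h2, one_mul, ans_one]
  · simp only [ans, Matrix.add_mul, Matrix.mul_add, Matrix.smul_mul, Matrix.mul_smul, J_PP hJ hρ]
    rw [Matrix.mul_assoc _ _ (J a), inv1_XJ hJ, ← Matrix.mul_assoc, Matrix.mul_assoc (Xi J w),
      inv1_comm, ← Matrix.mul_assoc, ← inv1_JX hJ]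
    simp only [Matrix.mul_assoc]
  · rw [ans_eq, one_smul, one_smul, add_mulVec, smul_mulVec, ← mulVec_mulVec, ← mulVec_mulVec,
      ← mulVec_smul, ← mulVec_smul, ← hh, sub_mulVec, inv1_R, one_mulVec,
      one_mulVec, h3, mulVec_neg, Xi_e0 hJ, ← hw]
    abel
  · rw [ans_eq, add_mulVec, smul_mulVec, smul_mulVec, ← mulVec_mulVec, hx]
    simp

end Vale.Agent.P366
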