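import Vale.Agent.P366.Inv1

/-! Invariant tensors have the form of the ansatz. -/

noncomputable section

open Matrix MeasureTheory Set Filter Topology

namespace Vale.Agent.P366

variable {n : ℕ}

theorem inv2_Xi {J : Fin 4 → Mn n} {A : Mn n} (hA : ∀ a, A * J a = J a * A) (y : Fin n → ℝ) :
    Xi J (A *ᵥ y) = A * Xi J y := by
  ext i a
  simp only [Xi, of_apply, mulVec_mulVec, ← hA]
  rw [← mulVec_mulVec]
  rfl

theorem inv2_swap {J : Fin 4 → Mn n} (hJ : QT J) {x w : Fin n → ℝ} (h : (Xi J x)ᵀ *ᵥ w = 0) :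
    (Xi J w)ᵀ *ᵥ x = 0 := by
  funext a
  have h1 : (J a *ᵥ x) ⬝ᵥ w = 0 := congrFun h a
  show (J a *ᵥ w) ⬝ᵥ x = 0
  rw [dotProduct_comm, dotProduct_mulVec, ← mulVec_transpose, hJ.tr, smul_mulVec, smul_dotProduct,
    h1, smul_zero]

theorem inv2_pol {M : Mn n} (hM : M.IsSymm) (h : ∀ v, v ⬝ᵥ M *ᵥ v = 0) : M = 0 := by
  ext i j
  have h1 := h (Pi.single i 1 + Pi.single j 1)
  rw [mulVec_add, add_dotProduct, dotProduct_add, dotProduct_add, h, h] at h1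
  simp only [mulVec_single_one, single_one_dotProduct, col_apply, hM.apply i j] at h1
  rw [Matrix.zero_apply]
  linarith

/-- One point. Horizontal `h, h'` of equal length are exchanged by an `A` fixing `x` and all
`J a x` (`exists_move`); `h' = -h` kills the mixed terms; the quadratic form is constant on
horizontal vectors of given length; polarise; take traces to identify `F`. -/
theorem ans_of_fix {J : Fin 4 → Mn n} (hJ : QT J) (hn : 4 < n) {x : Fin n → ℝ}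
    (hx : x ⬝ᵥ x ≠ 0) {B : Mn n} (hB : B.IsSymm)
    (hinv : ∀ A : Mn n, Aᵀ * A = 1 → (∀ a, A * J a = J a * A) → A *ᵥ x = x → Aᵀ * B * A = B) :
    B = ans J x ((trace B - trace ((x ⬝ᵥ x)⁻¹ • ((Xi J x)ᵀ * B * Xi J x))) / ((n : ℝ) - 4))
      ((x ⬝ᵥ x)⁻¹ • ((Xi J x)ᵀ * B * Xi J x)) := by
  have h1 : ∀ h h' : Fin n → ℝ, (Xi J x)ᵀ *ᵥ h = 0 → (Xi J x)ᵀ *ᵥ h' = 0 → h ⬝ᵥ h = h' ⬝ᵥ h' →
      h ⬝ᵥ B *ᵥ h = h' ⬝ᵥ B *ᵥ h' ∧ (Xi J x)ᵀ *ᵥ B *ᵥ h = (Xi J x)ᵀ *ᵥ B *ᵥ h' :=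
    fun h h' k k' e => by
    obtain ⟨A, a1, a2, a3, a4⟩ := exists_move hJ h h' e
    have a5 := a4 x (inv2_swap hJ (by rw [mulVec_sub, k, k', sub_self]))
    have a6 : B *ᵥ h = Aᵀ *ᵥ B *ᵥ h' := by
      rw [← a3, mulVec_mulVec, mulVec_mulVec, hinv A a1 a2 a5]
    refine ⟨by rw [a6, mulVec_transpose, dotProduct_comm, ← dotProduct_mulVec, a3,
      dotProduct_comm], ?_⟩
    rw [a6, mulVec_mulVec, ← transpose_mul, ← inv2_Xi a2, a5]
  have h2 : ∀ v, (Xi J x)ᵀ *ᵥ PP J x *ᵥ v = 0 := fun v => by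
    rw [mulVec_mulVec, Xt_PP hJ hx, zero_mulVec]
  have h3 : (Xi J x)ᵀ * B * PP J x = 0 := ext_iff_mulVec.2 fun v => by
    have k := (h1 _ (-(PP J x *ᵥ v)) (h2 v) (by rw [mulVec_neg, h2, neg_zero]) (by simp)).2
    rw [mulVec_neg, mulVec_neg, mulVec_mulVec, mulVec_mulVec] at k
    rw [zero_mulVec]
    exact self_eq_neg.1 k
  have h4 : ∀ h h' : Fin n → ℝ, (Xi J x)ᵀ *ᵥ h = 0 → (Xi J x)ᵀ *ᵥ h' = 0 →
      h' ⬝ᵥ h' * h ⬝ᵥ B *ᵥ h = h ⬝ᵥ h * h' ⬝ᵥ B *ᵥ h' := fun h h' k k' => by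
    have e : ∀ u v : Fin n → ℝ, ∀ M : Mn n, (√(u ⬝ᵥ u) • v) ⬝ᵥ M *ᵥ (√(u ⬝ᵥ u) • v) =
        u ⬝ᵥ u * v ⬝ᵥ M *ᵥ v := fun u v M => by
      rw [mulVec_smul, smul_dotProduct, dotProduct_smul, smul_eq_mul, smul_eq_mul, ← mul_assoc,
        Real.mul_self_sqrt (x := u ⬝ᵥ u) (Finset.sum_nonneg fun i _ => mul_self_nonneg _)]
    rw [← e, ← e]
    refine (h1 _ _ (by rw [mulVec_smul, k, smul_zero]) (by rw [mulVec_smul, k', smul_zero]) ?_).1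
    have e1 := e h' h 1
    have e2 := e h h' 1
    simp only [one_mulVec] at e1 e2
    rw [e1, e2, mul_comm]
  obtain ⟨F, hF⟩ : ∃ F : ℝ, ∀ h, (Xi J x)ᵀ *ᵥ h = 0 → h ⬝ᵥ B *ᵥ h = F * h ⬝ᵥ h := by
    by_cases k : ∃ h', (Xi J x)ᵀ *ᵥ h' = 0 ∧ h' ⬝ᵥ h' ≠ 0
    · obtain ⟨h', k, k'⟩ := k
      exact ⟨h' ⬝ᵥ B *ᵥ h' / h' ⬝ᵥ h', fun h k1 => by
        rw [div_mul_eq_mul_div, eq_div_iff k', mul_comm, h4 h h' k1 k, mul_comm]⟩
    · push Not at k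
      exact ⟨0, fun h k1 => by rw [dotProduct_self_eq_zero.1 (k h k1), zero_dotProduct, zero_mul]⟩
  have h5 : PP J x * B * PP J x = F • PP J x := by
    refine sub_eq_zero.1 (inv2_pol ?_ fun v => ?_)
    · simp only [IsSymm, transpose_sub, transpose_mul, transpose_smul, PP_symm, hB.eq,
        Matrix.mul_assoc]
    · have e : ∀ u, v ⬝ᵥ PP J x *ᵥ u = (PP J x *ᵥ v) ⬝ᵥ u := fun u => by
        rw [dotProduct_mulVec, ← mulVec_transpose, PP_symm]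
      rw [sub_mulVec, dotProduct_sub, ← mulVec_mulVec, ← mulVec_mulVec, e, hF _ (h2 v), ← e,
        mulVec_mulVec, PP_PP hJ hx, smul_mulVec, dotProduct_smul, smul_eq_mul, sub_self]
  have h6 : PP J x * B * Xi J x = 0 := by
    simpa only [transpose_mul, PP_symm, hB.eq, transpose_transpose, transpose_zero,
      Matrix.mul_assoc] using congrArg transpose h3
  have h7 : B = ans J x F ((x ⬝ᵥ x)⁻¹ • ((Xi J x)ᵀ * B * Xi J x)) := by
    have e : PP J x + (x ⬝ᵥ x)⁻¹ • (Xi J x * (Xi J x)ᵀ) = 1 := sub_add_cancel _ _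
    have e1 : PP J x * B * (Xi J x * (Xi J x)ᵀ) = 0 := by
      rw [← Matrix.mul_assoc, h6, Matrix.zero_mul]
    have e2 : Xi J x * (Xi J x)ᵀ * B * PP J x = 0 := by
      rw [Matrix.mul_assoc (Xi J x), Matrix.mul_assoc (Xi J x), h3, Matrix.mul_zero]
    conv_lhs => rw [← mul_one B, ← one_mul B, ← e]
    simp only [add_mul, mul_add, smul_mul_assoc, mul_smul_comm, h5, e1, e2, smul_zero, add_zero,
      zero_add, ans, Matrix.mul_smul, Matrix.smul_mul]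
    simp only [Matrix.mul_assoc]
  have h8 : (0 : ℝ) < n - 4 := sub_pos.2 (by exact_mod_cast hn)
  have h9 := (congrArg trace h7).trans (ans_trace hJ hx _ _)
  rw [h9, add_sub_cancel_right, mul_div_cancel_left₀ _ h8.ne']
  exact h7

/-- Fix a unit vector `e`; `G r = (Xi e)ᵀ g(r e) (Xi e)`, `F r = (tr g(r e) - tr G r)/(n-4)`.
Move `‖x‖ e` to `x` by `exists_move`; `Xi (A y) = A * Xi y`. -/
theorem rad_of_inv {J : Fin 4 → Mn n} (hJ : QT J) (hn : 4 < n) {r₁ : ℝ} (hr : 0 < r₁) {k : ℕ}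
    {g : Fld n} (hg : ∀ i j, ContDiffOn ℝ k (fun x => g x i j) {x | r₁ < ‖x‖})
    (hs : ∀ x, r₁ < ‖x‖ → (g x).IsSymm)
    (hinv : ∀ A : Mn n, Aᵀ * A = 1 → (∀ a, A * J a = J a * A) →
      ∀ x : Euc n, r₁ < ‖x‖ → Aᵀ * g (act A x) * A = g x) :
    ∃ F G, Rad J r₁ k g F G := by
  obtain ⟨e, he⟩ : ∃ e : Euc n, ‖e‖ = 1 := ⟨EuclideanSpace.single ⟨0, by omega⟩ 1, by simp⟩
  have h1 : ∀ r, r₁ < r → ‖r • e‖ = r := fun r h => by
    rw [norm_smul, he, mul_one, Real.norm_of_nonneg (hr.trans h).le]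
  have h2 : e.ofLp ⬝ᵥ e.ofLp ≠ 0 := by rw [dot_self_eq, he]; norm_num
  have h3 : ∀ i j, ContDiffOn ℝ k (fun r : ℝ => g (r • e) i j) (Ioi r₁) := fun i j =>
    (hg i j).comp (by fun_prop) fun r h => h.trans_eq (h1 r h).symm
  have h4 : ∀ a b, ContDiffOn ℝ k (fun r : ℝ => ((e.ofLp ⬝ᵥ e.ofLp)⁻¹ •
      ((Xi J e.ofLp)ᵀ * g (r • e) * Xi J e.ofLp)) a b) (Ioi r₁) := fun a b => by
    simp only [Matrix.smul_apply, Matrix.mul_apply, smul_eq_mul]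
    exact contDiffOn_const.mul (.sum fun i _ => (ContDiffOn.sum fun j _ =>
      contDiffOn_const.mul (h3 j i)).mul contDiffOn_const)
  refine ⟨fun r => (trace (g (r • e)) - trace ((e.ofLp ⬝ᵥ e.ofLp)⁻¹ •
    ((Xi J e.ofLp)ᵀ * g (r • e) * Xi J e.ofLp))) / ((n : ℝ) - 4), _, fun x hx => ?_,
    ((ContDiffOn.sum fun i _ => h3 i i).sub (.sum fun a _ => h4 a a)).div_const _, h4,
    fun r h => ?_⟩
  · have h5 := hx.trans_eq (h1 _ hx).symm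
    have h6 : (‖x‖ • e).ofLp ⬝ᵥ (‖x‖ • e).ofLp = x.ofLp ⬝ᵥ x.ofLp := by
      rw [dot_self_eq, dot_self_eq, h1 _ hx]
    obtain ⟨A, a1, a2, a3, -⟩ := exists_move hJ _ _ h6
    have a4 := hinv A a1 a2 _ h5
    have a5 : A * Aᵀ = 1 := mul_eq_one_comm.1 a1
    rw [act, a3, WithLp.toLp_ofLp] at a4
    have h7 := ans_of_fix hJ hn h2 (hs _ h5) fun A b1 b2 b3 => by
      have b4 := hinv A b1 b2 _ h5
      rwa [act, WithLp.ofLp_smul, mulVec_smul, b3] at b4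
    have h8 : g x = A * g (‖x‖ • e) * Aᵀ := by
      rw [← a4, ← mul_assoc, ← mul_assoc, a5, one_mul, mul_assoc, a5, mul_one]
    refine h8.trans ((congrArg (A * · * Aᵀ) (h7.trans
      (ans_smul (hr.trans hx).ne' _ _).symm)).trans ?_)
    rw [ans_eq, ans_eq, ← h6, ← a3, inv2_Xi a2]
    simp only [mul_add, add_mul, mul_smul_comm, smul_mul_assoc, mul_one, a5, transpose_mul,
      Matrix.mul_assoc, WithLp.ofLp_smul]
  · simp only [IsSymm, transpose_smul, transpose_mul, transpose_transpose, Matrix.mul_assoc,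
      (hs _ (h.trans_eq (h1 r h).symm)).eq]

end Vale.Agent.P366
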