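import Vale.Agent.P366.Alg

/-! Values of the jet on horizontal and vertical vectors; horizontal sums. -/

noncomputable section

open Matrix MeasureTheory Set Filter Topology

namespace Vale.Agent.P366

variable {n : ℕ}

section
variable {J : Fin 4 → Mn n} (hJ : QT J) {x : Fin n → ℝ} (hx : x ⬝ᵥ x ≠ 0)
include hJ hx

theorem jeth_ent (e : Fin 4) (i j : Fin n) :
    (J e *ᵥ (PP J x *ᵥ Pi.single i 1)) ⬝ᵥ (PP J x *ᵥ Pi.single j 1) = (J e * PP J x) j i := by
  rw [dotProduct_mulVec, ← mulVec_transpose, PP_symm, mulVec_mulVec, mulVec_mulVec,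
    ← J_PP hJ hx, Matrix.mul_assoc, PP_PP hJ hx]
  simp

theorem jeth_tr (e : Fin 4) : trace (J e * PP J x) = if e = 0 then (n : ℝ) - 4 else 0 := by
  split_ifs with h
  · rw [h, hJ.one, Matrix.one_mul, trace_PP hJ hx]
  · have h1 : sg e = -1 := by
      fin_cases e
      · exact absurd rfl h
      all_goals rfl
    have h2 := trace_transpose (J e * PP J x)
    rw [transpose_mul, PP_symm, hJ.tr, h1, Matrix.mul_smul, ← J_PP hJ hx, trace_smul,
      smul_eq_mul] at h2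
    linarith

theorem jeth_tr2 (e e' : Fin 4) : trace (J e * PP J x * (J e' * PP J x)) =
    if e = e' then sg e * ((n : ℝ) - 4) else 0 := by
  have h1 : J e * PP J x * (J e' * PP J x) =
      Jv J (qm (Pi.single e 1) (Pi.single e' 1)) * PP J x := by
    rw [← hJ.mul, Jv_single, Jv_single, Matrix.mul_assoc, ← Matrix.mul_assoc (PP J x),
      ← J_PP hJ hx, Matrix.mul_assoc, PP_PP hJ hx, Matrix.mul_assoc]
  rw [h1, Jv, Finset.sum_mul, trace_sum]
  simp only [Matrix.smul_mul, trace_smul, jeth_tr hJ hx, smul_eq_mul, mul_ite, mul_zero,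
    Finset.sum_ite_eq', Finset.mem_univ, if_true]
  fin_cases e <;> fin_cases e' <;> simp [qm, sg]

theorem hsum1 (e : Fin 4) :
    ∑ i : Fin n, (J e *ᵥ (PP J x *ᵥ Pi.single i 1)) ⬝ᵥ (PP J x *ᵥ Pi.single i 1)
      = if e = 0 then (n : ℝ) - 4 else 0 := by
  simp only [jeth_ent hJ hx]
  exact jeth_tr hJ hx e

theorem hsum0 : ∑ i : Fin n, (PP J x *ᵥ Pi.single i 1) ⬝ᵥ (PP J x *ᵥ Pi.single i 1)
    = (n : ℝ) - 4 := by
  have h := hsum1 hJ hx 0
  simpa only [hJ.one, one_mulVec, if_true] using h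

/-- The summand is the product of entries of `P J e P` and `P J e' P`. -/
theorem hsum2 (e e' : Fin 4) :
    ∑ i : Fin n, ∑ j : Fin n, ((J e *ᵥ (PP J x *ᵥ Pi.single i 1)) ⬝ᵥ (PP J x *ᵥ Pi.single j 1))
        * ((J e' *ᵥ (PP J x *ᵥ Pi.single i 1)) ⬝ᵥ (PP J x *ᵥ Pi.single j 1))
      = if e = e' then (n : ℝ) - 4 else 0 := by
  simp only [jeth_ent hJ hx]
  have h1 : (J e * PP J x)ᵀ = sg e • (J e * PP J x) := by
    rw [transpose_mul, PP_symm, hJ.tr, Matrix.mul_smul, J_PP hJ hx]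
  have h2 : trace ((J e * PP J x)ᵀ * (J e' * PP J x)) = if e = e' then (n : ℝ) - 4 else 0 := by
    rw [h1, Matrix.smul_mul, trace_smul, jeth_tr2 hJ hx, smul_eq_mul]
    split_ifs
    · fin_cases e <;> simp [sg]
    · exact mul_zero _
  exact h2

theorem hsum3 (e e' : Fin 4) :
    ∑ i : Fin n, ∑ j : Fin n, ((J e *ᵥ (PP J x *ᵥ Pi.single i 1)) ⬝ᵥ (PP J x *ᵥ Pi.single j 1))
        * ((J e' *ᵥ (PP J x *ᵥ Pi.single j 1)) ⬝ᵥ (PP J x *ᵥ Pi.single i 1))
      = if e = e' then sg e * ((n : ℝ) - 4) else 0 := by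
  simp only [jeth_ent hJ hx]
  rw [Finset.sum_comm]
  exact jeth_tr2 hJ hx e e'

end

end Vale.Agent.P366
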