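import Vale.Agent.P366.JetH

/-! Values of the jet on horizontal and vertical vectors; horizontal sums. -/

noncomputable section

open Matrix MeasureTheory Set Filter Topology

namespace Vale.Agent.P366

variable {n : ℕ}

theorem jetv_bil (A B : Matrix (Fin n) (Fin 4) ℝ) (D : M4) (u v : Fin n → ℝ) :
    u ⬝ᵥ ((A * D * Bᵀ) *ᵥ v) = bil D (Aᵀ *ᵥ u) (Bᵀ *ᵥ v) := by
  rw [bil, ← mulVec_mulVec, ← mulVec_mulVec, dotProduct_mulVec, mulVec_transpose A]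

theorem jetv_jet (J : Fin 4 → Mn n) (x : Fin n → ℝ) (F Fd : ℝ) (G Gd : M4) (w u v : Fin n → ℝ) :
    bil (jet J x F Fd G Gd w) u v = (x ⬝ᵥ w) / (x ⬝ᵥ x) * (Fd * (u ⬝ᵥ v) + (x ⬝ᵥ x)⁻¹ *
        bil (Gd - Fd • (1 : M4) - (2 : ℝ) • (G - F • (1 : M4))) ((Xi J x)ᵀ *ᵥ u) ((Xi J x)ᵀ *ᵥ v))
      + (x ⬝ᵥ x)⁻¹ * (bil (G - F • (1 : M4)) ((Xi J w)ᵀ *ᵥ u) ((Xi J x)ᵀ *ᵥ v)
        + bil (G - F • (1 : M4)) ((Xi J x)ᵀ *ᵥ u) ((Xi J w)ᵀ *ᵥ v)) := by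
  rw [bil, jet]
  simp only [add_mulVec, smul_mulVec, one_mulVec, dotProduct_add, dotProduct_smul, smul_eq_mul,
    jetv_bil]

theorem jetv_Xt (J : Fin 4 → Mn n) (w u : Fin n → ℝ) (e : Fin 4) :
    ((Xi J w)ᵀ *ᵥ u) e = (J e *ᵥ w) ⬝ᵥ u := rfl

theorem jetv_Xi_add (J : Fin 4 → Mn n) (w w' : Fin n → ℝ) : Xi J (w + w') = Xi J w + Xi J w' := by
  ext i a
  simp [Xi, mulVec_add]

theorem tri_jetT (J : Fin 4 → Mn n) (x : Fin n → ℝ) (F Fd : ℝ) (G Gd : M4) (w u v : Fin n → ℝ) :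
    tri (jetT J x F Fd G Gd) w u v = bil (jet J x F Fd G Gd w) u v := by
  have h : IsLinearMap ℝ fun w => bil (jet J x F Fd G Gd w) u v := by
    constructor
    · intro w w'
      simp only [jetv_jet]
      simp only [jetv_Xi_add, transpose_add, add_mulVec, bil, mulVec_add,
        dotProduct_add, add_dotProduct]
      ring
    · intro c w
      simp only [jetv_jet]
      simp only [Xi_smul, transpose_smul, smul_mulVec, bil, mulVec_smul,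
        dotProduct_smul, smul_dotProduct, smul_eq_mul]
      ring
  have h1 := (IsLinearMap.mk' _ h).pi_apply_eq_sum_univ w
  simp only [IsLinearMap.mk'_apply, smul_eq_mul] at h1
  rw [h1, tri]
  refine Finset.sum_congr rfl fun k _ => ?_
  have : (Pi.single k 1 : Fin n → ℝ) = fun j => if k = j then 1 else 0 := by
    funext j
    simp [Pi.single_apply, eq_comm]
  rw [jetT, this]

theorem jetv_symm {G : M4} (hG : G.IsSymm) (F : ℝ) : (G - F • (1 : M4))ᵀ = G - F • (1 : M4) := by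
  rw [transpose_sub, transpose_smul, transpose_one, hG.eq]

theorem jetT_symm (J : Fin 4 → Mn n) (x : Fin n → ℝ) (F Fd : ℝ) {G Gd : M4} (hG : G.IsSymm)
    (hGd : Gd.IsSymm) (k : Fin n) : (jetT J x F Fd G Gd k).IsSymm := by
  have h1 := jetv_symm hG F
  have h2 : (Gd - Fd • (1 : M4) - (2 : ℝ) • (G - F • (1 : M4)))ᵀ =
      Gd - Fd • (1 : M4) - (2 : ℝ) • (G - F • (1 : M4)) := by
    rw [transpose_sub, transpose_smul, h1, jetv_symm hGd]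
  rw [IsSymm, jetT, jet]
  simp only [transpose_add, transpose_smul, transpose_one, transpose_mul, transpose_transpose,
    h1, h2, Matrix.mul_assoc]
  rw [add_comm (Xi J x * _)]

theorem jetv_bil_symm {D : M4} (hD : Dᵀ = D) (u v : Fin 4 → ℝ) : bil D u v = bil D v u := by
  rw [bil, bil, dotProduct_mulVec, ← mulVec_transpose, hD, dotProduct_comm]

theorem jetv_qm (y z p : Fin 4 → ℝ) :
    (fun e => qm (Pi.single e 1) z ⬝ᵥ p) ⬝ᵥ y = p ⬝ᵥ qm y z := by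
  simp [dotProduct, Fin.sum_univ_four, qm]
  ring

section
variable {J : Fin 4 → Mn n} (hJ : QT J) {x : Fin n → ℝ} (hx : x ⬝ᵥ x ≠ 0) (F Fd : ℝ) {G : M4}
  (Gd : M4) (hG : G.IsSymm) (a b c : Fin n → ℝ) (z p q : Fin 4 → ℝ)
include hJ hx

theorem jetv_xh : (Xi J x)ᵀ *ᵥ (PP J x *ᵥ a) = 0 := by
  rw [mulVec_mulVec, Xt_PP hJ hx, zero_mulVec]

omit hx in
theorem jetv_xv : (Xi J x)ᵀ *ᵥ (Xi J x *ᵥ z) = (x ⬝ᵥ x) • z := by
  rw [mulVec_mulVec, XtX hJ, smul_mulVec, one_mulVec]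

theorem jetv_vh : (Xi J x *ᵥ z) ⬝ᵥ (PP J x *ᵥ a) = 0 := by
  rw [dotProduct_comm, dotProduct_mulVec, ← mulVec_transpose, jetv_xh hJ hx, zero_dotProduct]

omit hx in
theorem jetv_vv : (Xi J x *ᵥ p) ⬝ᵥ (Xi J x *ᵥ q) = (x ⬝ᵥ x) * (p ⬝ᵥ q) := by
  rw [dotProduct_mulVec, ← mulVec_transpose, jetv_xv hJ, smul_dotProduct, smul_eq_mul]

theorem jetv_dh : x ⬝ᵥ (PP J x *ᵥ a) = 0 := by
  have h := jetv_vh hJ hx a (Pi.single 0 1)
  rwa [Xi_e0 hJ] at h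

omit hx in
theorem jetv_dv : x ⬝ᵥ (Xi J x *ᵥ z) = (x ⬝ᵥ x) * z 0 := by
  have h := jetv_vv hJ (x := x) (Pi.single 0 1) z
  rwa [Xi_e0 hJ, single_one_dotProduct] at h

theorem jetv_hv : (Xi J (PP J x *ᵥ a))ᵀ *ᵥ (Xi J x *ᵥ z) = 0 := by
  funext e
  rw [jetv_Xt, mulVec_mulVec, J_PP hJ hx, ← mulVec_mulVec, dotProduct_comm, jetv_vh hJ hx]
  rfl

theorem jetv_vh' : (Xi J (Xi J x *ᵥ z))ᵀ *ᵥ (PP J x *ᵥ a) = 0 := by
  funext e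
  rw [jetv_Xt, J_mul_Xi hJ, jetv_vh hJ hx]
  rfl

omit hx in
theorem jetv_vv' : (Xi J (Xi J x *ᵥ z))ᵀ *ᵥ (Xi J x *ᵥ p) =
    (x ⬝ᵥ x) • fun e => qm (Pi.single e 1) z ⬝ᵥ p := by
  funext e
  rw [jetv_Xt, J_mul_Xi hJ, jetv_vv hJ]
  rfl

theorem tri_hhh :
    tri (jetT J x F Fd G Gd) (PP J x *ᵥ a) (PP J x *ᵥ b) (PP J x *ᵥ c) = 0 := by
  rw [tri_jetT, jetv_jet, jetv_dh hJ hx, jetv_xh hJ hx, jetv_xh hJ hx]
  simp [bil]

theorem tri_hhv : tri (jetT J x F Fd G Gd) (PP J x *ᵥ a) (PP J x *ᵥ b) (Xi J x *ᵥ z)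
    = ∑ e, ((G - F • (1 : M4)) *ᵥ z) e * ((J e *ᵥ (PP J x *ᵥ a)) ⬝ᵥ (PP J x *ᵥ b)) := by
  rw [tri_jetT, jetv_jet, jetv_dh hJ hx, jetv_xh hJ hx, jetv_xv hJ]
  simp only [bil, zero_div, zero_mul, zero_dotProduct, zero_add, add_zero, mulVec_smul,
    dotProduct_smul, smul_eq_mul]
  rw [inv_mul_cancel_left₀ hx, dotProduct_comm]
  rfl

include hG in
theorem tri_hvh : tri (jetT J x F Fd G Gd) (PP J x *ᵥ a) (Xi J x *ᵥ z) (PP J x *ᵥ b)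
    = ∑ e, ((G - F • (1 : M4)) *ᵥ z) e * ((J e *ᵥ (PP J x *ᵥ a)) ⬝ᵥ (PP J x *ᵥ b)) := by
  rw [tri_jetT, jetv_jet, jetv_dh hJ hx, jetv_xh hJ hx, jetv_xv hJ,
    jetv_bil_symm (jetv_symm hG F) ((x ⬝ᵥ x) • z)]
  simp only [bil, zero_div, zero_mul, mulVec_zero, dotProduct_zero, zero_add,
    mulVec_smul, dotProduct_smul, smul_eq_mul]
  rw [inv_mul_cancel_left₀ hx, dotProduct_comm]
  rfl

theorem tri_hvv :
    tri (jetT J x F Fd G Gd) (PP J x *ᵥ a) (Xi J x *ᵥ p) (Xi J x *ᵥ q) = 0 := by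
  rw [tri_jetT, jetv_jet, jetv_dh hJ hx, jetv_hv hJ hx, jetv_hv hJ hx]
  simp [bil]

theorem tri_vhh : tri (jetT J x F Fd G Gd) (Xi J x *ᵥ z) (PP J x *ᵥ a) (PP J x *ᵥ b)
    = z 0 * Fd * ((PP J x *ᵥ a) ⬝ᵥ (PP J x *ᵥ b)) := by
  rw [tri_jetT, jetv_jet, jetv_dv hJ, jetv_xh hJ hx, jetv_xh hJ hx, mul_div_cancel_left₀ _ hx]
  simp only [bil, zero_dotProduct, mulVec_zero, dotProduct_zero, mul_zero, add_zero]
  ring

theorem tri_vhv :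
    tri (jetT J x F Fd G Gd) (Xi J x *ᵥ z) (PP J x *ᵥ a) (Xi J x *ᵥ q) = 0 := by
  rw [tri_jetT, jetv_jet, jetv_xh hJ hx, jetv_vh' hJ hx, dotProduct_comm (PP J x *ᵥ a),
    jetv_vh hJ hx]
  simp [bil]

theorem tri_vvh :
    tri (jetT J x F Fd G Gd) (Xi J x *ᵥ z) (Xi J x *ᵥ p) (PP J x *ᵥ a) = 0 := by
  rw [tri_jetT, jetv_jet, jetv_xh hJ hx, jetv_vh' hJ hx, jetv_vh hJ hx]
  simp [bil]

include hG in
theorem tri_vvv : tri (jetT J x F Fd G Gd) (Xi J x *ᵥ z) (Xi J x *ᵥ p) (Xi J x *ᵥ q)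
    = (x ⬝ᵥ x) * tv F G Gd z p q := by
  rw [tri_jetT, jetv_jet, jetv_dv hJ, jetv_xv hJ, jetv_xv hJ, jetv_vv hJ, jetv_vv' hJ,
    jetv_vv' hJ, mul_div_cancel_left₀ _ hx, jetv_bil_symm (jetv_symm hG F) ((x ⬝ᵥ x) • p), tv]
  have e : bil (Gd - Fd • (1 : M4) - (2 : ℝ) • (G - F • (1 : M4))) ((x ⬝ᵥ x) • p) ((x ⬝ᵥ x) • q) =
      (x ⬝ᵥ x) * ((x ⬝ᵥ x) * (bil (Gd - (2 : ℝ) • (G - F • (1 : M4))) p q - Fd * (p ⬝ᵥ q))) := by
    rw [sub_right_comm]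
    generalize Gd - (2 : ℝ) • (G - F • (1 : M4)) = M
    simp only [bil, mulVec_smul, dotProduct_smul, smul_dotProduct, smul_eq_mul, sub_mulVec,
      smul_mulVec, one_mulVec, dotProduct_sub]
    ring
  rw [e]
  generalize G - F • (1 : M4) = D
  simp only [bil, mulVec_smul, dotProduct_smul, smul_dotProduct, smul_eq_mul, jetv_qm]
  field_simp
  ring

end

end Vale.Agent.P366
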