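import Vale.Agent.P366.Mono0

/-! Monotonicity of the mass function in the untrapped region. -/

noncomputable section

open Matrix MeasureTheory Set Filter Topology Asymptotics

namespace Vale.Agent.P366

variable {n : ℕ}

theorem mono_posDef {J : Fin 4 → Mn n} (hJ : QT J) (hn : 4 ≤ n) {x : Fin n → ℝ}
    (hx : 0 < x ⬝ᵥ x) {F : ℝ} (hF : 0 < F) {G : M4} (hG : G.PosDef) : (ans J x F G).PosDef := by
  have h1 : (PP J x).PosSemidef := by
    have := posSemidef_conjTranspose_mul_self (PP J x)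
    rwa [conjTranspose_eq_transpose_of_trivial, PP_symm, PP_PP hJ hx.ne'] at this
  have h2 : (Xi J x * G * (Xi J x)ᵀ).PosSemidef := by
    have := hG.posSemidef.mul_mul_conjTranspose_same (Xi J x)
    rwa [conjTranspose_eq_transpose_of_trivial] at this
  have h3 : (ans J x F G).PosSemidef := (h1.smul hF.le).add (h2.smul (inv_pos.mpr hx).le)
  rw [h3.posDef_iff_det_ne_zero, ans_det hJ hn hx.ne' hF.ne']
  exact mul_ne_zero (pow_pos hF _).ne' hG.det_pos.ne'

theorem mono_rd_rot {O : M4} (hO : Rot4 O) {J : Fin 4 → Mn n} {r₁ : ℝ} {g K : Fld n}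
    {F FK : ℝ → ℝ} {G L : ℝ → M4} (hg : Rad J r₁ 2 g F G) (hK : Rad J r₁ 1 K FK L)
    (h : RD r₁ F G FK L) :
    RD r₁ F (fun s => O * G s * Oᵀ) FK (fun s => O * L s * Oᵀ) where
  pos := h.pos
  cF := h.cF
  cG := (rad_rot hO hg).cG
  cFK := h.cFK
  cL := (rad_rot hO hK).cG
  Fpos := h.Fpos
  Gpos := fun r hr => by
    have h2 := (h.Gpos r hr).posSemidef.mul_mul_conjTranspose_same O
    rw [conjTranspose_eq_transpose_of_trivial] at h2
    rw [h2.posDef_iff_det_ne_zero, det_mul, det_mul]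
    have h1 : Oᵀ.det * O.det = 1 := by rw [← det_mul, hO.orth, det_one]
    have h3 := (h.Gpos r hr).det_pos
    intro h0
    have : Oᵀ.det * O.det * (G r).det = 0 := by rw [← h0]; ring
    rw [h1] at this
    linarith
  Lsym := (rad_rot hO hK).sym

section
variable {J : Fin 4 → Mn n} (hJ : QT J) (hn : 4 < n) {r₁ : ℝ} {g K : Fld n} {F FK : ℝ → ℝ}
  {G L : ℝ → M4} (hg : Rad J r₁ 2 g F G) (hK : Rad J r₁ 1 K FK L) (h : RD r₁ F G FK L)
  {x : Euc n} (hx : r₁ < ‖x‖)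
include hJ hn hg hK h hx

theorem mono_dg {u : ℝ} {b y : Fin 3 → ℝ} (hu : 0 < u) (hy : ∀ i, 0 < y i)
    (hG : G ‖x‖ = Gdg u b y) (hdec : curNorm g K x ≤ mu g K x)
    (hp : 0 < Tp ((n : ℝ) - 4) F G FK L ‖x‖) (hm : 0 < Tm ((n : ℝ) - 4) F G FK L ‖x‖)
    (hM : 0 < Mf n F G FK L ‖x‖) : 0 ≤ deriv (Mf n F G FK L) ‖x‖ := by
  have hn4 : (4 : ℝ) < n := by exact_mod_cast hn
  have hm0 : (0 : ℝ) < (n : ℝ) - 4 := by linarith
  have hr : 0 < ‖x‖ := lt_trans h.pos hx
  have hF := h.Fpos _ hx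
  have hGp := h.Gpos _ hx
  have hxx : x.ofLp ⬝ᵥ x.ofLp ≠ 0 := by rw [dot_self_eq]; positivity
  have hGd : (dotM G ‖x‖).IsSymm := dotM_symm hg.sym hx
  have huf : uf G ‖x‖ = u := by simp only [uf]; rw [hG, uu_Gdg hu hy]
  have hs : 0 < √u := Real.sqrt_pos.mpr hu
  have hus : u = √u ^ 2 := (Real.sq_sqrt hu.le).symm
  set m : ℝ := (n : ℝ) - 4 with hmdef
  set r : ℝ := ‖x‖ with hrdef
  set hv := hf m F G r with hhv
  set κ := kf m F G FK L r with hκv
  have hκ : |κ| < √u * hv := by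
    simp only [Tp, Tm, huf] at hp hm
    rw [abs_lt]; constructor <;> linarith
  have hh0 : 0 < hv := by
    have := lt_of_le_of_lt (abs_nonneg κ) hκ
    exact (pos_iff_pos_of_mul_pos this).mp hs
  have hz : (G r)⁻¹ = ∑ c, ddg u y c • vecMulVec (zdg b c) (zdg b c) := by
    rw [hG, Gdg_inv hu hy, Gdgi_frame]
  obtain ⟨X2, hX2, hN⟩ := normSq_Gdg (b := b) hu hy m (F r) (FK r) (h.Lsym _ hx)
  have hnorm : normSqK g K x = nn (G r) (L r) ^ 2 + 2 * X2 + KT2 m (F r) y (FK r) (L r) := by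
    simp only [normSqK]
    rw [hg.eq x hx, hK.eq x hx, normSq_ans hJ hxx hF hGp hz, hG]
    exact hN
  have htr : r * trK g K x = κ + r * nn (G r) (L r) := by
    rw [trK_eq hJ hg hK h hx, hκv]; simp only [kf, kk]; ring
  have hsc := scal_dg hJ hn hg h hx hu hy hG
  have hcu := cur_dg hJ hn hg hK h hx hu hy hG
  have hgi : ((g x)⁻¹).PosDef := by
    rw [hg.eq x hx]
    exact (mono_posDef hJ hn.le (by rw [dot_self_eq]; positivity) hF hGp).inv
  have hdec' : |r ^ 2 * ∑ j, cur g K j x * nu g j x| ≤ r ^ 2 * mu g K x := by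
    rw [abs_mul, abs_of_pos (by positivity : 0 < r ^ 2)]
    refine mul_le_mul_of_nonneg_left (le_trans ?_ hdec) (by positivity)
    exact cs_nu hgi (fun j => cur g K j x) x.ofLp
  have hkey := key_alg (u := u) (s := √u) (h := hv) (hd := dot (hf m F G) r)
    (udd := ud (G r) (dotM G r)) (κ := κ) (κd := dot (kf m F G FK L) r)
    (R := RS m (F r) y) (A := A2 m (F r) (dot F r) b y (dotM G r))
    (C := r * AK m (F r) (dot F r) b y (dotM G r) (FK r) (L r))
    (T := r ^ 2 * KT2 m (F r) y (FK r) (L r)) (N := r * nn (G r) (L r)) (X := r ^ 2 * X2)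
    (sc := r ^ 2 * scal g x) (mu := r ^ 2 * mu g K x)
    (Jn := r ^ 2 * ∑ j, cur g K j x * nu g j x) hs hus hκ hsc
    (by rw [← htr]; simp only [mu]; rw [hnorm]; ring) (by positivity) hcu hdec'
    (by
      have := AK_cs (F := F r) (Fd := dot F r) (b := b) hm0 hy (dotM G r) (FK r) (L r) (r * hv) κ
      nlinarith [this])
  have hW : Wf m F G FK L r = u * hv ^ 2 - κ ^ 2 := by simp only [Wf, huf, hhv, hκv]
  have hWpos : 0 < Wf m F G FK L r := by
    rw [← Tp_mul_Tm h hx]; exact mul_pos hp hm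
  have hH : Hf m F G r = H0d m (F r) y := by simp only [Hf]; rw [hG, H0_Gdg hu hy]
  have hHpos : 0 < Hf m F G r := Hf_pos h hx hm0
  have hapos : 0 < af n F G r ^ (((n : ℝ) - 2) / ((n : ℝ) - 1)) :=
    Real.rpow_pos_of_pos (af_pos h hx) _
  have hω : Wf m F G FK L r / Hf m F G r ^ 2 < 1 := by
    have := (pos_iff_pos_of_mul_pos hM).mp hapos
    linarith
  have hma := mono_alg (m := m) (h := hv) (W := Wf m F G FK L r)
    (Wd := dot (Wf m F G FK L) r) (H := Hf m F G r) (Hd := dot (Hf m F G) r)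
    (R := RS m (F r) y) (A := A2 m (F r) (dot F r) b y (dotM G r)) (aa := aH (F r) (dot F r))
    (gh := grH (F r) y) (a := fun i => Ah b y (dotM G r) i i / y i) (gr := grY m (F r) y)
    hm0 hh0 hWpos hHpos hω
    (by rw [(dot_Wf h hx m).2, huf, hW]; exact hkey)
    (A2_ge hy _) (by rw [hH]; exact barrier hm0 hF hy) (by rw [hH]; exact gr_sum hF hy)
    (by rw [dot_Hf h hx m hu hy hG, hH])
  have hd := (dot_Mf h hx hn).2
  have e1 : (m + 2) / (m + 3) = ((n : ℝ) - 2) / ((n : ℝ) - 1) := by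
    rw [hmdef]; congr 1 <;> ring
  rw [e1] at hma
  have h2 : 0 ≤ dot (Mf n F G FK L) r := by rw [hd]; exact mul_nonneg hapos.le hma
  simp only [dot] at h2
  exact (mul_nonneg_iff_of_pos_left hr).mp h2

theorem mono (hdec : curNorm g K x ≤ mu g K x)
    (hp : 0 < Tp ((n : ℝ) - 4) F G FK L ‖x‖) (hm : 0 < Tm ((n : ℝ) - 4) F G FK L ‖x‖)
    (hM : 0 < Mf n F G FK L ‖x‖) : 0 ≤ deriv (Mf n F G FK L) ‖x‖ := by
  obtain ⟨O, hO, hq, h12, h13, h23⟩ := exists_rot (G ‖x‖) (hg.sym _ hx)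
  have h' := mono_rd_rot hO hg hK h
  obtain ⟨u, b, y, hu, hy, hG⟩ := exists_Gdg (h'.Gpos _ hx) h12 h13 h23
  have hdiff : ∀ s, r₁ < s → ∀ a c, DifferentiableAt ℝ (fun t => G t a c) s := fun s hs a c =>
    ((h.cG a c).contDiffAt (Ioi_mem_nhds hs)).differentiableAt (by norm_num)
  have he := fns_rot (n := n) hO F FK L (hdiff _ hx)
  have := mono_dg (qt_rot hJ hO hq) hn (rad_rot hO hg) (rad_rot hO hK) h' hx hu hy hG hdec
    (by rw [he.2.1]; exact hp) (by rw [he.2.2]; exact hm) (by rw [he.1]; exact hM)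
  have hev : Mf n F (fun s => O * G s * Oᵀ) FK (fun s => O * L s * Oᵀ) =ᶠ[𝓝 ‖x‖]
      Mf n F G FK L := by
    filter_upwards [Ioi_mem_nhds hx] with s hs
    exact (fns_rot (n := n) hO F FK L (hdiff s hs)).1
  rwa [hev.deriv_eq] at this

end

end Vale.Agent.P366
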