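import Vale.Agent.P366.Base

/-! The one-dimensional argument. -/

noncomputable section

open Matrix MeasureTheory Set Filter Topology Asymptotics

namespace Vale.Agent.P366

variable {n : ℕ}

theorem ode_bar {M : ℝ → ℝ} {R S : ℝ} (hRS : R ≤ S) (hM : ∀ r ∈ Icc R S, DifferentiableAt ℝ M r)
    (h0 : 0 < M R) (h : ∀ r ∈ Ico R S, 0 < M r → 0 ≤ deriv M r) : M R ≤ M S := by
  refine le_of_forall_pos_le_add fun ε hε => ?_
  obtain ⟨η, hη, h1, h2⟩ : ∃ η > 0, η * (S - R) ≤ ε ∧ η * (S - R) < M R := by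
    have hp : 0 < S - R + 1 := by linarith
    refine ⟨min ε (M R) / (S - R + 1), div_pos (lt_min hε h0) hp, ?_, ?_⟩
    · rw [div_mul_eq_mul_div, div_le_iff₀ hp]
      nlinarith [min_le_left ε (M R), lt_min hε h0]
    · rw [div_mul_eq_mul_div, div_lt_iff₀ hp]
      nlinarith [min_le_right ε (M R), lt_min hε h0]
  have k := image_le_of_deriv_right_lt_deriv_boundary (f := fun r => -M r)
    (f' := fun r => -deriv M r) (a := R) (b := S)
    (fun r hr => (hM r hr).continuousAt.neg.continuousWithinAt)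
    (fun r hr => (hM r (Ico_subset_Icc_self hr)).hasDerivAt.neg.hasDerivWithinAt)
    (B := fun r => -M R + η * (r - R)) (B' := fun _ => η) (by simp)
    (fun r => by simpa using (((hasDerivAt_id r).sub_const R).const_mul η).const_add (-M R))
    (fun r hr e => by
      have a : η * (r - R) ≤ η * (S - R) := mul_le_mul_of_nonneg_left (by linarith [hr.2]) hη.le
      have b := h r hr (by linarith)
      linarith) (right_mem_Icc.2 hRS)
  linarith

/-- Let `R` be the supremum of the `r ≥ r₀` with `Tp r ≤ 0 ∨ Tm r ≤ 0`. Then `Tp R * Tm R = 0`,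
`M R = a R > 0`, and on `[R, S]` the barrier lemma
(`image_le_of_deriv_right_lt_deriv_boundary` for `-M` against `-M R + η (1 + r - R)`; treat the
point `R` itself by starting from `R' > R` and continuity) gives `M R ≤ M S`. -/
theorem ode_main {M a Tp Tm : ℝ → ℝ} {r₁ r₀ E2 : ℝ} (h10 : r₁ < r₀)
    (hp : ∀ r, r₁ < r → ContinuousAt Tp r) (hm : ∀ r, r₁ < r → ContinuousAt Tm r)
    (hM : ∀ r, r₁ < r → DifferentiableAt ℝ M r) (htrap : Tp r₀ ≤ 0)
    (hev : ∀ᶠ r in atTop, 0 < Tp r ∧ 0 < Tm r)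
    (hbd : ∀ r, r₁ < r → Tp r * Tm r = 0 → M r = a r) (ha : ∀ r, r₁ < r → 0 < a r)
    (hmono : ∀ r, r₀ ≤ r → 0 < Tp r → 0 < Tm r → 0 < M r → 0 ≤ deriv M r)
    (hlim : Tendsto M atTop (𝓝 E2)) : ∃ R, r₀ ≤ R ∧ a R ≤ E2 := by
  obtain ⟨b, hb⟩ := eventually_atTop.1 hev
  obtain ⟨Z, hZ⟩ : ∃ Z : Set ℝ, Z = {r | r₀ ≤ r ∧ (Tp r ≤ 0 ∨ Tm r ≤ 0)} := ⟨_, rfl⟩
  have hne : Z.Nonempty := ⟨r₀, hZ ▸ ⟨le_rfl, Or.inl htrap⟩⟩
  have hbdd : BddAbove Z := ⟨b, fun r hr => by
    rw [hZ] at hr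
    by_contra h
    have := hb r (not_le.1 h).le
    rcases hr.2 with h' | h' <;> linarith [this.1, this.2]⟩
  obtain ⟨R, hR⟩ : ∃ R, R = sSup Z := ⟨_, rfl⟩
  have h0 : r₀ ≤ R := hR ▸ le_csSup hbdd (hZ ▸ ⟨le_rfl, Or.inl htrap⟩)
  have h1 : r₁ < R := h10.trans_le h0
  have hpos : ∀ r, R < r → 0 < Tp r ∧ 0 < Tm r := fun r hr => by
    by_contra h
    have : r ∈ Z := hZ ▸ ⟨h0.trans hr.le, by
      rcases not_and_or.1 h with h | h
      · exact Or.inl (not_lt.1 h)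
      · exact Or.inr (not_lt.1 h)⟩
    exact absurd (hR ▸ le_csSup hbdd this) (not_le.2 hr)
  have hge : ∀ {T : ℝ → ℝ}, ContinuousAt T R → (∀ r, R < r → 0 < T r) → 0 ≤ T R := fun hT h =>
    ge_of_tendsto (hT.tendsto.mono_left (nhdsWithin_le_nhds (s := Ioi R)))
      (eventually_nhdsWithin_of_forall fun r hr => (h r hr).le)
  have p0 := hge (hp R h1) fun r hr => (hpos r hr).1
  have m0 := hge (hm R h1) fun r hr => (hpos r hr).2
  have hz : Tp R * Tm R = 0 := by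
    by_contra h
    have a : 0 < Tp R := lt_of_le_of_ne p0 (left_ne_zero_of_mul h).symm
    have c : 0 < Tm R := lt_of_le_of_ne m0 (right_ne_zero_of_mul h).symm
    have d := ((hp R h1).eventually (lt_mem_nhds a)).and ((hm R h1).eventually (lt_mem_nhds c))
    have e : R ∈ closure Z := hR ▸ csSup_mem_closure hne hbdd
    obtain ⟨r, r1, r2⟩ := mem_closure_iff_nhds.1 e _ d
    rw [hZ] at r2
    rcases r2.2 with h' | h' <;> linarith [r1.1, r1.2]
  have hMR : 0 < M R := hbd R h1 hz ▸ ha R h1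
  refine ⟨R, h0, hbd R h1 hz ▸ ge_of_tendsto hlim ?_⟩
  filter_upwards [eventually_gt_atTop R] with S hS
  have hc := (hM R h1).continuousAt
  refine le_of_tendsto (hc.tendsto.mono_left (nhdsWithin_le_nhds (s := Ioi R))) ?_
  filter_upwards [Ioo_mem_nhdsGT hS, mem_nhdsWithin_of_mem_nhds (hc.eventually (lt_mem_nhds hMR))]
    with R' a c
  exact ode_bar a.2.le (fun r hr => hM r (h1.trans (a.1.trans_le hr.1))) c fun r hr =>
    hmono r (h0.trans (a.1.le.trans hr.1)) (hpos r (a.1.trans_le hr.1)).1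
      (hpos r (a.1.trans_le hr.1)).2

end Vale.Agent.P366
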