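import Vale.Agent.P366.Inv2
import Vale.Agent.P366.Geo2
import Vale.Agent.P366.Mono
import Vale.Agent.P366.Asy2
import Vale.Agent.P366.Ode

/-! Assembly. -/

noncomputable section

open Matrix MeasureTheory Set Filter Topology

namespace Vale.Agent.P366

variable {n : ℕ}

theorem exists_norm (hn : 0 < n) {r : ℝ} (hr : 0 ≤ r) : ∃ x : Euc n, ‖x‖ = r :=
  ⟨EuclideanSpace.single ⟨0, hn⟩ r, by simp [abs_of_nonneg hr]⟩

theorem main_rad {J : Fin 4 → Mn n} (hJ : QT J) (hn : 4 < n) {r₁ r₀ : ℝ} (hr : 0 < r₁)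
    (h10 : r₁ < r₀) {g K : Fld n} {F FK : ℝ → ℝ} {G L : ℝ → M4} (hg : Rad J r₁ 2 g F G)
    (hK : Rad J r₁ 1 K FK L) (hpos : ∀ x, r₁ < ‖x‖ → (g x).PosDef) {q C R₀ : ℝ}
    (hq : ((n : ℝ) - 2) / 2 < q)
    (hdec : ∀ x : Euc n, R₀ < ‖x‖ → ∀ i j k, |g x i j - (1 : Mn n) i j| ≤ C * ‖x‖ ^ (-q) ∧
      |pd (fun y => g y i j) k x| ≤ C * ‖x‖ ^ (-q - 1) ∧ |K x i j| ≤ C * ‖x‖ ^ (-q - 1))
    (hDEC : ∀ x, r₀ ≤ ‖x‖ → curNorm g K x ≤ mu g K x)
    (htrap : ∀ x, ‖x‖ = r₀ → thetaP g K x ≤ 0) {En : ℝ} {P : Euc n}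
    (hE : Tendsto (enFlux g) atTop (𝓝 En))
    (hP : ∀ i, Tendsto (momFlux g K i) atTop (𝓝 (P i))) :
    P = 0 ∧ 0 < En ∧ ∃ R, r₀ ≤ R ∧
      (1 / 2) * (area g R / omega n) ^ (((n : ℝ) - 2) / ((n : ℝ) - 1)) ≤ En := by
  have h := rd_of_rad hJ hn hr hg hK hpos
  have hn0 : 0 < n := by omega
  have hn4 : (4 : ℝ) < n := by exact_mod_cast hn
  have hm : (0 : ℝ) < (n : ℝ) - 4 := by linarith
  have hD := dec_of hJ hn hr hg hK hdec
  have hε : Tendsto (fun r : ℝ => r ^ (-q)) atTop (𝓝 0) :=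
    tendsto_rpow_neg_atTop (by linarith)
  have hP0 : P = 0 := by
    ext i
    have h0 : Tendsto (momFlux g K i) atTop (𝓝 0) := by
      refine tendsto_const_nhds.congr' ?_
      filter_upwards [eventually_gt_atTop r₁] with R hR
      exact (momFlux_eq hJ hn hg hK h hR i).symm
    simpa using tendsto_nhds_unique (hP i) h0
  have hlim : Tendsto (Mf n F G FK L) atTop (𝓝 (2 * En)) := by
    have h1 := (Mf_asym hn hq hD).add (hE.const_mul 2)
    rw [zero_add] at h1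
    refine h1.congr' ?_
    filter_upwards [eventually_gt_atTop r₁] with R hR
    rw [enFlux_eq hJ hn hg h hR]
    have : (n : ℝ) - 1 ≠ 0 := by linarith
    field_simp
    ring
  obtain ⟨R, hR, hle⟩ := ode_main (M := Mf n F G FK L)
    (a := fun r => af n F G r ^ (((n : ℝ) - 2) / ((n : ℝ) - 1)))
    (Tp := Tp ((n : ℝ) - 4) F G FK L) (Tm := Tm ((n : ℝ) - 4) F G FK L) h10
    (fun r hr => (cont_T h hr _).1) (fun r hr => (cont_T h hr _).2)
    (fun r hr => (dot_Mf h hr hn).1)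
    (by
      obtain ⟨x, hx⟩ := exists_norm hn0 (r := r₀) (by linarith)
      have h1 := htrap x hx
      rw [thetaP_eq hJ hg hK h (by rw [hx]; exact h10), hx] at h1
      have h2 : 0 < r₀ := by linarith
      by_contra hc
      exact absurd h1 (not_le.mpr (div_pos (not_le.mp hc) h2)))
    (ev_untrapped hε hD _ hm)
    (fun r hr h0 => by
      rw [Tp_mul_Tm h hr] at h0
      simp [Mf, h0])
    (fun r hr => Real.rpow_pos_of_pos (af_pos h hr) _)
    (fun r hr hp hm' hM => by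
      obtain ⟨x, rfl⟩ := exists_norm hn0 (r := r) (by linarith)
      exact mono hJ hn hg hK h (by linarith) (hDEC x hr) hp hm' hM)
    hlim
  have hR1 : r₁ < R := by linarith
  have hpos' := Real.rpow_pos_of_pos (af_pos (n := n) h hR1) (((n : ℝ) - 2) / ((n : ℝ) - 1))
  refine ⟨hP0, by linarith, R, hR, ?_⟩
  rw [area_eq hJ hn hg h hR1]
  linarith

end Vale.Agent.P366
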