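import Vale.Agent.P366.Base

/-! Rotating the quaternionic structure. -/

noncomputable section

open Matrix MeasureTheory Set Filter Topology Asymptotics

namespace Vale.Agent.P366

variable {n : ℕ}

theorem rot0_diag (Y : Matrix (Fin 3) (Fin 3) ℝ) (hY : Y.IsSymm) :
    ∃ R : Matrix (Fin 3) (Fin 3) ℝ, Rᵀ * R = 1 ∧ ∀ i j, i ≠ j → (R * Y * Rᵀ) i j = 0 := by
  have hH : Y.IsHermitian := by
    rw [Matrix.IsHermitian, conjTranspose_eq_transpose_of_trivial]
    exact hY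
  have h1 := hH.conjStarAlgAut_star_eigenvectorUnitary
  rw [Unitary.conjStarAlgAut_star_apply, star_eq_conjTranspose,
    conjTranspose_eq_transpose_of_trivial] at h1
  have h2 := (Unitary.mem_iff.1 hH.eigenvectorUnitary.2).2
  rw [star_eq_conjTranspose, conjTranspose_eq_transpose_of_trivial] at h2
  refine ⟨(hH.eigenvectorUnitary : Matrix (Fin 3) (Fin 3) ℝ)ᵀ, ?_, fun i j hij => ?_⟩
  · rw [transpose_transpose]
    exact h2
  · rw [transpose_transpose, h1, diagonal_apply_ne _ hij]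

theorem rot0_det (Y : Matrix (Fin 3) (Fin 3) ℝ) (hY : Y.IsSymm) :
    ∃ R : Matrix (Fin 3) (Fin 3) ℝ, Rᵀ * R = 1 ∧ R.det = 1 ∧
      ∀ i j, i ≠ j → (R * Y * Rᵀ) i j = 0 := by
  obtain ⟨R, h1, h2⟩ := rot0_diag Y hY
  have h3 : R.det * R.det = 1 := by
    have h := congrArg Matrix.det h1
    rwa [det_mul, det_transpose, det_one] at h
  rcases mul_self_eq_one_iff.1 h3 with h | h
  · exact ⟨R, h1, h, h2⟩
  · refine ⟨-R, ?_, ?_, fun i j hij => ?_⟩
    · rw [transpose_neg, neg_mul_neg, h1]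
    · rw [det_neg, h]
      norm_num
    · rw [transpose_neg, neg_mul, neg_mul_neg]
      exact h2 i j hij

/-- Spectral theorem for the lower `3 × 3` block, with the sign of the determinant fixed
(`-O` has the opposite determinant); for `det O = 1` the rows satisfy the cross product rules
(`Matrix.adjugate_fin_three`, `adjugate O = Oᵀ`), so `qm (p ᵥ* O) (z ᵥ* O) = qm p z ᵥ* O`. -/
theorem exists_rot (G : M4) (hG : G.IsSymm) :
    ∃ O : M4, Rot4 O ∧ (∀ p z, qm (p ᵥ* O) (z ᵥ* O) = qm p z ᵥ* O) ∧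
      (O * G * Oᵀ) 1 2 = 0 ∧ (O * G * Oᵀ) 1 3 = 0 ∧ (O * G * Oᵀ) 2 3 = 0 := by
  obtain ⟨R, h1, h2, h3⟩ := rot0_det (G.submatrix Fin.succ Fin.succ) (hG.submatrix _)
  have h4 : R * Rᵀ = 1 := mul_eq_one_comm.1 h1
  have h5 : R.adjugate = Rᵀ := by
    have h := mul_adjugate R
    rw [h2, one_smul] at h
    rw [← one_mul R.adjugate, ← h1, mul_assoc, h, mul_one]
  rw [adjugate_fin_three] at h5
  have c : ∀ i j, R 0 i * R 0 j + R 1 i * R 1 j + R 2 i * R 2 j = if i = j then 1 else 0 := by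
    intro i j
    have h := congrFun (congrFun h1 i) j
    rwa [mul_apply, Fin.sum_univ_three, one_apply] at h
  have r : ∀ i j, R i 0 * R j 0 + R i 1 * R j 1 + R i 2 * R j 2 = if i = j then 1 else 0 := by
    intro i j
    have h := congrFun (congrFun h4 i) j
    rwa [mul_apply, Fin.sum_univ_three, one_apply] at h
  have a00 : R 1 1 * R 2 2 - R 1 2 * R 2 1 = R 0 0 := congrFun (congrFun h5 0) 0
  have a01 : -(R 0 1 * R 2 2) + R 0 2 * R 2 1 = R 1 0 := congrFun (congrFun h5 0) 1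
  have a02 : R 0 1 * R 1 2 - R 0 2 * R 1 1 = R 2 0 := congrFun (congrFun h5 0) 2
  have a10 : -(R 1 0 * R 2 2) + R 1 2 * R 2 0 = R 0 1 := congrFun (congrFun h5 1) 0
  have a11 : R 0 0 * R 2 2 - R 0 2 * R 2 0 = R 1 1 := congrFun (congrFun h5 1) 1
  have a12 : -(R 0 0 * R 1 2) + R 0 2 * R 1 0 = R 2 1 := congrFun (congrFun h5 1) 2
  have a20 : R 1 0 * R 2 1 - R 1 1 * R 2 0 = R 0 2 := congrFun (congrFun h5 2) 0
  have a21 : -(R 0 0 * R 2 1) + R 0 1 * R 2 0 = R 1 2 := congrFun (congrFun h5 2) 1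
  have a22 : R 0 0 * R 1 1 - R 0 1 * R 1 0 = R 2 2 := congrFun (congrFun h5 2) 2
  have r00 : _ = (1 : ℝ) := r 0 0
  have r11 : _ = (1 : ℝ) := r 1 1
  have r22 : _ = (1 : ℝ) := r 2 2
  have r01 : _ = (0 : ℝ) := r 0 1
  have r02 : _ = (0 : ℝ) := r 0 2
  have r12 : _ = (0 : ℝ) := r 1 2
  have c00 : _ = (1 : ℝ) := c 0 0
  have c11 : _ = (1 : ℝ) := c 1 1
  have c22 : _ = (1 : ℝ) := c 2 2
  have c01 : _ = (0 : ℝ) := c 0 1
  have c02 : _ = (0 : ℝ) := c 0 2
  have c12 : _ = (0 : ℝ) := c 1 2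
  have d : ∀ i j : Fin 3, i ≠ j → ∑ b : Fin 3, (∑ a : Fin 3, R i a * G a.succ b.succ) * R j b = 0 :=
    fun i j hij => h3 i j hij
  refine ⟨!![1, 0, 0, 0; 0, R 0 0, R 0 1, R 0 2; 0, R 1 0, R 1 1, R 1 2; 0, R 2 0, R 2 1, R 2 2],
    ⟨?_, fun a => ?_, fun a => ?_⟩, fun p z => ?_, ?_, ?_, ?_⟩
  · ext i j
    fin_cases i <;> fin_cases j <;> simp [mul_apply, Fin.sum_univ_four] <;> linarith
  · fin_cases a <;> simp
  · fin_cases a <;> simp
  · ext i
    fin_cases i <;> simp [qm, vecMul, dotProduct, Fin.sum_univ_four]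
    · linear_combination (-(p 1 * z 1)) * r00 - p 2 * z 2 * r11 - p 3 * z 3 * r22 -
        (p 1 * z 2 + p 2 * z 1) * r01 - (p 1 * z 3 + p 3 * z 1) * r02 -
        (p 2 * z 3 + p 3 * z 2) * r12
    · linear_combination (p 2 * z 3 - p 3 * z 2) * a00 + (p 3 * z 1 - p 1 * z 3) * a01 +
        (p 1 * z 2 - p 2 * z 1) * a02
    · linear_combination (p 2 * z 3 - p 3 * z 2) * a10 + (p 3 * z 1 - p 1 * z 3) * a11 +
        (p 1 * z 2 - p 2 * z 1) * a12
    · linear_combination (p 2 * z 3 - p 3 * z 2) * a20 + (p 3 * z 1 - p 1 * z 3) * a21 +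
        (p 1 * z 2 - p 2 * z 1) * a22
  · have h := d 0 1 (by decide)
    simp [Fin.sum_univ_three] at h
    simpa [mul_apply, vecMul, dotProduct, Fin.sum_univ_four] using h
  · have h := d 0 2 (by decide)
    simp [Fin.sum_univ_three] at h
    simpa [mul_apply, vecMul, dotProduct, Fin.sum_univ_four] using h
  · have h := d 1 2 (by decide)
    simp [Fin.sum_univ_three] at h
    simpa [mul_apply, vecMul, dotProduct, Fin.sum_univ_four] using h

end Vale.Agent.P366
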