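import Vale.Agent.P366.Alg
import Vale.Agent.P366.Rot0

/-! Rotating the quaternionic structure. -/

noncomputable section

open Matrix MeasureTheory Set Filter Topology Asymptotics

namespace Vale.Agent.P366

variable {n : ℕ}

theorem Jv_rot (J : Fin 4 → Mn n) (O : M4) (p : Fin 4 → ℝ) :
    Jv (rotJ J O) p = Jv J (p ᵥ* O) := by
  simp only [Jv, rotJ, vecMul, dotProduct, Finset.smul_sum, Finset.sum_smul, smul_smul]
  exact Finset.sum_comm

theorem qt_rot {J : Fin 4 → Mn n} (hJ : QT J) {O : M4} (hO : Rot4 O)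
    (hq : ∀ p z, qm (p ᵥ* O) (z ᵥ* O) = qm p z ᵥ* O) : QT (rotJ J O) := by
  refine ⟨?_, fun p z => by rw [Jv_rot, Jv_rot, Jv_rot, hJ.mul, hq], fun a => ?_⟩
  · simp [rotJ, Jv, hO.row, hJ.one]
  · simp only [rotJ, Jv, transpose_sum, transpose_smul, hJ.tr, Finset.smul_sum, smul_smul]
    refine Finset.sum_congr rfl fun b _ => ?_
    congr 1
    fin_cases a <;> fin_cases b <;> simp [sg, hO.row, hO.col]

theorem Xi_rot (J : Fin 4 → Mn n) (O : M4) (x : Fin n → ℝ) :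
    Xi (rotJ J O) x = Xi J x * Oᵀ := by
  ext i a
  simp [Xi, rotJ, Jv, Matrix.sum_mulVec, smul_mulVec, mul_apply, mul_comm]

theorem rot_l {O : M4} (hO : Rot4 O) {κ : Type} (X : Matrix (Fin 4) κ ℝ) : Oᵀ * (O * X) = X := by
  rw [← Matrix.mul_assoc, hO.orth, Matrix.one_mul]

theorem ans_rot (J : Fin 4 → Mn n) {O : M4} (hO : Rot4 O) (x : Fin n → ℝ) (F : ℝ) (G : M4) :
    ans (rotJ J O) x F (O * G * Oᵀ) = ans J x F G := by
  simp only [ans, PP, Xi_rot, Matrix.mul_assoc, transpose_mul, transpose_transpose, rot_l hO]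

theorem rad_rot {J : Fin 4 → Mn n} {O : M4} (hO : Rot4 O) {r₁ : ℝ} {k : ℕ} {g : Fld n}
    {F : ℝ → ℝ} {G : ℝ → M4} (h : Rad J r₁ k g F G) :
    Rad (rotJ J O) r₁ k g F (fun r => O * G r * Oᵀ) := by
  refine ⟨fun x hx => by rw [ans_rot J hO, h.eq x hx], h.cF, fun a b => ?_, fun r hr => ?_⟩
  · simp only [mul_apply]
    exact ContDiffOn.sum fun j _ =>
      (ContDiffOn.sum fun i _ => contDiffOn_const.mul (h.cG i j)).mul contDiffOn_const
  · rw [Matrix.IsSymm, transpose_mul, transpose_mul, transpose_transpose, (h.sym r hr).eq,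
      Matrix.mul_assoc]

theorem dotM_rot (O : M4) {G : ℝ → M4} {r : ℝ}
    (hG : ∀ a b, DifferentiableAt ℝ (fun s => G s a b) r) :
    dotM (fun s => O * G s * Oᵀ) r = O * dotM G r * Oᵀ := by
  ext a b
  have h : HasDerivAt (fun s => ∑ j, (∑ i, O a i * G s i j) * Oᵀ j b)
      (∑ j, (∑ i, O a i * deriv (fun s => G s i j) r) * Oᵀ j b) r :=
    HasDerivAt.fun_sum fun j _ =>
      (HasDerivAt.fun_sum fun i _ => (hG i j).hasDerivAt.const_mul _).mul_const _
  simp only [dotM, dot, mul_apply, of_apply]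
  rw [h.deriv]
  simp only [Finset.mul_sum, Finset.sum_mul]
  exact Finset.sum_congr rfl fun j _ => Finset.sum_congr rfl fun i _ => by ring

section
variable {O : M4} (hO : Rot4 O)
include hO

theorem conj00 (G : M4) : (O * G * Oᵀ) 0 0 = G 0 0 := by
  simp [mul_apply, hO.row]

theorem conj_inv (G : M4) : (O * G * Oᵀ)⁻¹ = O * G⁻¹ * Oᵀ := by
  rw [Matrix.mul_inv_rev, Matrix.mul_inv_rev, inv_eq_right_inv hO.orth, inv_eq_left_inv hO.orth,
    Matrix.mul_assoc]

theorem rot_mul (A B : M4) : O * A * Oᵀ * (O * B * Oᵀ) = O * (A * B) * Oᵀ := by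
  simp only [Matrix.mul_assoc, rot_l hO]

theorem rot_tr (A : M4) : trace (O * A * Oᵀ) = trace A := by
  rw [trace_mul_cycle, hO.orth, Matrix.one_mul]

theorem rot_det (A : M4) : (O * A * Oᵀ).det = A.det := by
  have h := congrArg det hO.orth
  rw [det_mul, det_one] at h
  rw [det_mul, det_mul]
  linear_combination A.det * h

theorem uu_rot (G : M4) : uu (O * G * Oᵀ) = uu G := by
  rw [uu, conj_inv hO, conj00 hO, uu]

theorem hh_rot (m F Fd : ℝ) (G Gd : M4) :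
    hh m F Fd (O * G * Oᵀ) (O * Gd * Oᵀ) = hh m F Fd G Gd := by
  simp only [hh, ud, uu_rot hO, conj_inv hO, rot_mul hO, rot_tr hO, conj00 hO]

theorem kk_rot (m F FK : ℝ) (G L : M4) :
    kk m F (O * G * Oᵀ) FK (O * L * Oᵀ) = kk m F G FK L := by
  simp only [kk, tt, nn, uu_rot hO, conj_inv hO, rot_mul hO, rot_tr hO, conj00 hO]

theorem H0_rot (m F : ℝ) (G : M4) : H0 m F (O * G * Oᵀ) = H0 m F G := by
  simp only [H0, trY, detY, uu_rot hO, rot_det hO, rot_tr hO, conj00 hO]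

theorem al_rot (r F : ℝ) (G : M4) : al n r F (O * G * Oᵀ) = al n r F G := by
  simp only [al, detY, uu_rot hO, rot_det hO]

theorem fns_rot (F FK : ℝ → ℝ) {G : ℝ → M4} (L : ℝ → M4) {r : ℝ}
    (hG : ∀ a b, DifferentiableAt ℝ (fun s => G s a b) r) :
    Mf n F (fun s => O * G s * Oᵀ) FK (fun s => O * L s * Oᵀ) r = Mf n F G FK L r ∧
    Tp ((n : ℝ) - 4) F (fun s => O * G s * Oᵀ) FK (fun s => O * L s * Oᵀ) r
      = Tp ((n : ℝ) - 4) F G FK L r ∧
    Tm ((n : ℝ) - 4) F (fun s => O * G s * Oᵀ) FK (fun s => O * L s * Oᵀ) r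
      = Tm ((n : ℝ) - 4) F G FK L r := by
  simp only [Mf, Tp, Tm, af, Wf, Hf, uf, hf, kf, dotM_rot O hG, uu_rot hO, hh_rot hO, kk_rot hO,
    H0_rot hO, al_rot hO, and_self]

end

end Vale.Agent.P366
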