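import Vale.Agent.P366.Geo1
import Vale.Agent.P366.D2a
import Vale.Agent.P366.D2b
import Vale.Agent.P366.D3a
import Vale.Agent.P366.D3b
import Vale.Agent.P366.Der2
import Vale.Agent.P366.Rot

/-! Monotonicity of the mass function in the untrapped region. -/

noncomputable section

open Matrix MeasureTheory Set Filter Topology Asymptotics

namespace Vale.Agent.P366

variable {n : ℕ}

section
variable {J : Fin 4 → Mn n} (hJ : QT J) (hn : 4 < n) {r₁ : ℝ} {g K : Fld n} {F FK : ℝ → ℝ}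
  {G L : ℝ → M4} (hg : Rad J r₁ 2 g F G) (hK : Rad J r₁ 1 K FK L) (h : RD r₁ F G FK L)
  {x : Euc n} (hx : r₁ < ‖x‖)
include hJ hn hg h hx

/-- `scal_rad`, `dot_vv`, `QA_ans`, `QV_Gdg`. -/
theorem scal_dg {u : ℝ} {b y : Fin 3 → ℝ} (hu : 0 < u) (hy : ∀ i, 0 < y i)
    (hG : G ‖x‖ = Gdg u b y) :
    ‖x‖ ^ 2 * scal g x = RS ((n : ℝ) - 4) (F ‖x‖) y
      - 2 * u * dot (hf ((n : ℝ) - 4) F G) ‖x‖
      - (ud (G ‖x‖) (dotM G ‖x‖) - 2 * u) * hf ((n : ℝ) - 4) F G ‖x‖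
      - u * hf ((n : ℝ) - 4) F G ‖x‖ ^ 2
      - u * A2 ((n : ℝ) - 4) (F ‖x‖) (dot F ‖x‖) b y (dotM G ‖x‖) := by
  have _ := hn
  have hr : 0 < ‖x‖ := h.pos.trans hx
  have hx0 : x.ofLp ⬝ᵥ x.ofLp ≠ 0 := by
    rw [dot_self_eq]
    exact pow_ne_zero 2 hr.ne'
  have hGd : (dotM G ‖x‖).IsSymm := dotM_symm hg.sym hx
  have hz : (G ‖x‖)⁻¹ = ∑ c, ddg u y c • vecMulVec (zdg b c) (zdg b c) := by
    rw [hG, Gdg_inv hu hy, Gdgi_frame]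
  have h1 := QV_Gdg (b := b) hu hy ((n : ℝ) - 4) (h.Fpos _ hx) (dot F ‖x‖) hGd
  have h2 : uf G ‖x‖ = u := by rw [uf, hG, uu_Gdg hu hy]
  have h3 : hh ((n : ℝ) - 4) (F ‖x‖) (dot F ‖x‖) (G ‖x‖) (dotM G ‖x‖) = hf ((n : ℝ) - 4) F G ‖x‖ :=
    rfl
  rw [← hG, h3] at h1
  rw [scal_rad hJ hg h hx, dg_eq h.pos one_le_two hg hx, hg.eq x hx,
    QA_ans hJ hx0 (h.Fpos _ hx) _ (h.Gpos _ hx) hGd hz, dot_self_eq, dot_vv h hx, h2, ← add_div,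
    mul_div_cancel₀ _ (pow_ne_zero 2 hr.ne')]
  linarith

include hK

/-- `cur_eq`, `mom_rad`, `dg_eq`, `nu_eq`, `cur_ans`, `CV_smul`, `CV_Gdg`, `dot_nn`, `nn_mom`,
`AK_mom`; note `kf s = -s * nn (G s) (L s - t s • G s)` near `r`. -/
theorem cur_dg {u : ℝ} {b y : Fin 3 → ℝ} (hu : 0 < u) (hy : ∀ i, 0 < y i)
    (hG : G ‖x‖ = Gdg u b y) :
    ‖x‖ ^ 2 * ∑ j, cur g K j x * nu g j x = √u *
      (-dot (kf ((n : ℝ) - 4) F G FK L) ‖x‖ + kf ((n : ℝ) - 4) F G FK L ‖x‖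
        - ‖x‖ * AK ((n : ℝ) - 4) (F ‖x‖) (dot F ‖x‖) b y (dotM G ‖x‖) (FK ‖x‖) (L ‖x‖)
        + hf ((n : ℝ) - 4) F G ‖x‖ * (‖x‖ * nn (G ‖x‖) (L ‖x‖))) := by
  have _ := hn
  have hr : 0 < ‖x‖ := h.pos.trans hx
  have hx0 : x.ofLp ⬝ᵥ x.ofLp ≠ 0 := by
    rw [dot_self_eq]
    exact pow_ne_zero 2 hr.ne'
  have hGd : (dotM G ‖x‖).IsSymm := dotM_symm hg.sym hx
  have hz : (G ‖x‖)⁻¹ = ∑ c, ddg u y c • vecMulVec (zdg b c) (zdg b c) := by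
    rw [hG, Gdg_inv hu hy, Gdgi_frame]
  have h2 : uf G ‖x‖ = u := by rw [uf, hG, uu_Gdg hu hy]
  have h3 : hh ((n : ℝ) - 4) (F ‖x‖) (dot F ‖x‖) (G ‖x‖) (dotM G ‖x‖) = hf ((n : ℝ) - 4) F G ‖x‖ :=
    rfl
  have hM := mom_rad hJ hg hK h
  set t : ℝ → ℝ := fun s => tt ((n : ℝ) - 4) (F s) (G s) (FK s) (L s) with ht
  set FB : ℝ → ℝ := fun s => FK s - t s * F s with hFB
  set B : ℝ → M4 := fun s => L s - t s • G s with hB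
  have hBs : (B ‖x‖).IsSymm := hM.sym _ hx
  have hBd : (dotM B ‖x‖).IsSymm := dotM_symm hM.sym hx
  have hBdiff : ∀ a c, DifferentiableAt ℝ (fun s => B s a c) ‖x‖ := fun a c =>
    ((hM.cG a c).contDiffAt (Ioi_mem_nhds hx)).differentiableAt (by simp)
  obtain ⟨hN1, hN2⟩ := dot_nn h hx hBdiff
  have h4 : (G ‖x‖)⁻¹ *ᵥ Pi.single 0 1 = u • zdg b 0 := by rw [hG, Gdg_inv_e0 hu hy]
  have h5 := CV_Gdg (b := b) hu hy ((n : ℝ) - 4) (h.Fpos _ hx) (dot F ‖x‖) hGd (FB ‖x‖) hBs hBd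
  have h6 := AK_mom (b := b) hu hy ((n : ℝ) - 4) (F ‖x‖) (dot F ‖x‖) (FK ‖x‖) (t ‖x‖)
    (h.Fpos _ hx).ne' hGd (L ‖x‖)
  rw [← hG, h3] at h5 h6
  have h7 : nn (G ‖x‖) (B ‖x‖) = nn (G ‖x‖) (L ‖x‖) - t ‖x‖ := nn_mom (h.Gpos _ hx) _ _
  have h8 : kf ((n : ℝ) - 4) F G FK L =ᶠ[𝓝 ‖x‖] fun s => -(s * nn (G s) (B s)) := by
    filter_upwards [Ioi_mem_nhds hx] with s hs
    have e : nn (G s) (B s) = nn (G s) (L s) - t s := nn_mom (h.Gpos s hs) _ _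
    rw [e, kf, kk]
    ring
  have h9 : dot (kf ((n : ℝ) - 4) F G FK L) ‖x‖ = -(‖x‖ * nn (G ‖x‖) (B ‖x‖))
      - ‖x‖ * dot (fun s => nn (G s) (B s)) ‖x‖ := by
    have e : HasDerivAt (fun s => -(s * nn (G s) (B s)))
        (-(1 * nn (G ‖x‖) (B ‖x‖) + ‖x‖ * deriv (fun s => nn (G s) (B s)) ‖x‖)) ‖x‖ :=
      ((hasDerivAt_id' ‖x‖).mul hN1.hasDerivAt).neg
    rw [dot, dot, h8.deriv_eq, e.deriv]
    ring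
  have h10 : ∑ j, cur g K j x * nu g j x = (‖x‖ * √u)⁻¹ * (u * CV ((n : ℝ) - 4) (F ‖x‖) (dot F ‖x‖)
      (G ‖x‖) (dotM G ‖x‖) (FB ‖x‖) (B ‖x‖) (dotM B ‖x‖) (ddg u y) (zdg b) (zdg b 0)) := by
    rw [← CV_smul, ← CV_smul, ← cur_ans hJ hx0 (h.Fpos _ hx) (dot F ‖x‖) (h.Gpos _ hx) hGd hz
      (FB ‖x‖) (dot FB ‖x‖) hBs]
    refine Finset.sum_congr rfl fun j _ => ?_
    rw [cur_eq, nu_eq hJ hg h hx, dg_eq h.pos one_le_two hg hx, dg_eq h.pos le_rfl hM hx,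
      hg.eq x hx, hM.eq x hx, h2, h4]
  have h11 : AK ((n : ℝ) - 4) (F ‖x‖) (dot F ‖x‖) b y (dotM G ‖x‖) (FB ‖x‖) (B ‖x‖) =
      AK ((n : ℝ) - 4) (F ‖x‖) (dot F ‖x‖) b y (dotM G ‖x‖) (FK ‖x‖) (L ‖x‖)
        - t ‖x‖ * hf ((n : ℝ) - 4) F G ‖x‖ := h6
  have h12 : ‖x‖ ^ 2 * ((‖x‖ * √u)⁻¹ * u) = √u * ‖x‖ := by
    rw [mul_inv, show ‖x‖ ^ 2 * (‖x‖⁻¹ * (√u)⁻¹ * u) = ‖x‖ * (‖x‖ * ‖x‖⁻¹) * ((√u)⁻¹ * u) by ring,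
      mul_inv_cancel₀ hr.ne', mul_one, inv_mul_eq_div, Real.div_sqrt, mul_comm]
  have h13 : kf ((n : ℝ) - 4) F G FK L ‖x‖ = -(‖x‖ * nn (G ‖x‖) (B ‖x‖)) := h8.self_of_nhds
  rw [h10, ← mul_assoc _ u, ← mul_assoc, h12, h5, h11, h9, h13, ← hN2, h7]
  ring

end

end Vale.Agent.P366
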